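import Vale.Agent.P322.CKStmts

/-! The pointwise strong data processing inequality. -/

namespace Vale.Agent.P322.L1aux

open Real Set

theorem mvt {u u1 : ℝ → ℝ} {a b : ℝ} (hab : a < b) (hc : ContinuousOn u (Icc a b))
    (hd : ∀ x ∈ Ioo a b, HasDerivAt u (u1 x) x) :
    ∃ s ∈ Ioo a b, u b - u a = u1 s * (b - a) := by
  obtain ⟨s, hs, h⟩ := exists_hasDerivAt_eq_slope u u1 hab hc hd
  refine ⟨s, hs, ?_⟩
  rw [h]
  field_simp [(sub_pos.2 hab).ne']

theorem mvt' {u u1 : ℝ → ℝ} {a b : ℝ} (hab : a < b)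
    (hd : ∀ x ∈ Icc a b, HasDerivAt u (u1 x) x) :
    ∃ s ∈ Ioo a b, u b - u a = u1 s * (b - a) :=
  mvt hab (fun x hx => (hd x hx).continuousAt.continuousWithinAt)
    (fun x hx => hd x (Ioo_subset_Icc_self hx))

theorem neg_of {x y z : ℝ} (h : x = y * z) (hx : x < 0) (hz : 0 < z) : y < 0 := by
  by_contra hy
  have := mul_nonneg (not_lt.1 hy) hz.le
  linarith

theorem pos_of {x y z : ℝ} (h : x = y * z) (hx : 0 < x) (hz : 0 < z) : 0 < y := by
  by_contra hy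
  have := mul_nonpos_of_nonpos_of_nonneg (not_lt.1 hy) hz.le
  linarith

theorem nonneg_of {x y z : ℝ} (h : x = y * z) (hx : 0 ≤ x) (hz : 0 < z) : 0 ≤ y := by
  by_contra hy
  have := mul_neg_of_neg_of_pos (not_le.1 hy) hz
  linarith

theorem nonpos_of {x y z : ℝ} (h : x = y * z) (hx : x ≤ 0) (hz : 0 < z) : y ≤ 0 := by
  by_contra hy
  have := mul_pos (not_le.1 hy) hz
  linarith

/-- Left of the touching point. -/
theorem left_lem {u u1 u2 : ℝ → ℝ} {a R : ℝ} (hc : ContinuousOn u (Icc a R))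
    (hd : ∀ x ∈ Ioo a R, HasDerivAt u (u1 x) x)
    (hd1 : ∀ x ∈ Ioc a R, HasDerivAt u1 (u2 x) x)
    (hp : ∀ x y, a < x → x ≤ y → y < R → 0 ≤ u2 x → 0 ≤ u2 y)
    (ha : 0 ≤ u a) (hR : u R = 0) (hR1 : u1 R = 0) :
    ∀ x ∈ Icc a R, 0 ≤ u x := by
  intro x hx
  by_contra hneg
  have hneg : u x < 0 := not_le.1 hneg
  have h1 : a < x := lt_of_le_of_ne hx.1 (by rintro rfl; linarith)
  have h2 : x < R := lt_of_le_of_ne hx.2 (by rintro rfl; linarith)
  obtain ⟨s1, hs1, e1⟩ := mvt h1 (hc.mono (Icc_subset_Icc le_rfl h2.le))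
    (fun y hy => hd y ⟨hy.1, hy.2.trans h2⟩)
  obtain ⟨s2, hs2, e2⟩ := mvt h2 (hc.mono (Icc_subset_Icc h1.le le_rfl))
    (fun y hy => hd y ⟨h1.trans hy.1, hy.2⟩)
  have n1 : u1 s1 < 0 := neg_of e1 (by linarith) (by linarith)
  have n2 : 0 < u1 s2 := pos_of e2 (by linarith) (by linarith)
  have h12 : s1 < s2 := hs1.2.trans hs2.1
  obtain ⟨t1, ht1, e3⟩ := mvt' h12
    (fun y hy => hd1 y ⟨hs1.1.trans_le hy.1, hy.2.trans hs2.2.le⟩)
  have n3 : 0 < u2 t1 := pos_of e3 (by linarith) (by linarith)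
  obtain ⟨t2, ht2, e4⟩ := mvt' hs2.2
    (fun y hy => hd1 y ⟨(h1.trans hs2.1).trans_le hy.1, hy.2⟩)
  have n4 : u2 t2 < 0 := neg_of e4 (by linarith) (by linarith [hs2.2])
  have := hp t1 t2 (hs1.1.trans ht1.1) (ht1.2.trans ht2.1).le ht2.2 n3.le
  linarith

/-- Right of the touching point. -/
theorem right_lem {u u1 u2 : ℝ → ℝ} {R x : ℝ} (hx : R < x) (hc : ContinuousOn u (Icc R x))
    (hd : ∀ y ∈ Ioo R x, HasDerivAt u (u1 y) y)
    (hd1 : ∀ y ∈ Ico R x, HasDerivAt u1 (u2 y) y)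
    (hR : u R = 0) (hR1 : u1 R = 0) (hneg : u x < 0) :
    ∃ s t, R < t ∧ t < s ∧ s < x ∧ u1 s < 0 ∧ u2 t < 0 := by
  obtain ⟨s, hs, e1⟩ := mvt hx hc hd
  have n1 : u1 s < 0 := neg_of e1 (by linarith) (by linarith)
  obtain ⟨t, ht, e2⟩ := mvt' hs.1 (fun y hy => hd1 y ⟨hy.1, hy.2.trans_lt hs.2⟩)
  have n2 : u2 t < 0 := neg_of e2 (by linarith) (by linarith [hs.1])
  exact ⟨s, t, ht.1, ht.2, hs.2, n1, n2⟩

/-- Twice the relative entropy in bias coordinates. -/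
noncomputable def KF (r R : ℝ) : ℝ :=
  (1 + r) * log (1 + r) + (1 - r) * log (1 - r) - (1 + r) * log (1 + R) - (1 - r) * log (1 - R)

noncomputable def AA (r : ℝ) : ℝ := log (1 + r) - log (1 - r)

noncomputable def EE (α ρ K r : ℝ) : ℝ := α / (1 - r ^ 2) - ρ ^ 2 / (1 - ρ ^ 2 * r ^ 2) - 2 * K

theorem KF_cont (R : ℝ) : Continuous fun r => KF r R := by
  unfold KF
  have h1 : Continuous fun r : ℝ => (1 + r) * log (1 + r) :=
    continuous_mul_log.comp (continuous_const.add continuous_id)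
  have h2 : Continuous fun r : ℝ => (1 - r) * log (1 - r) :=
    continuous_mul_log.comp (continuous_const.sub continuous_id)
  exact ((h1.add h2).sub (by fun_prop)).sub (by fun_prop)

theorem KF_deriv (R : ℝ) {r : ℝ} (h0 : 0 ≤ r) (h1 : r < 1) :
    HasDerivAt (fun r => KF r R) (AA r - AA R) r := by
  have a1 : HasDerivAt (fun r : ℝ => 1 + r) 1 r := (hasDerivAt_id r).const_add 1
  have a2 : HasDerivAt (fun r : ℝ => 1 - r) (-1) r := (hasDerivAt_id r).const_sub 1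
  have b1 := (hasDerivAt_mul_log (x := 1 + r) (by linarith)).comp r a1
  have b2 := (hasDerivAt_mul_log (x := 1 - r) (by linarith)).comp r a2
  have := ((b1.add b2).sub (a1.mul_const (log (1 + R)))).sub (a2.mul_const (log (1 - R)))
  refine HasDerivAt.congr_deriv this ?_
  unfold AA
  ring

theorem AA_deriv {r : ℝ} (h0 : 0 ≤ r) (h1 : r < 1) :
    HasDerivAt AA (2 / (1 - r ^ 2)) r := by
  have a1 : HasDerivAt (fun r : ℝ => 1 + r) 1 r := (hasDerivAt_id r).const_add 1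
  have a2 : HasDerivAt (fun r : ℝ => 1 - r) (-1) r := (hasDerivAt_id r).const_sub 1
  have p1 : 1 + r ≠ 0 := by linarith
  have p2 : 1 - r ≠ 0 := by linarith
  have := (a1.log p1).sub (a2.log p2)
  refine HasDerivAt.congr_deriv this ?_
  have : 1 - r ^ 2 = (1 + r) * (1 - r) := by ring
  rw [this]
  field_simp
  ring

theorem EE_pat {α ρ K x y : ℝ} (hα : 0 ≤ α) (hK : 0 ≤ K) (h0 : 0 ≤ ρ) (h1 : ρ ≤ 1)
    (hx : 0 ≤ x) (hxy : x ≤ y) (hy : y < 1) (h : 0 ≤ EE α ρ K x) : 0 ≤ EE α ρ K y := by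
  have hρ : ρ ^ 2 ≤ 1 := by nlinarith
  have key : ∀ z : ℝ, 0 ≤ z → z < 1 → 0 < 1 - ρ ^ 2 * z ^ 2 ∧ 0 < 1 - z ^ 2 ∧
      EE α ρ K z = (α * (ρ ^ 2 + (1 - ρ ^ 2) / (1 - z ^ 2)) - ρ ^ 2 -
        2 * K * (1 - ρ ^ 2 * z ^ 2)) / (1 - ρ ^ 2 * z ^ 2) := by
    intro z z0 z1
    have q1 : 0 < 1 - z ^ 2 := by nlinarith
    have q2 : 0 < 1 - ρ ^ 2 * z ^ 2 := by nlinarith [sq_nonneg z]
    refine ⟨q2, q1, ?_⟩
    unfold EE
    have q3 := q1.ne'
    have q4 := q2.ne'
    rw [eq_div_iff q4, sub_mul, sub_mul, div_mul_cancel₀ _ q4]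
    field_simp
    ring
  obtain ⟨a1, a2, a3⟩ := key x hx (hxy.trans_lt hy)
  obtain ⟨b1, b2, b3⟩ := key y (hx.trans hxy) hy
  rw [a3, le_div_iff₀ a1, zero_mul] at h
  rw [b3]
  refine div_nonneg ?_ b1.le
  have hs : x ^ 2 ≤ y ^ 2 := by nlinarith
  have c1 : (1 - ρ ^ 2) / (1 - x ^ 2) ≤ (1 - ρ ^ 2) / (1 - y ^ 2) :=
    div_le_div_of_nonneg_left (by linarith) b2 (by linarith)
  have c2 := mul_le_mul_of_nonneg_left c1 hα
  have c3 : K * (ρ ^ 2 * x ^ 2) ≤ K * (ρ ^ 2 * y ^ 2) :=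
    mul_le_mul_of_nonneg_left (mul_le_mul_of_nonneg_left hs (sq_nonneg ρ)) hK
  nlinarith

theorem part_a {α ρ K x y : ℝ} (hα : 0 ≤ α) (hK : 0 ≤ K) (h0 : 0 ≤ ρ) (h1 : ρ ≤ 1)
    (hx : 0 < x) (hxy : x ≤ y) (hy : y < 1)
    (h : 2 * K * x ^ 2 ≤ α * KF 0 x - KF 0 (ρ * x)) :
    2 * K * y ^ 2 ≤ α * KF 0 y - KF 0 (ρ * y) := by
  set u : ℝ → ℝ := fun z => α * KF 0 z - KF 0 (ρ * z) - 2 * K * z ^ 2 with hu
  have d0 : ∀ z : ℝ, 0 ≤ z → z < 1 → HasDerivAt (fun z => KF 0 z) (2 * z / (1 - z ^ 2)) z := by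
    intro z z0 z1
    have a1 : HasDerivAt (fun r : ℝ => 1 + r) 1 z := (hasDerivAt_id z).const_add 1
    have a2 : HasDerivAt (fun r : ℝ => 1 - r) (-1) z := (hasDerivAt_id z).const_sub 1
    have p1 : 1 + z ≠ 0 := by linarith
    have p2 : 1 - z ≠ 0 := by linarith
    have := (a1.log p1).neg.sub (a2.log p2)
    have e : (fun z => KF 0 z) = fun z : ℝ => -log (1 + z) - log (1 - z) := by
      funext z
      simp [KF]
    rw [e]
    refine HasDerivAt.congr_deriv this ?_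
    have : 1 - z ^ 2 = (1 + z) * (1 - z) := by ring
    rw [this]
    field_simp
    ring
  have hd : ∀ z : ℝ, 0 ≤ z → z < 1 → HasDerivAt u (2 * z * EE α ρ K z) z := by
    intro z z0 z1
    have r0 : 0 ≤ ρ * z := mul_nonneg h0 z0
    have r1 : ρ * z < 1 := by nlinarith
    have a1 : HasDerivAt (fun r : ℝ => ρ * r) ρ z := by
      simpa using (hasDerivAt_id z).const_mul ρ
    have b1 := (d0 (ρ * z) r0 r1).comp z a1
    have b2 := (hasDerivAt_pow 2 z).const_mul (2 * K)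
    have := (((d0 z z0 z1).const_mul α).sub b1).sub b2
    refine HasDerivAt.congr_deriv this ?_
    unfold EE
    rw [mul_pow]
    push_cast
    ring
  have u0 : u 0 = 0 := by simp [hu, KF]
  have ux : 0 ≤ u x := by simp only [hu]; linarith
  suffices 0 ≤ u y by simp only [hu] at this; linarith
  rcases hxy.eq_or_lt with rfl | hlt
  · exact ux
  obtain ⟨s, hs, e1⟩ := mvt' hx (fun z hz => hd z hz.1 (hz.2.trans_lt (hlt.trans hy)))
  have n1 := nonneg_of e1 (by linarith) (by linarith)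
  have n2 : 0 ≤ EE α ρ K s := by
    refine nonneg_of (x := 2 * s * EE α ρ K s) (z := 2 * s) (by ring) n1 (by linarith [hs.1])
  obtain ⟨t, ht, e2⟩ := mvt' hlt (fun z hz => hd z (hx.le.trans hz.1) (hz.2.trans_lt hy))
  have n3 : 0 ≤ EE α ρ K t :=
    EE_pat hα hK h0 h1 hs.1.le (hs.2.trans ht.1).le (ht.2.trans hy) n2
  have n4 : 0 ≤ 2 * t * EE α ρ K t * (y - x) :=
    mul_nonneg (mul_nonneg (by linarith [ht.1]) n3) (by linarith)
  linarith

theorem part_b {α ρ K R r : ℝ} (hα : 0 ≤ α) (hK : 0 ≤ K) (h0 : 0 ≤ ρ) (h1 : ρ ≤ 1)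
    (hR0 : 0 < R) (hR1 : R < 1) (h : 2 * K * R ^ 2 ≤ α * KF 0 R - KF 0 (ρ * R))
    (hr0 : 0 ≤ r) (hr1 : r ≤ 1) :
    2 * K * (r - R) ^ 2 ≤ α * KF r R - KF (ρ * r) (ρ * R) := by
  set u : ℝ → ℝ := fun z => α * KF z R - KF (ρ * z) (ρ * R) - 2 * K * (z - R) ^ 2 with hu
  set u1 : ℝ → ℝ := fun z => α * (AA z - AA R) - ρ * (AA (ρ * z) - AA (ρ * R)) - 4 * K * (z - R)
    with hu1
  set u2 : ℝ → ℝ := fun z => 2 * EE α ρ K z with hu2
  have hc : Continuous u := by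
    have c1 := KF_cont R
    have c2 := (KF_cont (ρ * R)).comp (continuous_const.mul continuous_id : Continuous fun z : ℝ => ρ * z)
    exact ((continuous_const.mul c1).sub c2).sub (by fun_prop)
  have lin : ∀ z : ℝ, HasDerivAt (fun r : ℝ => ρ * r) ρ z := fun z => by
    simpa using (hasDerivAt_id z).const_mul ρ
  have hd : ∀ z : ℝ, 0 ≤ z → z < 1 → HasDerivAt u (u1 z) z := by
    intro z z0 z1
    have r0 : 0 ≤ ρ * z := mul_nonneg h0 z0
    have r1 : ρ * z < 1 := by nlinarith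
    have b1 := (KF_deriv (ρ * R) r0 r1).comp z (lin z)
    have b2 := (((hasDerivAt_id z).sub_const R).pow 2).const_mul (2 * K)
    have := (((KF_deriv R z0 z1).const_mul α).sub b1).sub b2
    refine HasDerivAt.congr_deriv this ?_
    simp only [hu1, id]
    push_cast
    ring
  have hd1 : ∀ z : ℝ, 0 ≤ z → z < 1 → HasDerivAt u1 (u2 z) z := by
    intro z z0 z1
    have r0 : 0 ≤ ρ * z := mul_nonneg h0 z0
    have r1 : ρ * z < 1 := by nlinarith
    have b1 := (((AA_deriv r0 r1).comp z (lin z)).sub_const (AA (ρ * R))).const_mul ρ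
    have b2 := ((hasDerivAt_id z).sub_const R).const_mul (4 * K)
    have := ((((AA_deriv z0 z1).sub_const (AA R)).const_mul α).sub b1).sub b2
    refine HasDerivAt.congr_deriv this ?_
    simp only [hu2, EE]
    rw [mul_pow]
    ring
  have pat : ∀ x y : ℝ, 0 ≤ x → x ≤ y → y < 1 → 0 ≤ u2 x → 0 ≤ u2 y := by
    intro x y hx hxy hy hh
    have := EE_pat hα hK h0 h1 hx hxy hy (by simp only [hu2] at hh; linarith)
    simp only [hu2]
    linarith
  have u0 : 0 ≤ u 0 := by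
    simp only [hu, mul_zero, zero_sub, even_two, Even.neg_pow]
    linarith
  have uR : u R = 0 := by simp [hu, KF]
  have u1R : u1 R = 0 := by simp [hu1]
  suffices 0 ≤ u r by simp only [hu] at this; linarith
  rcases le_or_gt r R with hle | hlt
  · exact left_lem hc.continuousOn (fun z hz => hd z hz.1.le (hz.2.trans hR1))
      (fun z hz => hd1 z hz.1.le (hz.2.trans_lt hR1))
      (fun x y hx hxy hy => pat x y hx.le hxy (hy.trans hR1)) u0 uR u1R r ⟨hr0, hle⟩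
  by_contra hneg
  obtain ⟨s, t, t1, t2, t3, -, n2⟩ := right_lem hlt hc.continuousOn
    (fun z hz => hd z (hR0.trans hz.1).le (hz.2.trans_le hr1))
    (fun z hz => hd1 z (hR0.le.trans hz.1) (hz.2.trans_le hr1)) uR u1R (not_le.1 hneg)
  obtain ⟨s1, hs1, e1⟩ := mvt' hR0 (fun z hz => hd z hz.1 (hz.2.trans_lt hR1))
  have n3 : u1 s1 ≤ 0 := nonpos_of e1 (by linarith) (by linarith)
  obtain ⟨t1', ht1, e2⟩ := mvt' hs1.2
    (fun z hz => hd1 z (hs1.1.le.trans hz.1) (hz.2.trans_lt hR1))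
  have n4 : 0 ≤ u2 t1' := nonneg_of e2 (by linarith) (by linarith [hs1.2])
  have := pat t1' t (hs1.1.trans ht1.1).le (ht1.2.trans t1).le (by linarith) n4
  linarith

theorem end_pt {W : ℝ} (h0 : 0 < W) (h1 : W ≤ 1 / 2) :
    0 ≤ W * (W * log W) - (1 - W) * ((1 - W) * log (1 - W)) := by
  set g : ℝ → ℝ := fun z => z * (z * log z) - (1 - z) * ((1 - z) * log (1 - z)) with hg
  have hc : Continuous g := by
    have h2 : Continuous fun r : ℝ => (1 - r) * log (1 - r) :=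
      continuous_mul_log.comp (continuous_const.sub continuous_id)
    exact (continuous_id.mul continuous_mul_log).sub ((continuous_const.sub continuous_id).mul h2)
  have hd : ∀ z : ℝ, 0 < z → z < 1 → HasDerivAt g (1 - 2 * binEntropy z) z := by
    intro z z0 z1
    have a2 : HasDerivAt (fun r : ℝ => 1 - r) (-1) z := (hasDerivAt_id z).const_sub 1
    have b1 := hasDerivAt_mul_log (x := z) z0.ne'
    have b2 := (hasDerivAt_mul_log (x := 1 - z) (by linarith)).comp z a2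
    have := ((hasDerivAt_id z).mul b1).sub (a2.mul b2)
    refine HasDerivAt.congr_deriv this ?_
    simp only [binEntropy, log_inv, id, Function.comp]
    ring
  have g0 : g 0 = 0 := by simp [hg]
  have g1 : g (1 / 2) = 0 := by
    simp only [hg]
    norm_num
  change 0 ≤ g W
  by_contra hneg
  have hneg : g W < 0 := not_le.1 hneg
  have hlt : W < 1 / 2 := lt_of_le_of_ne h1 (by rintro rfl; linarith)
  obtain ⟨s1, hs1, e1⟩ := mvt (u1 := fun z => 1 - 2 * binEntropy z) h0 hc.continuousOn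
    (fun z hz => hd z hz.1 (by linarith [hz.2]))
  obtain ⟨s2, hs2, e2⟩ := mvt (u1 := fun z => 1 - 2 * binEntropy z) hlt hc.continuousOn
    (fun z hz => hd z (h0.trans hz.1) (by linarith [hz.2]))
  have n1 := neg_of e1 (by linarith) (by linarith)
  have n2 := pos_of e2 (by linarith) (by linarith)
  have := binEntropy_strictMonoOn (a := s1) ⟨hs1.1.le, by linarith [hs1.2]⟩ (b := s2)
    ⟨by linarith [hs2.1], by linarith [hs2.2]⟩ (hs1.2.trans hs2.1)
  linarith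

theorem kl_eq (w W : ℝ) :
    kl w W = w * log w - w * log W + ((1 - w) * log (1 - w) - (1 - w) * log (1 - W)) := by
  simp only [kl, binEntropy, log_inv]
  ring

theorem part_c {W w : ℝ} (h0 : 0 < W) (h1 : W ≤ 1 / 2) (w0 : 0 ≤ w) (w1 : w ≤ 1) :
    kl w W ≤ -log (1 - W) * ((w - W) ^ 2 / W ^ 2) := by
  set L := -log (1 - W) with hL
  have LW : W ≤ L := by
    have := log_le_sub_one_of_pos (x := 1 - W) (by linarith)
    linarith
  set M := L / W ^ 2 with hM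
  set u : ℝ → ℝ := fun z => M * (z - W) ^ 2 -
    (z * log z - z * log W + ((1 - z) * log (1 - z) - (1 - z) * log (1 - W))) with hu
  set u1 : ℝ → ℝ := fun z => 2 * M * (z - W) -
    (log z - log W - log (1 - z) + log (1 - W)) with hu1
  set u2 : ℝ → ℝ := fun z => 2 * M - 1 / (z * (1 - z)) with hu2
  have hc : Continuous u := by
    have h2 : Continuous fun r : ℝ => (1 - r) * log (1 - r) :=
      continuous_mul_log.comp (continuous_const.sub continuous_id)
    exact Continuous.sub (by fun_prop)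
      ((continuous_mul_log.sub (by fun_prop)).add (h2.sub (by fun_prop)))
  have hd : ∀ z : ℝ, 0 < z → z < 1 → HasDerivAt u (u1 z) z := by
    intro z z0 z1
    have a2 : HasDerivAt (fun r : ℝ => 1 - r) (-1) z := (hasDerivAt_id z).const_sub 1
    have b1 := hasDerivAt_mul_log (x := z) z0.ne'
    have b2 := (hasDerivAt_mul_log (x := 1 - z) (by linarith)).comp z a2
    have b3 := (((hasDerivAt_id z).sub_const W).pow 2).const_mul M
    have := b3.sub ((b1.sub ((hasDerivAt_id z).mul_const (log W))).add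
      (b2.sub (a2.mul_const (log (1 - W)))))
    refine HasDerivAt.congr_deriv this ?_
    simp only [hu1, id]
    push_cast
    ring
  have hd1 : ∀ z : ℝ, 0 < z → z < 1 → HasDerivAt u1 (u2 z) z := by
    intro z z0 z1
    have a2 : HasDerivAt (fun r : ℝ => 1 - r) (-1) z := (hasDerivAt_id z).const_sub 1
    have p2 : 1 - z ≠ 0 := by linarith
    have b3 := ((hasDerivAt_id z).sub_const W).const_mul (2 * M)
    have := b3.sub (((((hasDerivAt_log z0.ne').sub_const (log W))).sub (a2.log p2)).add_const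
      (log (1 - W)))
    refine HasDerivAt.congr_deriv this ?_
    simp only [hu2]
    have := z0.ne'
    field_simp
    ring
  have cmp : ∀ x y : ℝ, 0 < x → x < 1 → x * (1 - x) ≤ y * (1 - y) → u2 x ≤ u2 y := by
    intro x y x0 x1 hxy
    have := one_div_le_one_div_of_le (mul_pos x0 (by linarith)) hxy
    simp only [hu2]
    linarith
  have u0 : 0 ≤ u 0 := by
    have : u 0 = 0 := by
      simp only [hu, hM, hL]
      have := h0.ne'
      simp
      field_simp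
      ring
    exact this.ge
  have uW : u W = 0 := by simp [hu]
  have u1W : u1 W = 0 := by simp [hu1]
  have uone : 0 ≤ u 1 := by
    have e : u 1 = (W * (W * log W) - (1 - W) * ((1 - W) * log (1 - W))) / W ^ 2 := by
      simp only [hu, hM, hL]
      have := h0.ne'
      simp
      field_simp
      ring
    rw [e]
    exact div_nonneg (end_pt h0 h1) (sq_nonneg W)
  have u2W : 0 ≤ u2 W := by
    simp only [hu2, hM]
    have q : 0 < 1 - W := by linarith
    have e : 2 * (L / W ^ 2) - 1 / (W * (1 - W)) = (2 * L * (1 - W) - W) / (W ^ 2 * (1 - W)) := by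
      have := h0.ne'
      field_simp
    rw [e]
    refine div_nonneg ?_ (by positivity)
    nlinarith
  suffices 0 ≤ u w by
    rw [kl_eq]
    have e : L * ((w - W) ^ 2 / W ^ 2) = M * (w - W) ^ 2 := by rw [hM]; ring
    rw [e]
    simp only [hu] at this
    linarith
  rcases le_or_gt w W with hle | hlt
  · refine left_lem hc.continuousOn (fun z hz => hd z hz.1 (by linarith [hz.2]))
      (fun z hz => hd1 z hz.1 (by linarith [hz.2]))
      (fun x y hx hxy hy hh => hh.trans (cmp x y hx (by linarith) (by nlinarith))) u0 uW u1W w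
      ⟨w0, hle⟩
  by_contra hneg
  have hneg : u w < 0 := not_le.1 hneg
  obtain ⟨s, t, t1, t2, t3, n1, n2⟩ := right_lem hlt hc.continuousOn
    (fun z hz => hd z (h0.trans hz.1) (hz.2.trans_le w1))
    (fun z hz => hd1 z (h0.trans_le hz.1) (hz.2.trans_le w1)) uW u1W hneg
  have hw1 : w < 1 := lt_of_le_of_ne w1 (by rintro rfl; linarith)
  obtain ⟨s2, hs2, e1⟩ := mvt hw1 hc.continuousOn
    (fun z hz => hd z (by linarith [hz.1]) hz.2)
  have n3 : 0 < u1 s2 := pos_of e1 (by linarith) (by linarith)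
  have hss : s < s2 := t3.trans hs2.1
  obtain ⟨t', ht', e2⟩ := mvt' hss
    (fun z hz => hd1 z (by linarith [hz.1]) (hz.2.trans_lt hs2.2))
  have n4 : 0 < u2 t' := pos_of e2 (by linarith) (by linarith)
  have tt : t < t' := t2.trans ht'.1
  have t'1 : t' < 1 := ht'.2.trans hs2.2
  rcases le_or_gt (W * (1 - W)) (t * (1 - t)) with hc1 | hc1
  · have := cmp W t h0 (by linarith) hc1
    linarith
  · have hs : 1 < W + t := by
      by_contra hh
      have := mul_nonneg (sub_nonneg.2 t1.le) (sub_nonneg.2 (not_lt.1 hh))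
      nlinarith
    have := cmp t' t (by linarith) t'1 (by nlinarith)
    linarith

theorem chain {w r W R : ℝ} (hW : W ≠ 0) (hR : 1 + R ≠ 0) (h : 1 - R ≠ 0 ∨ w * (1 - r) = 0) :
    w * (1 + r) * log (w * (1 + r)) + w * (1 - r) * log (w * (1 - r)) -
      w * (1 + r) * log (W * (1 + R)) - w * (1 - r) * log (W * (1 - R)) =
      2 * (w * log w - w * log W) + w * KF r R := by
  have ml : ∀ x y : ℝ, x * y * log (x * y) = x * y * log x + x * y * log y := by
    intro x y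
    rcases eq_or_ne x 0 with rfl | hx
    · simp
    rcases eq_or_ne y 0 with rfl | hy
    · simp
    rw [log_mul hx hy]
    ring
  have e : w * (1 - r) * log (W * (1 - R)) =
      w * (1 - r) * log W + w * (1 - r) * log (1 - R) := by
    rcases h with h | h
    · rw [log_mul hW h]
      ring
    · rw [h]
      ring
  rw [ml, ml, e, log_mul hW hR]
  unfold KF
  ring

theorem chain2 {w a b W A B p q P Q : ℝ} (hW : W ≠ 0) (hW1 : 1 - W ≠ 0) (hA : 1 + A ≠ 0)
    (hA' : 1 - A ≠ 0 ∨ w * (1 - a) = 0) (hB : 1 + B ≠ 0) (hB' : 1 - B ≠ 0)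
    (hp : p = w * (1 + a)) (hq : q = w * (1 - a)) (hp' : 1 - p = (1 - w) * (1 - b))
    (hq' : 1 - q = (1 - w) * (1 + b)) (hP : P = W * (1 + A)) (hQ : Q = W * (1 - A))
    (hP' : 1 - P = (1 - W) * (1 - B)) (hQ' : 1 - Q = (1 - W) * (1 + B)) :
    kl p P + kl q Q = 2 * kl w W + w * KF a A + (1 - w) * KF b B := by
  have c1 := chain (w := w) (r := a) hW hA hA'
  have c2 := chain (w := 1 - w) (r := b) hW1 hB (Or.inl hB')
  rw [← hp, ← hq, ← hP, ← hQ] at c1
  rw [← hp', ← hq', ← hP', ← hQ'] at c2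
  rw [kl_eq, kl_eq, kl_eq]
  linarith

theorem ratio {w d : ℝ} (d0 : 0 ≤ d) (h : d ≤ w) : ∃ a, 0 ≤ a ∧ a ≤ 1 ∧ w * a = d := by
  rcases (d0.trans h).eq_or_lt with hw | hw
  · exact ⟨0, le_rfl, zero_le_one, by linarith⟩
  · exact ⟨d / w, by positivity, (div_le_one hw).2 h, by field_simp⟩

theorem F0 (z : ℝ) : KF 0 z = -log (1 + z) - log (1 - z) := by simp [KF]

theorem Fn {z : ℝ} (z0 : 0 ≤ z) (z1 : z < 1) : 0 ≤ KF 0 z := by
  rw [F0]
  have h1 := log_mul (x := 1 + z) (y := 1 - z) (by linarith) (by linarith)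
  have h2 := log_nonpos (x := (1 + z) * (1 - z)) (by nlinarith) (by nlinarith)
  linarith

theorem jensen {w W a b A B : ℝ} (w0 : 0 ≤ w) (w1 : w ≤ 1) (W0 : 0 < W)
    (h5 : w * a = (1 - w) * b) (h6 : W * A = (1 - W) * B) :
    B ^ 2 * ((w - W) ^ 2 / W ^ 2) ≤ w * (a - A) ^ 2 + (1 - w) * (b - B) ^ 2 := by
  have e4 : w * (a - A) - (1 - w) * (b - B) = B * ((W - w) / W) := by
    have : A = (1 - W) * B / W := by
      field_simp
      linarith
    rw [mul_sub, mul_sub, h5, this]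
    field_simp
    ring
  have e5 : B ^ 2 * ((w - W) ^ 2 / W ^ 2) = (w * (a - A) - (1 - w) * (b - B)) ^ 2 := by
    rw [e4]
    field_simp
    ring
  rw [e5]
  have := mul_nonneg (mul_nonneg w0 (sub_nonneg.2 w1)) (sq_nonneg ((a - A) + (b - B)))
  nlinarith

theorem core {α ρ W w a b A B : ℝ} (α1 : α ≤ 1) (ρ0 : 0 ≤ ρ) (ρ1 : ρ < 1) (W0 : 0 < W)
    (W1 : W ≤ 1 / 2) (w0 : 0 ≤ w) (w1 : w ≤ 1) (a0 : 0 ≤ a) (a1 : a ≤ 1) (b0 : 0 ≤ b)
    (b1 : b ≤ 1) (A1 : A ≤ 1) (B0' : 0 < B) (B1' : B < 1)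
    (h5 : w * a = (1 - w) * b) (h6 : W * A = (1 - W) * B)
    (hA' : 1 - A ≠ 0 ∨ w * (1 - a) = 0)
    (H' : 2 * -log (1 - W) + KF 0 (ρ * B) ≤ α * (2 * -log (1 - W) + KF 0 B)) :
    2 * kl w W + w * KF (ρ * a) (ρ * A) + (1 - w) * KF (ρ * b) (ρ * B) ≤
      α * (2 * kl w W + w * KF a A + (1 - w) * KF b B) := by
  have B0 := B0'.le
  have BA : B ≤ A := by
    by_contra hh
    have h1 : W * A < W * B := mul_lt_mul_of_pos_left (not_le.1 hh) W0
    have h2 : W * B ≤ (1 - W) * B := mul_le_mul_of_nonneg_right (by linarith) B0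
    linarith
  have ρB : ρ * B < 1 := by nlinarith
  have ρB0 : 0 ≤ ρ * B := mul_nonneg ρ0 B0
  have i3 := mul_le_mul_of_nonneg_left (part_c W0 W1 w0 w1) (sub_nonneg.2 α1)
  have L0 : 0 < -log (1 - W) := by
    have := log_neg (x := 1 - W) (by linarith) (by linarith)
    linarith
  generalize -log (1 - W) = L at H' i3 L0
  have α0 : 0 ≤ α := by
    have h1 := Fn B0 B1'
    have h2 := Fn ρB0 ρB
    by_contra hh
    have := mul_neg_of_neg_of_pos (not_le.1 hh) (show 0 < 2 * L + KF 0 B by linarith)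
    linarith
  obtain ⟨K, hK⟩ : ∃ K, K = (1 - α) * L / B ^ 2 := ⟨_, rfl⟩
  have K0 : 0 ≤ K := by
    rw [hK]
    exact div_nonneg (mul_nonneg (by linarith) L0.le) (sq_nonneg B)
  have KB : K * B ^ 2 = (1 - α) * L := by
    rw [hK]
    field_simp
  have hBn : 2 * K * B ^ 2 ≤ α * KF 0 B - KF 0 (ρ * B) := by linarith
  have i2 := part_b α0 K0 ρ0 ρ1.le B0' B1' hBn b0 b1
  have i1 : w * (2 * K * (a - A) ^ 2) ≤ w * (α * KF a A - KF (ρ * a) (ρ * A)) := by
    rcases A1.eq_or_lt with h | h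
    · rcases hA' with h' | h'
      · exact absurd (by linarith) h'
      rcases mul_eq_zero.1 h' with h'' | h''
      · rw [h'']
        simp
      · have : a = A := by linarith
        rw [this]
        simp [KF]
    · exact mul_le_mul_of_nonneg_left (part_b α0 K0 ρ0 ρ1.le (B0'.trans_le BA) h
        (part_a α0 K0 ρ0 ρ1.le B0' BA h hBn) a0 a1) w0
  have i2' := mul_le_mul_of_nonneg_left i2 (sub_nonneg.2 w1)
  have i5 := mul_le_mul_of_nonneg_left (jensen w0 w1 W0 h5 h6) K0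
  have e6 : K * (B ^ 2 * ((w - W) ^ 2 / W ^ 2)) = (1 - α) * (L * ((w - W) ^ 2 / W ^ 2)) := by
    rw [← mul_assoc, KB]
    ring
  linarith

theorem noisy {ε ρ p q w a b : ℝ} (hε : ε = (1 - ρ) / 2) (pp : p = w * (1 + a))
    (qq : q = w * (1 - a)) (pp' : 1 - p = (1 - w) * (1 - b)) (qq' : 1 - q = (1 - w) * (1 + b)) :
    (1 - ε) * p + ε * q = w * (1 + ρ * a) ∧ ε * p + (1 - ε) * q = w * (1 - ρ * a) ∧
      1 - ((1 - ε) * p + ε * q) = (1 - w) * (1 - ρ * b) ∧
      1 - (ε * p + (1 - ε) * q) = (1 - w) * (1 + ρ * b) := by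
  refine ⟨by rw [hε, pp, qq]; ring, by rw [hε, pp, qq]; ring, ?_, ?_⟩
  · have : (1 - w) * (1 - ρ * b) = (1 - ε) * (1 - p) + ε * (1 - q) := by
      rw [hε, pp', qq']; ring
    linarith
  · have : (1 - w) * (1 + ρ * b) = ε * (1 - p) + (1 - ε) * (1 - q) := by
      rw [hε, pp', qq']; ring
    linarith

theorem coords {p q : ℝ} (q0 : 0 ≤ q) (qp : q ≤ p) (p1 : p ≤ 1) :
    ∃ w a b, w = (p + q) / 2 ∧ 0 ≤ a ∧ a ≤ 1 ∧ 0 ≤ b ∧ b ≤ 1 ∧ w * a = (1 - w) * b ∧
      p = w * (1 + a) ∧ q = w * (1 - a) ∧ 1 - p = (1 - w) * (1 - b) ∧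
      1 - q = (1 - w) * (1 + b) := by
  obtain ⟨w, hw⟩ : ∃ w, w = (p + q) / 2 := ⟨_, rfl⟩
  obtain ⟨a, a0, a1, ha⟩ := ratio (w := w) (d := (p - q) / 2) (by linarith) (by linarith)
  obtain ⟨b, b0, b1, hb⟩ := ratio (w := 1 - w) (d := (p - q) / 2) (by linarith) (by linarith)
  exact ⟨w, a, b, hw, a0, a1, b0, b1, by linarith, by linarith, by linarith, by linarith,
    by linarith⟩

end Vale.Agent.P322.L1aux

namespace Vale.Agent.P322

open Real L1aux

theorem l1 : L1Stmt := by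
  intro ε α P Q e0 e1 Q0 QP PQ P1 α1 H p q q0 qp p1 hq
  obtain ⟨ρ, hρ⟩ : ∃ ρ, ρ = 1 - 2 * ε := ⟨_, rfl⟩
  obtain ⟨w, a, b, hw, a0, a1, b0, b1, h5, pp, qq, pp', qq'⟩ := coords q0 qp p1
  obtain ⟨W, A, B, hW, A0, A1, B0, B1, h6, PP, QQ, PP', QQ'⟩ := coords Q0 QP.le P1.le
  have ρ0 : 0 ≤ ρ := by linarith
  have ρ1 : ρ < 1 := by linarith
  have W0 : 0 < W := by linarith
  have W1 : W ≤ 1 / 2 := by linarith
  have W2 : 0 < 1 - W := by linarith
  have B0' : 0 < B := by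
    refine lt_of_le_of_ne B0 ?_
    rintro rfl
    linarith
  have B1' : B < 1 := by
    refine lt_of_le_of_ne B1 ?_
    rintro rfl
    linarith
  have ρA : ρ * A < 1 := mul_lt_one_of_nonneg_of_lt_one_left ρ0 ρ1 A1
  have ρB : ρ * B < 1 := mul_lt_one_of_nonneg_of_lt_one_left ρ0 ρ1 B1
  have ρA0 : 0 ≤ ρ * A := mul_nonneg ρ0 A0
  have ρB0 : 0 ≤ ρ * B := mul_nonneg ρ0 B0
  have hA' : 1 - A ≠ 0 ∨ w * (1 - a) = 0 := by
    rcases eq_or_ne (1 - A) 0 with h | h
    · right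
      rw [h, mul_zero] at QQ
      rw [← qq]
      exact hq QQ
    · exact Or.inl h
  have hε : ε = (1 - ρ) / 2 := by linarith
  obtain ⟨NP, NQ, NP', NQ'⟩ := noisy hε PP QQ PP' QQ'
  obtain ⟨np, nq, np', nq'⟩ := noisy hε pp qq pp' qq'
  have n1 : 1 + A ≠ 0 := by positivity
  have n2 : 1 + B ≠ 0 := by positivity
  have n3 : 1 - B ≠ 0 := (sub_pos.2 B1').ne'
  have n4 : 1 + ρ * A ≠ 0 := by positivity
  have n5 : 1 + ρ * B ≠ 0 := by positivity
  have n6 : 1 - ρ * B ≠ 0 := (sub_pos.2 ρB).ne'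
  have n7 : 1 - ρ * A ≠ 0 := (sub_pos.2 ρA).ne'
  rw [chain2 W0.ne' W2.ne' n1 hA' n2 n3 pp qq pp' qq' PP QQ PP' QQ',
    chain2 (a := ρ * a) W0.ne' W2.ne' n4 (Or.inl n7) n5 n6 np nq np' nq' NP NQ NP' NQ']
  refine core α1 ρ0 ρ1 W0 W1 (by linarith) (by linarith) a0 a1 b0 b1 A1 B0' B1' h5 h6 hA' ?_
  rw [NP', NQ', PP', QQ', log_mul W2.ne' n6, log_mul W2.ne' n5, log_mul W2.ne' n3,
    log_mul W2.ne' n2] at H
  rw [F0, F0]
  linarith

end Vale.Agent.P322
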