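import Vale.Agent.P322.CKLeaf
import Vale.Agent.P322.L1

/-! The two basic families of certificates. -/

namespace Vale.Agent.P322.C12A

open Real

theorem kl_Xe (p P : ℝ) : kl p P = Xe p P - binEntropy p := by
  unfold kl Xe
  ring

theorem Xe_self (p : ℝ) : Xe p p = binEntropy p := by
  simp only [Xe, binEntropy, log_inv]
  ring

/-- The affine part of a certificate. -/
noncomputable def ell (ε α A B p q : ℝ) : ℝ :=
  (Xe ((1 - ε) * p + ε * q) ((1 - ε) * A + ε * B) +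
    Xe (ε * p + (1 - ε) * q) (ε * A + (1 - ε) * B)) / 2 - α * (Xe p A + Xe q B) / 2

theorem ell_aff (ε α A B p q : ℝ) : ell ε α A B p q = ell ε α A B 0 0 +
    (ell ε α A B 1 0 - ell ε α A B 0 0) * p + (ell ε α A B 0 1 - ell ε α A B 0 0) * q := by
  unfold ell Xe
  ring

theorem ell_self (ε α A B : ℝ) :
    ell ε α A B A B = Fe ε A B - α * ((binEntropy A + binEntropy B) / 2) := by
  unfold ell Fe
  simp only [Xe_self]
  ring

theorem cert_lin {ε α A B : ℝ} (e0 : 0 < ε) (e1 : ε ≤ 1 / 2) (B0 : 0 ≤ B) (BA : B < A)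
    (AB : A + B ≤ 1) (A1 : A < 1) (α1 : α ≤ 1)
    (H : -log (1 - ((1 - ε) * A + ε * B)) - log (1 - (ε * A + (1 - ε) * B)) ≤
      α * (-log (1 - A) - log (1 - B)))
    {p q : ℝ} (q0 : 0 ≤ q) (qp : q ≤ p) (p1 : p ≤ 1) (hq : B = 0 → q = 0) :
    ell ε α A B p q + α * ((binEntropy p + binEntropy q) / 2) ≤ Fe ε p q := by
  have := l1 ε α A B e0 e1 B0 BA AB A1 α1 H p q q0 qp p1 hq
  simp only [kl_Xe] at this
  unfold ell Fe
  linarith

theorem cert_of {ε α A B k c P Q : ℝ} (e0 : 0 < ε) (e1 : ε ≤ 1 / 2) (B0 : 0 ≤ B) (BA : B < A)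
    (AB : A + B ≤ 1) (A1 : A < 1) (α0 : 0 ≤ α) (α1 : α ≤ 1)
    (H : -log (1 - ((1 - ε) * A + ε * B)) - log (1 - (ε * A + (1 - ε) * B)) ≤
      α * (-log (1 - A) - log (1 - B))) (hB : B = 0 → Q = 0)
    (h : Bf k c ((P + Q) / 2) ≤ ell ε α A B P Q + α * ((Bf k c P + Bf k c Q) / 2)) :
    CertAt ε k c P Q := by
  refine ⟨α, ell ε α A B 0 0, ell ε α A B 1 0 - ell ε α A B 0 0,
    ell ε α A B 0 1 - ell ε α A B 0 0, α0, fun p q q0 qp p1 hq => ?_, ?_⟩
  · rw [← ell_aff]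
    exact cert_lin e0 e1 B0 BA AB A1 α1 H q0 qp p1 (fun h => hq (hB h))
  · rwa [← ell_aff]

end Vale.Agent.P322.C12A

namespace Vale.Agent.P322

open Real C12A

theorem c1 : C1Stmt := by
  rintro ε W r θ ⟨e0, e1, W0, W1, r0, r1, P1⟩ θ0 H h
  have x0 : 0 < W * r := mul_pos W0 r0
  have x1 : W * r ≤ W := by nlinarith
  have ρ0 : 0 ≤ (1 - 2 * ε) * (W * r) := mul_nonneg (by linarith) x0.le
  have ρ1 : (1 - 2 * ε) * (W * r) ≤ W * r := by nlinarith
  have a1 : 1 - ((1 - ε) * (W * (1 + r)) + ε * (W * (1 - r))) =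
      1 - W - (1 - 2 * ε) * (W * r) := by ring
  have a2 : 1 - (ε * (W * (1 + r)) + (1 - ε) * (W * (1 - r))) =
      1 - W + (1 - 2 * ε) * (W * r) := by ring
  have a3 : 1 - W * (1 + r) = 1 - W - W * r := by ring
  have a4 : 1 - W * (1 - r) = 1 - W + W * r := by ring
  have sq : ∀ y : ℝ, 0 ≤ y → y ≤ W * r → log ((1 - W) ^ 2 - y ^ 2) =
      log (1 - W - y) + log (1 - W + y) := by
    intro y y0 y1
    rw [← log_mul (by linarith) (by linarith)]
    congr 1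
    ring
  rw [sq _ x0.le le_rfl, sq _ ρ0 ρ1] at H
  have n1 : log (1 - W - W * r) < 0 := log_neg (by linarith) (by linarith)
  have n2 : log (1 - W + W * r) ≤ 0 := log_nonpos (by linarith) (by linarith)
  have n3 : log (1 - W - (1 - 2 * ε) * (W * r)) ≤ 0 := log_nonpos (by linarith) (by linarith)
  have n4 : log (1 - W + (1 - 2 * ε) * (W * r)) ≤ 0 := log_nonpos (by linarith) (by linarith)
  have α0 : 0 ≤ 1 - θ := by
    by_contra hh
    have := mul_pos (show 0 < θ - 1 by linarith)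
      (show 0 < -(log (1 - W - W * r) + log (1 - W + W * r)) by linarith)
    linarith
  refine cert_of (α := 1 - θ) (A := W * (1 + r)) (B := W * (1 - r)) e0 e1.le (by linarith)
    (by linarith) (by linarith) P1 α0 (by linarith) ?_ id ?_
  · rw [a1, a2, a3, a4]
    linarith
  · have : (W * (1 + r) + W * (1 - r)) / 2 = W := by ring
    rw [this, ell_self]
    unfold Hb Bb at h
    linarith

theorem c2 : C2Stmt := by
  rintro ε W r τ ⟨e0, e1, W0, W1, r0, r1, P1⟩ τ0 τ1 h1 h2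
  obtain ⟨σ, hσ⟩ : ∃ σ, σ = (1 - 2 * ε) * τ := ⟨_, rfl⟩
  rw [← hσ] at h1 h2
  have σ0 : 0 ≤ σ := hσ ▸ mul_nonneg (by linarith) τ0.le
  have σ1 : σ ≤ τ := by nlinarith
  have a1 : (1 - ε) * ((1 + τ) / 2) + ε * ((1 - τ) / 2) = (1 + σ) / 2 := by rw [hσ]; ring
  have a2 : ε * ((1 + τ) / 2) + (1 - ε) * ((1 - τ) / 2) = (1 - σ) / 2 := by rw [hσ]; ring
  have b1 : ∀ t : ℝ, 1 - (1 + t) / 2 = (1 - t) / 2 := fun t => by ring
  have b2 : ∀ t : ℝ, 1 - (1 - t) / 2 = (1 + t) / 2 := fun t => by ring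
  obtain ⟨M, hM⟩ : ∃ M, M = -log ((1 - τ) / 2) - log ((1 + τ) / 2) := ⟨_, rfl⟩
  obtain ⟨N, hN⟩ : ∃ N, N = -log ((1 - σ) / 2) - log ((1 + σ) / 2) := ⟨_, rfl⟩
  have M0 : 0 < M := by
    have n1 : log ((1 - τ) / 2) < 0 := log_neg (by linarith) (by linarith)
    have n2 : log ((1 + τ) / 2) < 0 := log_neg (by linarith) (by linarith)
    linarith
  have N0 : 0 ≤ N := by
    have n1 : log ((1 - σ) / 2) ≤ 0 := log_nonpos (by linarith) (by linarith)
    have n2 : log ((1 + σ) / 2) ≤ 0 := log_nonpos (by linarith) (by linarith)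
    linarith
  have NM : N ≤ M := by
    have n1 := log_mul (x := (1 - σ) / 2) (y := (1 + σ) / 2) (by linarith) (by linarith)
    have n2 := log_mul (x := (1 - τ) / 2) (y := (1 + τ) / 2) (by linarith) (by linarith)
    have n3 : log ((1 - τ) / 2 * ((1 + τ) / 2)) ≤ log ((1 - σ) / 2 * ((1 + σ) / 2)) :=
      log_le_log (mul_pos (by linarith) (by linarith)) (by nlinarith)
    linarith
  obtain ⟨α, hα⟩ : ∃ α, α = N / M := ⟨_, rfl⟩
  have α0 : 0 ≤ α := hα ▸ div_nonneg N0 M0.le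
  have α1 : α ≤ 1 := hα ▸ (div_le_one M0).2 NM
  have αM : α * M = N := by
    rw [hα]
    field_simp
  obtain ⟨γ, hγ⟩ : ∃ γ, γ = (α * (log ((1 + τ) / 2) - log ((1 - τ) / 2)) -
    (1 - 2 * ε) * (log ((1 + σ) / 2) - log ((1 - σ) / 2))) / 2 := ⟨_, rfl⟩
  have hl : ∀ p q, ell ε α ((1 + τ) / 2) ((1 - τ) / 2) p q = γ * (p - q) := by
    intro p q
    unfold ell Xe
    rw [a1, a2, b1, b2, b1, b2, hγ]
    rw [hM, hN] at αM
    linear_combination (-1 / 2 : ℝ) * αM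
  have hs : ∀ t : ℝ, binEntropy ((1 + t) / 2) = binEntropy ((1 - t) / 2) := fun t => by
    rw [← b2, binEntropy_one_sub]
  have hγτ : γ * τ = binEntropy ((1 - σ) / 2) - α * binEntropy ((1 - τ) / 2) := by
    have := ell_self ε α ((1 + τ) / 2) ((1 - τ) / 2)
    rw [hl, Fe, a1, a2, hs, hs] at this
    linarith
  refine cert_of (α := α) (A := (1 + τ) / 2) (B := (1 - τ) / 2) e0 e1.le (by linarith)
    (by linarith) (by linarith) (by linarith) α0 α1 ?_ (fun h => absurd h (by linarith)) ?_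
  · rw [a1, a2, b1, b2, b1, b2, ← hM, ← hN, αM]
  · have : (W * (1 + r) + W * (1 - r)) / 2 = W := by ring
    rw [this, hl]
    change _ ≤ _ + α * Bb ε W r
    refine le_of_mul_le_mul_left ?_ τ0
    have e : τ * (γ * (W * (1 + r) - W * (1 - r)) + α * Bb ε W r) =
        2 * W * r * (γ * τ) + α * (τ * Bb ε W r) := by ring
    rw [e, hγτ]
    rcases h2 with h2 | h2
    · have k1 := mul_le_mul_of_nonneg_left h1 (sub_nonneg.2 α1)
      have k2 := mul_le_mul_of_nonneg_left h2 α0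
      linarith
    · have k2 := mul_le_mul_of_nonneg_left h2 α0
      linarith

end Vale.Agent.P322
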