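import Vale.Agent.P322.CKStmts

/-! Statements of the leaf lemmas for the certificate search. -/

namespace Vale.Agent.P322

open Real

noncomputable def kap (ε : ℝ) : ℝ := 4 * ε * (1 - ε)

noncomputable def cc (ε : ℝ) : ℝ := binEntropy ε - kap ε * log 2

/-- A certificate at the means `W (1 + r)` and `W (1 - r)`. -/
def CA (ε W r : ℝ) : Prop := CertAt ε (kap ε) (cc ε) (W * (1 + r)) (W * (1 - r))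

/-- Cross entropy. -/
noncomputable def Xe (p P : ℝ) : ℝ := -p * log P - (1 - p) * log (1 - P)

noncomputable def Hb (W r : ℝ) : ℝ := (binEntropy (W * (1 + r)) + binEntropy (W * (1 - r))) / 2

noncomputable def Bb (ε W r : ℝ) : ℝ :=
  (Bf (kap ε) (cc ε) (W * (1 + r)) + Bf (kap ε) (cc ε) (W * (1 - r))) / 2

noncomputable def Ph (x : ℝ) : ℝ := log 2 - binEntropy ((1 + x) / 2)

noncomputable def psi (u x : ℝ) : ℝ := Ph x - x ^ 2 / 2 - u * x ^ 4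

def Dom (ε W r : ℝ) : Prop :=
  0 < ε ∧ ε < 1 / 2 ∧ 0 < W ∧ W ≤ 1 / 2 ∧ 0 < r ∧ r ≤ 1 ∧ W * (1 + r) < 1

/-- A box of parameters. -/
structure Cell where
  e1 : ℝ
  e2 : ℝ
  W1 : ℝ
  W2 : ℝ
  r1 : ℝ
  r2 : ℝ

def Cell.OK (c : Cell) : Prop :=
  0 < c.e1 ∧ c.e1 ≤ c.e2 ∧ c.e2 ≤ 1 / 2 ∧ 0 ≤ c.W1 ∧ c.W1 ≤ c.W2 ∧ c.W2 ≤ 1 / 2 ∧
    0 ≤ c.r1 ∧ c.r1 ≤ c.r2 ∧ c.r2 ≤ 1

def Cell.Done (c : Cell) : Prop :=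
  ∀ ε W r : ℝ, Dom ε W r → c.e1 ≤ ε → ε ≤ c.e2 → c.W1 ≤ W → W ≤ c.W2 → c.r1 ≤ r → r ≤ c.r2 →
    CA ε W r

/-- Series facts for `Ph`. -/
def SerStmt : Prop :=
  (∀ x : ℝ, 0 ≤ x → x ≤ 1 → x ^ 2 / 2 + x ^ 4 / 12 ≤ Ph x) ∧
  (∀ s x : ℝ, 0 ≤ s → s ≤ 1 → 0 ≤ x → x ≤ 1 → Ph (s * x) ≤ s ^ 2 * Ph x) ∧
  (∀ s x : ℝ, 0 ≤ s → s ≤ 1 → 0 ≤ x → x ≤ 1 →
    Ph (s * x) - (s * x) ^ 2 / 2 ≤ s ^ 4 * (Ph x - x ^ 2 / 2)) ∧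
  (∀ u x y : ℝ, u ≤ 1 / 12 → 0 ≤ x → x ≤ y → y ≤ 1 → psi u x ≤ psi u y)

/-- The chain rule and the sign of `cc`. -/
def BrStmt : Prop :=
  (∀ W s : ℝ, 0 < W → W ≤ 1 / 2 → 0 ≤ s → s ≤ 1 →
    Hb W s = binEntropy W - (W * Ph s + (1 - W) * Ph (W * s / (1 - W)))) ∧
  (∀ ε W r : ℝ, Fe ε (W * (1 + r)) (W * (1 - r)) = Hb W ((1 - 2 * ε) * r)) ∧
  (∀ ε W r : ℝ, Bb ε W r = kap ε * Hb W r + cc ε * (4 * W * (1 - W) - 4 * (W * r) ^ 2)) ∧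
  (∀ ε : ℝ, Ph (1 - 2 * ε) = log 2 - binEntropy ε) ∧ Ph 1 = log 2 ∧
  (∀ ε : ℝ, 0 ≤ ε → ε ≤ 1 / 2 → 0 ≤ cc ε) ∧
  (∀ p P : ℝ, 0 ≤ p → p ≤ 1 → 0 < P → P < 1 → binEntropy p ≤ Xe p P) ∧
  (∀ ε e1 e2 ul uh : ℝ, 0 < e1 → e1 ≤ ε → ε ≤ e2 → e2 ≤ 1 / 2 → ε < 1 / 2 →
    (0 ≤ ul ∧ (ul = 0 ∨ (e2 < 1 / 2 ∧ (1 / 2 + ul) * (1 - 2 * e2) ^ 2 ≤ log 2 - binEntropy e2)) →
      (1 / 2 + ul) * (1 - 2 * ε) ^ 2 ≤ log 2 - binEntropy ε) ∧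
    (log 2 - binEntropy e1 ≤ (1 / 2 + uh) * (1 - 2 * e1) ^ 2 →
      log 2 - binEntropy ε ≤ (1 / 2 + uh) * (1 - 2 * ε) ^ 2))

/-- Certificate with tangent point at the mean. -/
def C1Stmt : Prop :=
  ∀ ε W r θ : ℝ, Dom ε W r → 0 ≤ θ →
    θ * -log ((1 - W) ^ 2 - (W * r) ^ 2) ≤
      log ((1 - W) ^ 2 - ((1 - 2 * ε) * (W * r)) ^ 2) - log ((1 - W) ^ 2 - (W * r) ^ 2) →
    Bf (kap ε) (cc ε) W ≤ Fe ε (W * (1 + r)) (W * (1 - r)) - (1 - θ) * (Hb W r - Bb ε W r) →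
    CA ε W r

/-- Certificate with an antisymmetric tangent point. -/
def C2Stmt : Prop :=
  ∀ ε W r τ : ℝ, Dom ε W r → 0 < τ → τ < 1 →
    τ * Bf (kap ε) (cc ε) W ≤ 2 * W * r * binEntropy ((1 - (1 - 2 * ε) * τ) / 2) →
    (τ * (Bf (kap ε) (cc ε) W - Bb ε W r) ≤
        2 * W * r * (binEntropy ((1 - (1 - 2 * ε) * τ) / 2) - binEntropy ((1 - τ) / 2)) ∨
      2 * W * r * binEntropy ((1 - τ) / 2) ≤ τ * Bb ε W r) →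
    CA ε W r

def ULo (e2 ul : ℝ) : Prop :=
  0 ≤ ul ∧ (ul = 0 ∨ (e2 < 1 / 2 ∧ (1 / 2 + ul) * (1 - 2 * e2) ^ 2 ≤ log 2 - binEntropy e2))

def UHi (e1 uh : ℝ) : Prop := log 2 - binEntropy e1 ≤ (1 / 2 + uh) * (1 - 2 * e1) ^ 2

def Leaf0 (c : Cell) (ul : ℝ) : Prop :=
  ULo c.e2 ul ∧ c.W2 * (1 + c.r2) < 1 ∧
    4 * (1 - c.W1) ^ 2 * (log 2 - 1 / 2 - ul) * -log ((1 - c.W2) ^ 2 - (c.W2 * c.r2) ^ 2) ≤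
      kap c.e1 * (Hb c.W2 c.r2 - 4 * (log 2 - 1 / 2 - ul) * c.W2 * (1 - c.W1))

noncomputable def E1 (c : Cell) (θ Rl u W : ℝ) : ℝ :=
  θ * (Hb W c.r2 - (log 2 - 1 / 2 - u) * (4 * c.W2 * (1 - c.W2) - 4 * (c.W1 * c.r1) ^ 2)) +
    c.W1 * psi u c.r1 + (1 - c.W2) * psi u Rl - (log 2 - 1 / 2 - u) * (4 * (c.W2 * c.r2) ^ 2)

def Leaf1 (c : Cell) (ul uh θ Rl : ℝ) : Prop :=
  ULo c.e2 ul ∧ UHi c.e1 uh ∧ uh ≤ 1 / 12 ∧ c.W2 * (1 + c.r2) < 1 ∧ 0 ≤ θ ∧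
    θ * -log ((1 - c.W2) ^ 2 - (c.W2 * c.r2) ^ 2) ≤
      log ((1 - c.W1) ^ 2 - ((1 - 2 * c.e1) * (c.W1 * c.r1)) ^ 2) -
        log ((1 - c.W1) ^ 2 - (c.W1 * c.r1) ^ 2) ∧
    0 ≤ Rl ∧ Rl * (1 - c.W1) ≤ c.W1 * c.r1 ∧
    0 ≤ E1 c θ Rl ul c.W1 ∧ 0 ≤ E1 c θ Rl ul c.W2 ∧ 0 ≤ E1 c θ Rl uh c.W1 ∧ 0 ≤ E1 c θ Rl uh c.W2

def Leaf2 (c : Cell) (ul uh d : ℝ) : Prop :=
  ULo c.e2 ul ∧ UHi c.e1 uh ∧ 1 - 2 * c.W1 * c.r1 ≤ d ∧ 0 < d ∧ d ≤ 1 / 2 ∧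
    (log 2 - log (kap c.e1) / 2) * (1 + d) ≤ (1 / 2 + ul) * (1 - d) * (2 + d) ∧
    (log 2 - log (kap c.e1) / 2) * (-log d + log 2 + 1 - 4 * (log 2 - 1 / 2 - uh) * (1 - d)) *
      (1 + d) ≤ -log d * ((1 / 2 + ul) * (1 - d) * (2 + d))

def Leaf3 (c : Cell) (a a1 d : ℝ) : Prop :=
  1 - 2 * c.W1 * c.r1 ≤ d ∧ 0 < d ∧ d ≤ 1 / 2 ∧ 0 < a ∧ a * d ≤ a1 * (1 - d) ∧
    c.e2 + a1 < 1 / 2 ∧
    binEntropy c.e2 * (1 - 2 * a) ≤ a * (1 - 2 * c.e2) * (log (1 - (c.e2 + a1)) - log (c.e2 + a1)) ∧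
    2 * a ≤ (1 - 2 * a1) * kap c.e1 ∧
    a * (1 - log a - log d) ≤ (1 - 2 * a1) * (kap c.e1 * (-log d + 1 - d) / 2 +
      2 * (binEntropy c.e1 - kap c.e2 * log 2) * (1 - d))

def Leaf4 (c : Cell) (m : ℝ) : Prop :=
  0 < c.W1 ∧ 2 * c.r2 < m ∧
    m * (kap c.e2 * binEntropy c.W1 +
      4 * (binEntropy c.e2 - kap c.e1 * log 2) * (c.W1 * (1 - c.W1))) ≤
      log 2 * (m ^ 2 - 4 * c.r2 ^ 2) * c.W1 ∧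
    8 * m * (1 - c.W2) * (binEntropy c.e2 - kap c.e1 * log 2) * c.W2 ≤
      kap c.e1 * (4 * (1 - c.W2) - m * (1 + 2 * (log 2 - 1 / 2) * c.r2 ^ 2))

/-- Twice the certificate slack at a vertex of a cell. -/
noncomputable def EV (c : Cell) (θ e A B W r : ℝ) : ℝ :=
  Xe ((1 - e) * (W * (1 + r)) + e * (W * (1 - r))) ((1 - e) * A + e * B) +
    Xe (e * (W * (1 + r)) + (1 - e) * (W * (1 - r))) (e * A + (1 - e) * B) -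
    (1 - θ) * (Xe (W * (1 + r)) A + Xe (W * (1 - r)) B) -
    2 * θ * ((kap e + (c.e2 - c.e1) ^ 2) * Xe W ((c.W1 + c.W2) / 2) +
      4 * (Xe e ((c.e1 + c.e2) / 2) - kap e * log 2) * (W * (1 - W) + ((c.W2 - c.W1) / 2) ^ 2)) -
    2 * (1 - θ) * ((kap e + (c.e2 - c.e1) ^ 2) * (binEntropy W - Hb W r) +
      (Xe e ((c.e1 + c.e2) / 2) - kap e * log 2) * (4 * (W * r) ^ 2))

def VEnd (c : Cell) (θ e A B : ℝ) : Prop :=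
  0 < B ∧ B < A ∧ A + B ≤ 1 ∧
    -log (1 - ((1 - e) * A + e * B)) - log (1 - (e * A + (1 - e) * B)) ≤
      (1 - θ) * (-log (1 - A) - log (1 - B)) ∧
    0 ≤ EV c θ e A B c.W1 c.r1 ∧ 0 ≤ EV c θ e A B c.W1 c.r2 ∧
    0 ≤ EV c θ e A B c.W2 c.r1 ∧ 0 ≤ EV c θ e A B c.W2 c.r2

def Leaf5 (c : Cell) (θ A1 B1 A2 B2 : ℝ) : Prop :=
  0 < c.W1 ∧ 0 ≤ θ ∧ θ ≤ 1 ∧ VEnd c θ c.e1 A1 B1 ∧ VEnd c θ c.e2 A2 B2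

def S0 : Prop := ∀ c : Cell, c.OK → ∀ ul, Leaf0 c ul → c.Done
def S1 : Prop := ∀ c : Cell, c.OK → ∀ ul uh θ Rl, Leaf1 c ul uh θ Rl → c.Done
def S2 : Prop := ∀ c : Cell, c.OK → ∀ ul uh d, Leaf2 c ul uh d → c.Done
def S3 : Prop := ∀ c : Cell, c.OK → ∀ a a1 d, Leaf3 c a a1 d → c.Done
def S4 : Prop := ∀ c : Cell, c.OK → ∀ m, Leaf4 c m → c.Done
def S5 : Prop := ∀ c : Cell, c.OK → ∀ θ A1 B1 A2 B2, Leaf5 c θ A1 B1 A2 B2 → c.Done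

/-- The very low noise range. -/
def LowStmt : Prop := ∀ ε W r : ℝ, Dom ε W r → ε ≤ 1 / 2 ^ 14 → CA ε W r

/-- From certificates everywhere to a good noise level. -/
def GoodStmt : Prop := ∀ ε : ℝ, 0 < ε → ε < 1 / 2 → (∀ W r, Dom ε W r → CA ε W r) → Good ε

end Vale.Agent.P322
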