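import Vale.Agent.P322.Main

/-! Statements for the Bellman induction behind the Courtade–Kumar inequality. -/

namespace Vale.Agent.P322

open Real

/-- Average entropy after one noisy coordinate. -/
noncomputable def Fe (ε p q : ℝ) : ℝ :=
  (binEntropy ((1 - ε) * p + ε * q) + binEntropy (ε * p + (1 - ε) * q)) / 2

/-- The Bellman function. -/
noncomputable def Bf (k c p : ℝ) : ℝ := k * binEntropy p + 4 * c * (p * (1 - p))

/-- A dual certificate for the induction step at the means `P`, `Q`. -/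
def CertAt (ε k c P Q : ℝ) : Prop :=
  ∃ α a0 a1 a2 : ℝ, 0 ≤ α ∧
    (∀ p q : ℝ, 0 ≤ q → q ≤ p → p ≤ 1 → (Q = 0 → q = 0) →
      a0 + a1 * p + a2 * q + α * ((binEntropy p + binEntropy q) / 2) ≤ Fe ε p q) ∧
    Bf k c ((P + Q) / 2) ≤ a0 + a1 * P + a2 * Q + α * ((Bf k c P + Bf k c Q) / 2)

/-- Certificates at all means. -/
def Cert (ε k c : ℝ) : Prop :=
  ∀ P Q : ℝ, 0 ≤ Q → Q < P → P + Q ≤ 1 → P < 1 → CertAt ε k c P Q

/-- Good noise level. -/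
def Good (ε : ℝ) : Prop :=
  ∃ k : ℝ, 0 ≤ k ∧ k ≤ 1 ∧ 0 ≤ binEntropy ε - k * log 2 ∧
    2 * (binEntropy ε - k * log 2) ≤ 1 - k ∧ Cert ε k (binEntropy ε - k * log 2)

/-- The induction and the final deduction. -/
def IndStmt : Prop :=
  ∀ ε : ℝ, 0 < ε → ε < 1 / 2 → Good ε →
    ∀ (n : ℕ) (f : (Fin n → ℤˣ) → ℤˣ), mutInf ε f ≤ 1 - h2 ε

/-- The two end points. -/
def EndStmt : Prop :=
  ∀ (n : ℕ) (f : (Fin n → ℤˣ) → ℤˣ), mutInf 0 f ≤ 1 - h2 0 ∧ mutInf (1 / 2) f ≤ 1 - h2 (1 / 2)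

/-- Binary relative entropy. -/
noncomputable def kl (p P : ℝ) : ℝ := -binEntropy p - p * log P - (1 - p) * log (1 - P)

/-- The pointwise strong data processing inequality. -/
def L1Stmt : Prop :=
  ∀ ε α P Q : ℝ, 0 < ε → ε ≤ 1 / 2 → 0 ≤ Q → Q < P → P + Q ≤ 1 → P < 1 → α ≤ 1 →
    -log (1 - ((1 - ε) * P + ε * Q)) - log (1 - (ε * P + (1 - ε) * Q)) ≤
      α * (-log (1 - P) - log (1 - Q)) →
    ∀ p q : ℝ, 0 ≤ q → q ≤ p → p ≤ 1 → (Q = 0 → q = 0) →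
      kl ((1 - ε) * p + ε * q) ((1 - ε) * P + ε * Q) +
        kl (ε * p + (1 - ε) * q) (ε * P + (1 - ε) * Q) ≤ α * (kl p P + kl q Q)

end Vale.Agent.P322
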