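import Vale.Agent.P322.Iv
import Vale.Agent.P322.CKLeaf

/-! The checker for the certificate tree. -/

namespace Vale.Agent.P322

open Real Iv

namespace Iv

variable {x y z : ℝ} {a b c : Iv}

theorem val_nonneg (n : ℕ) : 0 ≤ val n := by
  have := S_pos
  unfold val; positivity

theorem val_mono {m n : ℕ} (h : m ≤ n) : val m ≤ val n :=
  div_le_div_of_nonneg_right (by exact_mod_cast h) S_pos.le

def one : Iv := cst 1
noncomputable def hf : Iv := half (cst 1)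
noncomputable def sq (a : Iv) : Iv := mul a a
noncomputable def om (a : Iv) : Iv := sub one a
noncomputable def c0 : Iv := sub l2 hf
noncomputable def ikap (e : Iv) : Iv := mul (mul (cst 4) e) (om e)
noncomputable def iXe (n : ℕ) (p P : Iv) : Iv := sub (mul (neg p) (lg n P)) (mul (om p) (lg n (om P)))
noncomputable def iHb (n : ℕ) (W r : Iv) : Iv :=
  half (add (ent n (mul W (add one r))) (ent n (mul0 W (om r))))
noncomputable def ipsi (n : ℕ) (u x : Iv) : Iv :=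
  sub (sub (sub l2 (ent n (half (add one x)))) (half (sq x))) (mul u (sq (sq x)))

theorem mem_one' : Mem 1 one := mem_one
theorem mem_hf : Mem (1 / 2) hf := mem_half mem_one
theorem mem_sq' (ha : Mem x a) : Mem (x ^ 2) (sq a) := mem_sq ha
theorem mem_om (ha : Mem x a) : Mem (1 - x) (om a) := mem_sub mem_one ha
theorem mem_c0 : Mem (log 2 - 1 / 2) c0 := mem_sub mem_l2 mem_hf
theorem mem_kap (ha : Mem x a) : Mem (kap x) (ikap a) :=
  mem_mul (mem_mul mem_four ha) (mem_om ha)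
theorem mem_Xe (n : ℕ) (ha : Mem x a) (hb : Mem y b) : Mem (Xe x y) (iXe n a b) :=
  mem_sub (mem_mul (mem_neg ha) (mem_lg n hb)) (mem_mul (mem_om ha) (mem_lg n (mem_om hb)))
theorem mem_Hb (n : ℕ) (ha : Mem x a) (hb : Mem y b) : Mem (Hb x y) (iHb n a b) :=
  mem_half (mem_add (mem_ent n (mem_mul ha (mem_add mem_one hb)))
    (mem_ent n (mem_mul0 ha (mem_om hb))))
theorem mem_psi (n : ℕ) (ha : Mem x a) (hb : Mem y b) : Mem (psi x y) (ipsi n a b) := by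
  have : y ^ 4 = (y ^ 2) ^ 2 := by ring
  unfold psi Ph
  rw [this]
  exact mem_sub (mem_sub (mem_sub mem_l2 (mem_ent n (mem_half (mem_add mem_one hb))))
    (mem_half (mem_sq hb))) (mem_mul ha (mem_sq (mem_sq hb)))

end Iv

structure NC where
  e1 : ℕ
  e2 : ℕ
  W1 : ℕ
  W2 : ℕ
  r1 : ℕ
  r2 : ℕ

noncomputable def NC.cell (c : NC) : Cell :=
  ⟨val c.e1, val c.e2, val c.W1, val c.W2, val c.r1, val c.r2⟩

noncomputable def kLo (n e2 ul : ℕ) : Bool :=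
  Nat.beq ul 0 || (lt (pt e2) hf &&
    le (mul (add hf (pt ul)) (sq (om (mul (cst 2) (pt e2))))) (sub l2 (Iv.ent n (pt e2))))

noncomputable def kHi (n e1 uh : ℕ) : Bool :=
  le (sub l2 (Iv.ent n (pt e1))) (mul (add hf (pt uh)) (sq (om (mul (cst 2) (pt e1)))))

theorem kLo_sound {n e2 ul : ℕ} (h : kLo n e2 ul = true) : ULo (val e2) (val ul) := by
  refine ⟨val_nonneg _, ?_⟩
  simp only [kLo, Bool.or_eq_true, Bool.and_eq_true, Nat.beq_eq] at h
  rcases h with h | h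
  · left; simp [h, val]
  · exact Or.inr ⟨lt_sound (mem_pt _) mem_hf h.1, le_sound (mem_mul (mem_add mem_hf (mem_pt _))
      (mem_sq' (mem_om (mem_mul mem_two (mem_pt _))))) (mem_sub mem_l2 (mem_ent n (mem_pt _))) h.2⟩

theorem kHi_sound {n e1 uh : ℕ} (h : kHi n e1 uh = true) : UHi (val e1) (val uh) :=
  le_sound (mem_sub mem_l2 (mem_ent n (mem_pt _))) (mem_mul (mem_add mem_hf (mem_pt _))
    (mem_sq' (mem_om (mem_mul mem_two (mem_pt _))))) h

noncomputable def lM (n W r : ℕ) : Iv := lg n (sub (sq (om (pt W))) (sq (mul (pt W) (pt r))))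

theorem mem_lM (n W r : ℕ) :
    Mem (log ((1 - val W) ^ 2 - (val W * val r) ^ 2)) (lM n W r) :=
  mem_lg n (mem_sub (mem_sq' (mem_om (mem_pt _))) (mem_sq' (mem_mul (mem_pt _) (mem_pt _))))

noncomputable def k0 (n : ℕ) (c : NC) (ul : ℕ) : Bool :=
  kLo n c.e2 ul && lt (mul (pt c.W2) (add one (pt c.r2))) one &&
    le (mul (mul (mul (cst 4) (sq (om (pt c.W1)))) (sub c0 (pt ul))) (neg (lM n c.W2 c.r2)))
      (mul (ikap (pt c.e1)) (sub (iHb n (pt c.W2) (pt c.r2))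
        (mul (mul (mul (cst 4) (sub c0 (pt ul))) (pt c.W2)) (om (pt c.W1)))))

theorem k0_sound {n : ℕ} {c : NC} {ul : ℕ} (h : k0 n c ul = true) : Leaf0 c.cell (val ul) := by
  simp only [k0, Bool.and_eq_true] at h
  refine ⟨kLo_sound h.1.1, lt_sound (mem_mul (mem_pt _) (mem_add mem_one (mem_pt _))) mem_one h.1.2,
    le_sound (mem_mul (mem_mul (mem_mul mem_four (mem_sq' (mem_om (mem_pt _))))
      (mem_sub mem_c0 (mem_pt _))) (mem_neg (mem_lM n _ _)))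
      (mem_mul (mem_kap (mem_pt _)) (mem_sub (mem_Hb n (mem_pt _) (mem_pt _))
        (mem_mul (mem_mul (mem_mul mem_four (mem_sub mem_c0 (mem_pt _))) (mem_pt _))
          (mem_om (mem_pt _))))) h.2⟩

noncomputable def iE1 (n : ℕ) (c : NC) (θ Rl u W : ℕ) : Iv :=
  sub (add (add (mul (pt θ) (sub (iHb n (pt W) (pt c.r2)) (mul (sub c0 (pt u))
    (sub (mul (mul (cst 4) (pt c.W2)) (om (pt c.W2)))
      (mul (cst 4) (sq (mul (pt c.W1) (pt c.r1))))))))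
    (mul (pt c.W1) (ipsi n (pt u) (pt c.r1)))) (mul (om (pt c.W2)) (ipsi n (pt u) (pt Rl))))
    (mul (sub c0 (pt u)) (mul (cst 4) (sq (mul (pt c.W2) (pt c.r2)))))

theorem mem_E1 (n : ℕ) (c : NC) (θ Rl u W : ℕ) :
    Mem (E1 c.cell (val θ) (val Rl) (val u) (val W)) (iE1 n c θ Rl u W) :=
  mem_sub (mem_add (mem_add (mem_mul (mem_pt _) (mem_sub (mem_Hb n (mem_pt _) (mem_pt _))
    (mem_mul (mem_sub mem_c0 (mem_pt _))
    (mem_sub (mem_mul (mem_mul mem_four (mem_pt _)) (mem_om (mem_pt _)))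
      (mem_mul mem_four (mem_sq' (mem_mul (mem_pt _) (mem_pt _))))))))
    (mem_mul (mem_pt _) (mem_psi n (mem_pt _) (mem_pt _))))
    (mem_mul (mem_om (mem_pt _)) (mem_psi n (mem_pt _) (mem_pt _))))
    (mem_mul (mem_sub mem_c0 (mem_pt _)) (mem_mul mem_four (mem_sq' (mem_mul (mem_pt _) (mem_pt _)))))

noncomputable def k1 (n : ℕ) (c : NC) (ul uh θ Rl : ℕ) : Bool :=
  kLo n c.e2 ul && kHi n c.e1 uh && le (mul (cst 12) (pt uh)) one &&
    lt (mul (pt c.W2) (add one (pt c.r2))) one &&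
    le (mul (pt θ) (neg (lM n c.W2 c.r2)))
      (sub (lg n (sub (sq (om (pt c.W1)))
        (sq (mul (om (mul (cst 2) (pt c.e1))) (mul (pt c.W1) (pt c.r1)))))) (lM n c.W1 c.r1)) &&
    le (mul (pt Rl) (om (pt c.W1))) (mul (pt c.W1) (pt c.r1)) &&
    le (cst 0) (iE1 n c θ Rl ul c.W1) && le (cst 0) (iE1 n c θ Rl ul c.W2) &&
    le (cst 0) (iE1 n c θ Rl uh c.W1) && le (cst 0) (iE1 n c θ Rl uh c.W2)

theorem k1_sound {n : ℕ} {c : NC} {ul uh θ Rl : ℕ} (h : k1 n c ul uh θ Rl = true) :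
    Leaf1 c.cell (val ul) (val uh) (val θ) (val Rl) := by
  simp only [k1, Bool.and_eq_true] at h
  obtain ⟨⟨⟨⟨⟨⟨⟨⟨⟨h1, h2⟩, h3⟩, h4⟩, h5⟩, h6⟩, h7⟩, h8⟩, h9⟩, h10⟩ := h
  have h3' := le_sound (mem_mul mem_twelve (mem_pt _)) mem_one h3
  exact ⟨kLo_sound h1, kHi_sound h2, by linarith,
    lt_sound (mem_mul (mem_pt _) (mem_add mem_one (mem_pt _))) mem_one h4, val_nonneg _,
    le_sound (mem_mul (mem_pt _) (mem_neg (mem_lM n _ _)))
      (mem_sub (mem_lg n (mem_sub (mem_sq' (mem_om (mem_pt _)))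
        (mem_sq' (mem_mul (mem_om (mem_mul mem_two (mem_pt _))) (mem_mul (mem_pt _) (mem_pt _))))))
        (mem_lM n _ _)) h5, val_nonneg _,
    le_sound (mem_mul (mem_pt _) (mem_om (mem_pt _))) (mem_mul (mem_pt _) (mem_pt _)) h6,
    le_sound mem_zero (mem_E1 n c _ _ _ _) h7, le_sound mem_zero (mem_E1 n c _ _ _ _) h8,
    le_sound mem_zero (mem_E1 n c _ _ _ _) h9, le_sound mem_zero (mem_E1 n c _ _ _ _) h10⟩

noncomputable def kd (c : NC) (d : ℕ) : Bool :=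
  le (om (mul (mul (cst 2) (pt c.W1)) (pt c.r1))) (pt d) && lt (cst 0) (pt d) && le (pt d) hf

theorem kd_sound {c : NC} {d : ℕ} (h : kd c d = true) :
    1 - 2 * c.cell.W1 * c.cell.r1 ≤ val d ∧ 0 < val d ∧ val d ≤ 1 / 2 := by
  simp only [kd, Bool.and_eq_true] at h
  exact ⟨le_sound (mem_om (mem_mul (mem_mul mem_two (mem_pt _)) (mem_pt _))) (mem_pt _) h.1.1,
    lt_sound mem_zero (mem_pt _) h.1.2, le_sound (mem_pt _) mem_hf h.2⟩

noncomputable def k2 (n : ℕ) (c : NC) (ul uh d : ℕ) : Bool :=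
  kLo n c.e2 ul && kHi n c.e1 uh && kd c d &&
    le (mul (sub l2 (half (lg n (ikap (pt c.e1))))) (add one (pt d)))
      (mul (mul (add hf (pt ul)) (om (pt d))) (add (cst 2) (pt d))) &&
    le (mul (mul (sub l2 (half (lg n (ikap (pt c.e1)))))
      (sub (add (add (neg (lg n (pt d))) l2) one)
        (mul (mul (cst 4) (sub c0 (pt uh))) (om (pt d))))) (add one (pt d)))
      (mul (neg (lg n (pt d))) (mul (mul (add hf (pt ul)) (om (pt d))) (add (cst 2) (pt d))))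

theorem k2_sound {n : ℕ} {c : NC} {ul uh d : ℕ} (h : k2 n c ul uh d = true) :
    Leaf2 c.cell (val ul) (val uh) (val d) := by
  simp only [k2, Bool.and_eq_true] at h
  obtain ⟨⟨⟨⟨h1, h2⟩, h3⟩, h4⟩, h5⟩ := h
  have h3' := kd_sound h3
  exact ⟨kLo_sound h1, kHi_sound h2, h3'.1, h3'.2.1, h3'.2.2,
    le_sound (mem_mul (mem_sub mem_l2 (mem_half (mem_lg n (mem_kap (mem_pt _)))))
      (mem_add mem_one (mem_pt _)))
      (mem_mul (mem_mul (mem_add mem_hf (mem_pt _)) (mem_om (mem_pt _)))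
        (mem_add mem_two (mem_pt _))) h4,
    le_sound (mem_mul (mem_mul (mem_sub mem_l2 (mem_half (mem_lg n (mem_kap (mem_pt _)))))
      (mem_sub (mem_add (mem_add (mem_neg (mem_lg n (mem_pt _))) mem_l2) mem_one)
        (mem_mul (mem_mul mem_four (mem_sub mem_c0 (mem_pt _))) (mem_om (mem_pt _)))))
        (mem_add mem_one (mem_pt _)))
      (mem_mul (mem_neg (mem_lg n (mem_pt _)))
        (mem_mul (mem_mul (mem_add mem_hf (mem_pt _)) (mem_om (mem_pt _)))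
          (mem_add mem_two (mem_pt _)))) h5⟩

noncomputable def k3 (n : ℕ) (c : NC) (a a1 d : ℕ) : Bool :=
  kd c d && lt (cst 0) (pt a) && le (mul (pt a) (pt d)) (mul (pt a1) (om (pt d))) &&
    lt (add (pt c.e2) (pt a1)) hf &&
    le (mul (Iv.ent n (pt c.e2)) (om (mul (cst 2) (pt a))))
      (mul (mul (pt a) (om (mul (cst 2) (pt c.e2))))
        (sub (lg n (om (add (pt c.e2) (pt a1)))) (lg n (add (pt c.e2) (pt a1))))) &&
    le (mul (cst 2) (pt a)) (mul (om (mul (cst 2) (pt a1))) (ikap (pt c.e1))) &&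
    le (mul (pt a) (sub (om (lg n (pt a))) (lg n (pt d))))
      (mul (om (mul (cst 2) (pt a1)))
        (add (half (mul (ikap (pt c.e1)) (sub (add (neg (lg n (pt d))) one) (pt d))))
          (mul (mul (cst 2) (sub (Iv.ent n (pt c.e1)) (mul (ikap (pt c.e2)) l2))) (om (pt d)))))

theorem k3_sound {n : ℕ} {c : NC} {a a1 d : ℕ} (h : k3 n c a a1 d = true) :
    Leaf3 c.cell (val a) (val a1) (val d) := by
  simp only [k3, Bool.and_eq_true] at h
  obtain ⟨⟨⟨⟨⟨⟨h1, h2⟩, h3⟩, h4⟩, h5⟩, h6⟩, h7⟩ := h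
  have h1' := kd_sound h1
  exact ⟨h1'.1, h1'.2.1, h1'.2.2, lt_sound mem_zero (mem_pt _) h2,
    le_sound (mem_mul (mem_pt _) (mem_pt _)) (mem_mul (mem_pt _) (mem_om (mem_pt _))) h3,
    lt_sound (mem_add (mem_pt _) (mem_pt _)) mem_hf h4,
    le_sound (mem_mul (mem_ent n (mem_pt _)) (mem_om (mem_mul mem_two (mem_pt _))))
      (mem_mul (mem_mul (mem_pt _) (mem_om (mem_mul mem_two (mem_pt _))))
        (mem_sub (mem_lg n (mem_om (mem_add (mem_pt _) (mem_pt _))))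
          (mem_lg n (mem_add (mem_pt _) (mem_pt _))))) h5,
    le_sound (mem_mul mem_two (mem_pt _))
      (mem_mul (mem_om (mem_mul mem_two (mem_pt _))) (mem_kap (mem_pt _))) h6,
    le_sound (mem_mul (mem_pt _) (mem_sub (mem_om (mem_lg n (mem_pt _))) (mem_lg n (mem_pt _))))
      (mem_mul (mem_om (mem_mul mem_two (mem_pt _)))
        (mem_add (mem_half (mem_mul (mem_kap (mem_pt _))
          (mem_sub (mem_add (mem_neg (mem_lg n (mem_pt _))) mem_one) (mem_pt _))))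
          (mem_mul (mem_mul mem_two (mem_sub (mem_ent n (mem_pt _))
            (mem_mul (mem_kap (mem_pt _)) mem_l2))) (mem_om (mem_pt _))))) h7⟩

noncomputable def ich (n : ℕ) (c : NC) : Iv := sub (Iv.ent n (pt c.e2)) (mul (ikap (pt c.e1)) l2)

theorem mem_ch (n : ℕ) (c : NC) :
    Mem (binEntropy c.cell.e2 - kap c.cell.e1 * log 2) (ich n c) :=
  mem_sub (mem_ent n (mem_pt _)) (mem_mul (mem_kap (mem_pt _)) mem_l2)

noncomputable def k4 (n : ℕ) (c : NC) (m : ℕ) : Bool :=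
  lt (cst 0) (pt c.W1) && lt (mul (cst 2) (pt c.r2)) (pt m) &&
    le (mul (pt m) (add (mul (ikap (pt c.e2)) (Iv.ent n (pt c.W1)))
      (mul (mul (cst 4) (ich n c)) (mul (pt c.W1) (om (pt c.W1))))))
      (mul (mul l2 (sub (sq (pt m)) (mul (cst 4) (sq (pt c.r2))))) (pt c.W1)) &&
    le (mul (mul (mul (mul (cst 8) (pt m)) (om (pt c.W2))) (ich n c)) (pt c.W2))
      (mul (ikap (pt c.e1)) (sub (mul (cst 4) (om (pt c.W2)))
        (mul (pt m) (add one (mul (mul (cst 2) c0) (sq (pt c.r2)))))))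

theorem k4_sound {n : ℕ} {c : NC} {m : ℕ} (h : k4 n c m = true) : Leaf4 c.cell (val m) := by
  simp only [k4, Bool.and_eq_true] at h
  obtain ⟨⟨⟨h1, h2⟩, h3⟩, h4⟩ := h
  exact ⟨lt_sound mem_zero (mem_pt _) h1, lt_sound (mem_mul mem_two (mem_pt _)) (mem_pt _) h2,
    le_sound (mem_mul (mem_pt _) (mem_add (mem_mul (mem_kap (mem_pt _)) (mem_ent n (mem_pt _)))
      (mem_mul (mem_mul mem_four (mem_ch n c)) (mem_mul (mem_pt _) (mem_om (mem_pt _))))))
      (mem_mul (mem_mul mem_l2 (mem_sub (mem_sq' (mem_pt _))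
        (mem_mul mem_four (mem_sq' (mem_pt _))))) (mem_pt _)) h3,
    le_sound (mem_mul (mem_mul (mem_mul (mem_mul mem_eight (mem_pt _)) (mem_om (mem_pt _)))
      (mem_ch n c)) (mem_pt _))
      (mem_mul (mem_kap (mem_pt _)) (mem_sub (mem_mul mem_four (mem_om (mem_pt _)))
        (mem_mul (mem_pt _) (mem_add mem_one (mem_mul (mem_mul mem_two mem_c0)
          (mem_sq' (mem_pt _))))))) h4⟩

noncomputable def iku (c : NC) (e : ℕ) : Iv := add (ikap (pt e)) (sq (sub (pt c.e2) (pt c.e1)))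
noncomputable def icu (n : ℕ) (c : NC) (e : ℕ) : Iv :=
  sub (iXe n (pt e) (half (add (pt c.e1) (pt c.e2)))) (mul (ikap (pt e)) l2)
noncomputable def imx (e a b : Iv) : Iv := add (mul (om e) a) (mul e b)
noncomputable def imy (e a b : Iv) : Iv := add (mul e a) (mul (om e) b)
noncomputable def iP (W r : ℕ) : Iv := mul (pt W) (add one (pt r))
noncomputable def iQ (W r : ℕ) : Iv := mul (pt W) (om (pt r))

theorem mem_ku (c : NC) (e : ℕ) : Mem (kap (val e) + (c.cell.e2 - c.cell.e1) ^ 2) (iku c e) :=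
  mem_add (mem_kap (mem_pt _)) (mem_sq' (mem_sub (mem_pt _) (mem_pt _)))
theorem mem_cu (n : ℕ) (c : NC) (e : ℕ) :
    Mem (Xe (val e) ((c.cell.e1 + c.cell.e2) / 2) - kap (val e) * log 2) (icu n c e) :=
  mem_sub (mem_Xe n (mem_pt _) (mem_half (mem_add (mem_pt _) (mem_pt _))))
    (mem_mul (mem_kap (mem_pt _)) mem_l2)
theorem mem_mx {e x y : ℝ} {E a b : Iv} (he : Mem e E) (ha : Mem x a) (hb : Mem y b) :
    Mem ((1 - e) * x + e * y) (imx E a b) := mem_add (mem_mul (mem_om he) ha) (mem_mul he hb)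
theorem mem_my {e x y : ℝ} {E a b : Iv} (he : Mem e E) (ha : Mem x a) (hb : Mem y b) :
    Mem (e * x + (1 - e) * y) (imy E a b) := mem_add (mem_mul he ha) (mem_mul (mem_om he) hb)
theorem mem_P (W r : ℕ) : Mem (val W * (1 + val r)) (iP W r) :=
  mem_mul (mem_pt _) (mem_add mem_one (mem_pt _))
theorem mem_Q (W r : ℕ) : Mem (val W * (1 - val r)) (iQ W r) :=
  mem_mul (mem_pt _) (mem_om (mem_pt _))

noncomputable def iEV (n : ℕ) (c : NC) (θ e A B W r : ℕ) : Iv :=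
  sub (sub (sub (add (iXe n (imx (pt e) (iP W r) (iQ W r)) (imx (pt e) (pt A) (pt B)))
    (iXe n (imy (pt e) (iP W r) (iQ W r)) (imy (pt e) (pt A) (pt B))))
    (mul (om (pt θ)) (add (iXe n (iP W r) (pt A)) (iXe n (iQ W r) (pt B)))))
    (mul (mul (cst 2) (pt θ)) (add (mul (iku c e) (iXe n (pt W) (half (add (pt c.W1) (pt c.W2)))))
      (mul (mul (cst 4) (icu n c e))
        (add (mul (pt W) (om (pt W))) (sq (half (sub (pt c.W2) (pt c.W1)))))))))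
    (mul (mul (cst 2) (om (pt θ)))
      (add (mul (iku c e) (sub (Iv.ent n (pt W)) (iHb n (pt W) (pt r))))
        (mul (icu n c e) (mul (cst 4) (sq (mul (pt W) (pt r)))))))

theorem mem_EV (n : ℕ) (c : NC) (θ e A B W r : ℕ) :
    Mem (EV c.cell (val θ) (val e) (val A) (val B) (val W) (val r)) (iEV n c θ e A B W r) :=
  mem_sub (mem_sub (mem_sub (mem_add
    (mem_Xe n (mem_mx (mem_pt _) (mem_P _ _) (mem_Q _ _)) (mem_mx (mem_pt _) (mem_pt _) (mem_pt _)))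
    (mem_Xe n (mem_my (mem_pt _) (mem_P _ _) (mem_Q _ _)) (mem_my (mem_pt _) (mem_pt _) (mem_pt _))))
    (mem_mul (mem_om (mem_pt _))
      (mem_add (mem_Xe n (mem_P _ _) (mem_pt _)) (mem_Xe n (mem_Q _ _) (mem_pt _)))))
    (mem_mul (mem_mul mem_two (mem_pt _)) (mem_add (mem_mul (mem_ku c e)
      (mem_Xe n (mem_pt _) (mem_half (mem_add (mem_pt _) (mem_pt _)))))
      (mem_mul (mem_mul mem_four (mem_cu n c e))
        (mem_add (mem_mul (mem_pt _) (mem_om (mem_pt _)))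
          (mem_sq' (mem_half (mem_sub (mem_pt _) (mem_pt _)))))))))
    (mem_mul (mem_mul mem_two (mem_om (mem_pt _)))
      (mem_add (mem_mul (mem_ku c e) (mem_sub (mem_ent n (mem_pt _)) (mem_Hb n (mem_pt _) (mem_pt _))))
        (mem_mul (mem_cu n c e) (mem_mul mem_four (mem_sq' (mem_mul (mem_pt _) (mem_pt _)))))))

noncomputable def kV (n : ℕ) (c : NC) (θ e A B : ℕ) : Bool :=
  lt (cst 0) (pt B) && lt (pt B) (pt A) && le (add (pt A) (pt B)) one &&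
    le (sub (neg (lg n (om (imx (pt e) (pt A) (pt B))))) (lg n (om (imy (pt e) (pt A) (pt B)))))
      (mul (om (pt θ)) (sub (neg (lg n (om (pt A)))) (lg n (om (pt B))))) &&
    le (cst 0) (iEV n c θ e A B c.W1 c.r1) && le (cst 0) (iEV n c θ e A B c.W1 c.r2) &&
    le (cst 0) (iEV n c θ e A B c.W2 c.r1) && le (cst 0) (iEV n c θ e A B c.W2 c.r2)

theorem kV_sound {n : ℕ} {c : NC} {θ e A B : ℕ} (h : kV n c θ e A B = true) :
    VEnd c.cell (val θ) (val e) (val A) (val B) := by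
  simp only [kV, Bool.and_eq_true] at h
  obtain ⟨⟨⟨⟨⟨⟨⟨h1, h2⟩, h3⟩, h4⟩, h5⟩, h6⟩, h7⟩, h8⟩ := h
  exact ⟨lt_sound mem_zero (mem_pt _) h1, lt_sound (mem_pt _) (mem_pt _) h2,
    le_sound (mem_add (mem_pt _) (mem_pt _)) mem_one h3,
    le_sound (mem_sub (mem_neg (mem_lg n (mem_om (mem_mx (mem_pt _) (mem_pt _) (mem_pt _)))))
      (mem_lg n (mem_om (mem_my (mem_pt _) (mem_pt _) (mem_pt _)))))
      (mem_mul (mem_om (mem_pt _))
        (mem_sub (mem_neg (mem_lg n (mem_om (mem_pt _)))) (mem_lg n (mem_om (mem_pt _))))) h4,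
    le_sound mem_zero (mem_EV n c _ _ _ _ _ _) h5, le_sound mem_zero (mem_EV n c _ _ _ _ _ _) h6,
    le_sound mem_zero (mem_EV n c _ _ _ _ _ _) h7, le_sound mem_zero (mem_EV n c _ _ _ _ _ _) h8⟩

noncomputable def k5 (n : ℕ) (c : NC) (θ A1 B1 A2 B2 : ℕ) : Bool :=
  lt (cst 0) (pt c.W1) && le (pt θ) one && kV n c θ c.e1 A1 B1 && kV n c θ c.e2 A2 B2

theorem k5_sound {n : ℕ} {c : NC} {θ A1 B1 A2 B2 : ℕ} (h : k5 n c θ A1 B1 A2 B2 = true) :
    Leaf5 c.cell (val θ) (val A1) (val B1) (val A2) (val B2) := by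
  simp only [k5, Bool.and_eq_true] at h
  exact ⟨lt_sound mem_zero (mem_pt _) h.1.1.1, val_nonneg _,
    le_sound (mem_pt _) mem_one h.1.1.2, kV_sound h.1.2, kV_sound h.2⟩

/-- Certificate trees. -/
inductive T where
  | a (ul : ℕ)
  | b (ul uh θ Rl : ℕ)
  | c (ul uh d : ℕ)
  | d (a a1 d : ℕ)
  | e (m : ℕ)
  | f (θ a1 b1 a2 b2 : ℕ)
  | x (s t : T)
  | y (s t : T)
  | z (s t : T)

def dec (x : ℕ) : ℕ := Nat.shiftLeft (Nat.shiftRight x 7) (Nat.land x 127)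
def mid (a b : ℕ) : ℕ := Nat.shiftRight (Nat.add a b) 1

noncomputable def chk (n : ℕ) (t : T) : NC → Bool :=
  T.rec (motive := fun _ => NC → Bool)
    (fun ul c => k0 n c (dec ul))
    (fun ul uh θ Rl c => k1 n c (dec ul) (dec uh) (dec θ) (dec Rl))
    (fun ul uh d c => k2 n c (dec ul) (dec uh) (dec d))
    (fun a a1 d c => k3 n c (dec a) (dec a1) (dec d))
    (fun m c => k4 n c (dec m))
    (fun θ a1 b1 a2 b2 c => k5 n c (dec θ) (Nat.sub SS (dec a1)) (dec b1) (Nat.sub SS (dec a2)) (dec b2))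
    (fun _ _ s t c => s ⟨c.e1, mid c.e1 c.e2, c.W1, c.W2, c.r1, c.r2⟩ &&
      t ⟨mid c.e1 c.e2, c.e2, c.W1, c.W2, c.r1, c.r2⟩)
    (fun _ _ s t c => s ⟨c.e1, c.e2, c.W1, mid c.W1 c.W2, c.r1, c.r2⟩ &&
      t ⟨c.e1, c.e2, mid c.W1 c.W2, c.W2, c.r1, c.r2⟩)
    (fun _ _ s t c => s ⟨c.e1, c.e2, c.W1, c.W2, c.r1, mid c.r1 c.r2⟩ &&
      t ⟨c.e1, c.e2, c.W1, c.W2, mid c.r1 c.r2, c.r2⟩) t

theorem mid_le {a b : ℕ} (h : val a ≤ val b) : val a ≤ val (mid a b) ∧ val (mid a b) ≤ val b := by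
  have h' : a ≤ b := by
    have := (div_le_div_iff_of_pos_right S_pos).1 h
    exact_mod_cast this
  have e : mid a b = (a + b) / 2 := Nat.shiftRight_eq_div_pow (a + b) 1
  rw [e]
  exact ⟨val_mono (by omega), val_mono (by omega)⟩

structure AllS : Prop where
  s0 : S0
  s1 : S1
  s2 : S2
  s3 : S3
  s4 : S4
  s5 : S5

theorem chk_sound (H : AllS) (n : ℕ) (t : T) :
    ∀ c : NC, c.cell.OK → chk n t c = true → c.cell.Done := by
  induction t with
  | a ul => exact fun c hc h => H.s0 _ hc _ (k0_sound h)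
  | b ul uh θ Rl => exact fun c hc h => H.s1 _ hc _ _ _ _ (k1_sound h)
  | c ul uh d => exact fun c hc h => H.s2 _ hc _ _ _ (k2_sound h)
  | d a a1 d => exact fun c hc h => H.s3 _ hc _ _ _ (k3_sound h)
  | e m => exact fun c hc h => H.s4 _ hc _ (k4_sound h)
  | f θ a1 b1 a2 b2 => exact fun c hc h => H.s5 _ hc _ _ _ _ _ (k5_sound h)
  | x s t ihs iht =>
    intro c ⟨o1, o2, o3, o4, o5, o6, o7, o8, o9⟩ h
    have h' := Bool.and_eq_true_iff.1 h
    have m := mid_le o2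
    intro ε W r hd a1 a2 a3 a4 a5 a6
    rcases le_total ε (val (mid c.e1 c.e2)) with k | k
    · exact ihs ⟨c.e1, mid c.e1 c.e2, c.W1, c.W2, c.r1, c.r2⟩
        ⟨o1, m.1, m.2.trans o3, o4, o5, o6, o7, o8, o9⟩ h'.1 ε W r hd a1 k a3 a4 a5 a6
    · exact iht ⟨mid c.e1 c.e2, c.e2, c.W1, c.W2, c.r1, c.r2⟩
        ⟨o1.trans_le m.1, m.2, o3, o4, o5, o6, o7, o8, o9⟩ h'.2 ε W r hd k a2 a3 a4 a5 a6
  | y s t ihs iht =>
    intro c ⟨o1, o2, o3, o4, o5, o6, o7, o8, o9⟩ h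
    have h' := Bool.and_eq_true_iff.1 h
    have m := mid_le o5
    intro ε W r hd a1 a2 a3 a4 a5 a6
    rcases le_total W (val (mid c.W1 c.W2)) with k | k
    · exact ihs ⟨c.e1, c.e2, c.W1, mid c.W1 c.W2, c.r1, c.r2⟩
        ⟨o1, o2, o3, o4, m.1, m.2.trans o6, o7, o8, o9⟩ h'.1 ε W r hd a1 a2 a3 k a5 a6
    · exact iht ⟨c.e1, c.e2, mid c.W1 c.W2, c.W2, c.r1, c.r2⟩
        ⟨o1, o2, o3, o4.trans m.1, m.2, o6, o7, o8, o9⟩ h'.2 ε W r hd a1 a2 k a4 a5 a6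
  | z s t ihs iht =>
    intro c ⟨o1, o2, o3, o4, o5, o6, o7, o8, o9⟩ h
    have h' := Bool.and_eq_true_iff.1 h
    have m := mid_le o8
    intro ε W r hd a1 a2 a3 a4 a5 a6
    rcases le_total r (val (mid c.r1 c.r2)) with k | k
    · exact ihs ⟨c.e1, c.e2, c.W1, c.W2, c.r1, mid c.r1 c.r2⟩
        ⟨o1, o2, o3, o4, o5, o6, o7, m.1, m.2.trans o9⟩ h'.1 ε W r hd a1 a2 a3 a4 a5 k
    · exact iht ⟨c.e1, c.e2, c.W1, c.W2, mid c.r1 c.r2, c.r2⟩
        ⟨o1, o2, o3, o4, o5, o6, o7.trans m.1, m.2, o9⟩ h'.2 ε W r hd a1 a2 a3 a4 k a6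

def DN (e1 e2 W1 W2 r1 r2 : ℕ) : Prop := (NC.mk e1 e2 W1 W2 r1 r2).cell.Done

def okb (c : NC) : Bool :=
  Nat.blt 0 c.e1 && Nat.ble c.e1 c.e2 && Nat.ble (Nat.mul 2 c.e2) SS && Nat.ble c.W1 c.W2 &&
    Nat.ble (Nat.mul 2 c.W2) SS && Nat.ble c.r1 c.r2 && Nat.ble c.r2 SS

theorem val_SS : val SS = 1 := by rw [val, SS_cast, div_self S_pos.ne']

theorem val_half {m : ℕ} (h : 2 * m ≤ SS) : val m ≤ 1 / 2 := by
  have := val_mono h
  rw [val_SS] at this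
  have e : val (2 * m) = 2 * val m := by unfold val; push_cast; ring
  linarith

theorem dn (H : AllS) (n : ℕ) (t : T) {e1 e2 W1 W2 r1 r2 : ℕ}
    (h : (okb ⟨e1, e2, W1, W2, r1, r2⟩ && chk n t ⟨e1, e2, W1, W2, r1, r2⟩) = true) :
    DN e1 e2 W1 W2 r1 r2 := by
  have h' := Bool.and_eq_true_iff.1 h
  have k := h'.1
  simp only [okb, Bool.and_eq_true, Nat.blt_eq, Nat.ble_eq, Nat.mul_eq] at k
  obtain ⟨⟨⟨⟨⟨⟨k1, k2⟩, k3⟩, k4⟩, k5⟩, k6⟩, k7⟩ := k
  refine chk_sound H n t _ ⟨?_, val_mono k2, val_half k3, val_nonneg _, val_mono k4, val_half k5,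
    val_nonneg _, val_mono k6, val_SS ▸ val_mono k7⟩ h'.2
  exact div_pos (by exact_mod_cast k1) S_pos

variable {e1 e2 W1 W2 r1 r2 m : ℕ}

theorem dn_x (h1 : DN e1 m W1 W2 r1 r2) (h2 : DN m e2 W1 W2 r1 r2) : DN e1 e2 W1 W2 r1 r2 :=
  fun ε W r hd a1 a2 a3 a4 a5 a6 => (le_total ε (val m)).elim
    (fun k => h1 ε W r hd a1 k a3 a4 a5 a6) (fun k => h2 ε W r hd k a2 a3 a4 a5 a6)

theorem dn_y (h1 : DN e1 e2 W1 m r1 r2) (h2 : DN e1 e2 m W2 r1 r2) : DN e1 e2 W1 W2 r1 r2 :=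
  fun ε W r hd a1 a2 a3 a4 a5 a6 => (le_total W (val m)).elim
    (fun k => h1 ε W r hd a1 a2 a3 k a5 a6) (fun k => h2 ε W r hd a1 a2 k a4 a5 a6)

theorem dn_z (h1 : DN e1 e2 W1 W2 r1 m) (h2 : DN e1 e2 W1 W2 m r2) : DN e1 e2 W1 W2 r1 r2 :=
  fun ε W r hd a1 a2 a3 a4 a5 a6 => (le_total r (val m)).elim
    (fun k => h1 ε W r hd a1 a2 a3 a4 a5 k) (fun k => h2 ε W r hd a1 a2 a3 a4 k a6)

end Vale.Agent.P322
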