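import Mathlib

/-! Boolean functions, the binary symmetric channel and mutual information. -/

namespace Vale.Agent.P322

variable {ι : Type} [Fintype ι] [DecidableEq ι]

/-- Probability that the channel with crossover probability `ε` outputs `y` on input `x`. -/
noncomputable def chan (ε : ℝ) (x y : ι → ℤˣ) : ℝ := ∏ i, if y i = x i then 1 - ε else ε

/-- The joint law of `(f X, Y)` for `X` uniform and `Y` the channel output. -/
noncomputable def joint (ε : ℝ) (f : (ι → ℤˣ) → ℤˣ) (b : ℤˣ) (y : ι → ℤˣ) : ℝ :=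
  ∑ x : ι → ℤˣ, if f x = b then (1 / 2 ^ Fintype.card ι) * chan ε x y else 0

/-- The mutual information `I(f X; Y)` in bits. -/
noncomputable def mutInf (ε : ℝ) (f : (ι → ℤˣ) → ℤˣ) : ℝ :=
  ∑ b : ℤˣ, ∑ y : ι → ℤˣ, joint ε f b y *
    Real.logb 2 (joint ε f b y / ((∑ y', joint ε f b y') * ∑ b', joint ε f b' y))

/-- The binary entropy in bits. -/
noncomputable def h2 (p : ℝ) : ℝ := -p * Real.logb 2 p - (1 - p) * Real.logb 2 (1 - p)

/-- Change the sign of the coordinates in `a`. -/
def flipOn (a : Finset ι) (x : ι → ℤˣ) : ι → ℤˣ := fun i => if i ∈ a then -x i else x i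

/-- The cube has a fractional partition into subcubes on each of which `f` is antipodally odd:
`w a x` is the weight of the subcube through `x` with free coordinates `a`. -/
def OddCover (f : (ι → ℤˣ) → ℤˣ) : Prop :=
  ∃ w : Finset ι → (ι → ℤˣ) → ℝ, (∀ a x, 0 ≤ w a x) ∧
    (∀ a x y, (∀ i, i ∉ a → x i = y i) → w a x = w a y) ∧
    (∀ a x, w a x ≠ 0 → f (flipOn a x) = -f x) ∧ ∀ x, ∑ a, w a x = 1

end Vale.Agent.P322
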