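import Vale.Agent.P322.Hel

/-! Fractional covers and the entropy estimate. -/

namespace Vale.Agent.P322

open Finset Real

theorem sinh_ratio {a b : ℝ} (ha : 0 ≤ a) (hab : a ≤ b) : b * sinh a ≤ a * sinh b := by
  rcases (ha.trans hab).eq_or_lt with hb | hb
  · have : a = 0 := le_antisymm (hb ▸ hab) ha
    simp [this]
  have hc : ConvexOn ℝ (Set.Ici 0) sinh := by
    refine MonotoneOn.convexOn_of_deriv (convex_Ici 0) continuous_sinh.continuousOn
      differentiable_sinh.differentiableOn fun x hx y hy hxy => ?_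
    rw [interior_Ici] at hx hy
    rw [Real.deriv_sinh, cosh_le_cosh, abs_of_pos hx, abs_of_pos hy]
    exact hxy
  have := hc.2 (Set.mem_Ici.2 le_rfl) (Set.mem_Ici.2 hb.le)
    (show 0 ≤ 1 - a / b from sub_nonneg.2 ((div_le_one hb).2 hab))
    (show 0 ≤ a / b by positivity) (by ring)
  simp only [smul_eq_mul, mul_zero, zero_add, sinh_zero, div_mul_cancel₀ a hb.ne'] at this
  rw [div_mul_eq_mul_div, le_div_iff₀ hb] at this
  linarith

/-- The entropy minus a multiple of the Hellinger affinity, in hyperbolic coordinates. -/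
noncomputable def FF (c u : ℝ) : ℝ := log (2 * cosh u) - u * (sinh u / cosh u) - c / cosh u

theorem FF_deriv (c u : ℝ) : HasDerivAt (FF c) ((c * sinh u - u) / cosh u ^ 2) u := by
  have h0 := (cosh_pos u).ne'
  have h1 := ((hasDerivAt_cosh u).const_mul 2).log (by positivity)
  have h2 := (hasDerivAt_id u).mul ((hasDerivAt_sinh u).div (hasDerivAt_cosh u) h0)
  have h3 := (hasDerivAt_const u c).div (hasDerivAt_cosh u) h0
  refine ((h1.sub h2).sub h3).congr_deriv ?_
  have := cosh_sq u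
  simp only [id, Pi.div_apply]
  field_simp
  linear_combination (-u) * this

theorem FF_neg (c u : ℝ) : FF c (-u) = FF c u := by
  simp only [FF, cosh_neg, sinh_neg, neg_div, neg_mul_neg]

theorem FF_min {v : ℝ} (hv : 0 ≤ v) : ∃ c, 0 ≤ c ∧ ∀ u, FF c v ≤ FF c u := by
  obtain ⟨c, c0, c1, c2⟩ : ∃ c, 0 ≤ c ∧ (∀ u, 0 ≤ u → u ≤ v → c * sinh u ≤ u) ∧
      ∀ u, v ≤ u → u ≤ c * sinh u := by
    rcases hv.eq_or_lt with h | h
    · refine ⟨1, zero_le_one, fun u h1 h2 => ?_, fun u h1 => ?_⟩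
      · have : u = 0 := le_antisymm (h ▸ h2) h1
        simp [this]
      · rw [one_mul]
        exact self_le_sinh_iff.2 (h ▸ h1)
    · have hs : 0 < sinh v := sinh_pos_iff.2 h
      refine ⟨v / sinh v, by positivity, fun u h1 h2 => ?_, fun u h1 => ?_⟩
      · rw [div_mul_eq_mul_div, div_le_iff₀ hs]
        exact sinh_ratio h1 h2
      · rw [div_mul_eq_mul_div, le_div_iff₀ hs]
        exact sinh_ratio hv h1
  have hd : Differentiable ℝ (FF c) := fun u => (FF_deriv c u).differentiableAt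
  have key : ∀ u, 0 ≤ u → FF c v ≤ FF c u := fun u hu => by
    rcases le_total u v with h | h
    · refine antitoneOn_of_deriv_nonpos (convex_Icc 0 v) hd.continuous.continuousOn
        hd.differentiableOn (fun x hx => ?_) ⟨hu, h⟩ ⟨hv, le_rfl⟩ h
      rw [interior_Icc] at hx
      rw [(FF_deriv c x).deriv]
      exact div_nonpos_of_nonpos_of_nonneg (sub_nonpos.2 (c1 x hx.1.le hx.2.le)) (sq_nonneg _)
    · refine monotoneOn_of_deriv_nonneg (convex_Ici v) hd.continuous.continuousOn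
        hd.differentiableOn (fun x hx => ?_) (Set.mem_Ici.2 le_rfl) (Set.mem_Ici.2 h) h
      rw [interior_Ici] at hx
      rw [(FF_deriv c x).deriv]
      exact div_nonneg (sub_nonneg.2 (c2 x (le_of_lt hx))) (sq_nonneg _)
  refine ⟨c, c0, fun u => ?_⟩
  rcases le_total 0 u with h | h
  · exact key u h
  · rw [← FF_neg c u]
    exact key _ (neg_nonneg.2 h)

theorem FF_eq (c : ℝ) {p : ℝ} (h0 : 0 < p) (h1 : p < 1) :
    FF c (log ((1 - p) / p) / 2) = binEntropy p - c * (2 * √(p * (1 - p))) := by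
  have h2 : 0 < 1 - p := by linarith
  set u := log ((1 - p) / p) / 2 with hu
  have t0 := exp_pos u
  have t1 : exp u * exp u = (1 - p) / p := by
    rw [← exp_add, hu, add_halves, exp_log (by positivity)]
  have t2 : p * (exp u * exp u) = 1 - p := by rw [t1]; field_simp
  have c1 : 2 * cosh u = (p * exp u)⁻¹ := by
    rw [cosh_eq, exp_neg]
    field_simp
    linear_combination t2
  have c2 : sinh u / cosh u = 1 - 2 * p := by
    rw [div_eq_iff (cosh_pos u).ne', sinh_eq, cosh_eq, exp_neg]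
    field_simp
    linear_combination 2 * t2
  have c3 : √(p * (1 - p)) = p * exp u := by
    rw [sqrt_eq_iff_mul_self_eq (by positivity) (by positivity)]
    linear_combination (-p) * t2
  have c4 : c / cosh u = c * (2 * (p * exp u)) := by
    rw [div_eq_iff (cosh_pos u).ne']
    have : p * exp u * (2 * cosh u) = 1 := by rw [c1]; field_simp
    linear_combination (-c) * this
  rw [FF, c1, c2, c3, c4, log_inv, log_mul h0.ne' t0.ne', log_exp, binEntropy, log_inv, log_inv, hu,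
    log_div h2.ne' h0.ne']
  ring

theorem ent {ε : ℝ} (h0 : 0 < ε) (h1 : ε ≤ 1 / 2) : ∃ c, 0 ≤ c ∧ ∀ p, 0 < p → p < 1 →
    binEntropy ε + c * (2 * √(p * (1 - p)) - 2 * √(ε * (1 - ε))) ≤ binEntropy p := by
  obtain ⟨c, c0, hc⟩ := FF_min (v := log ((1 - ε) / ε) / 2)
    (div_nonneg (log_nonneg ((one_le_div h0).2 (by linarith))) zero_le_two)
  refine ⟨c, c0, fun p p0 p1 => ?_⟩
  have := hc (log ((1 - p) / p) / 2)
  rw [FF_eq c h0 (by linarith), FF_eq c p0 p1] at this
  linarith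

variable {ι : Type} [Fintype ι] [DecidableEq ι]

theorem chan_nonneg {ε : ℝ} (h0 : 0 ≤ ε) (h1 : ε ≤ 1) (x y : ι → ℤˣ) : 0 ≤ chan ε x y :=
  prod_nonneg fun _ _ => by split_ifs <;> linarith

theorem block {f : (ι → ℤˣ) → ℤˣ} (p : ι → Prop) [DecidablePred p] (w : (ι → ℤˣ) → ℝ)
    (w0 : ∀ x, 0 ≤ w x) (w1 : ∀ x y, (∀ i, ¬p i → x i = y i) → w x = w y)
    (w2 : ∀ x, w x ≠ 0 → f (fun i => if p i then -x i else x i) = -f x) {ε : ℝ} (h0 : 0 ≤ ε)
    (h1 : ε ≤ 1) (l : (ι → ℤˣ) → ℝ) (hl : ∀ y, 0 < l y) :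
    ∑ x, w x * (2 * √(ε * (1 - ε))) ≤
      ∑ x, w x * ∑ y, chan ε x y * if f x = 1 then l y else (l y)⁻¹ := by
  let e := (Equiv.piEquivPiSubtypeProd p fun _ => ℤˣ).symm
  have ec : ∀ x1 x2 y1 y2, chan ε (e (x1, x2)) (e (y1, y2)) = chan ε x1 y1 * chan ε x2 y2 :=
    fun x1 x2 y1 y2 => by
    rw [chan, ← Fintype.prod_subtype_mul_prod_subtype p, chan, chan]
    congr 1
    · exact prod_congr rfl fun i _ => by simp [e, i.2]
    · exact prod_congr rfl fun i _ => by simp [e, i.2]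
  generalize hs : 2 * √(ε * (1 - ε)) = s
  rw [← e.sum_comp, ← e.sum_comp (fun x => w x * _), Fintype.sum_prod_type_right,
    Fintype.sum_prod_type_right]
  refine sum_le_sum fun x2 _ => ?_
  have ew : ∀ x1, w (e (x1, x2)) = w (e (1, x2)) := fun x1 =>
    w1 _ _ fun i hi => by simp [e, hi]
  simp only [ew]
  rw [← mul_sum, ← mul_sum]
  by_cases hw : w (e (1, x2)) = 0
  · simp [hw]
  refine mul_le_mul_of_nonneg_left ?_ (w0 _)
  have ho : ∀ x1, f (e (-x1, x2)) = -f (e (x1, x2)) := fun x1 => by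
    rw [← w2 _ (by rw [ew]; exact hw)]
    congr 1
    funext i
    by_cases hi : p i <;> simp [e, hi]
  have e1 : ∀ x1, (∑ y, chan ε (e (x1, x2)) y * if f (e (x1, x2)) = 1 then l y else (l y)⁻¹) =
      ∑ y2, chan ε x2 y2 * ∑ y1, chan ε x1 y1 *
        if f (e (x1, x2)) = 1 then l (e (y1, y2)) else (l (e (y1, y2)))⁻¹ := fun x1 => by
    rw [← e.sum_comp, Fintype.sum_prod_type_right]
    refine sum_congr rfl fun y2 _ => ?_
    rw [mul_sum]
    exact sum_congr rfl fun y1 _ => by rw [ec]; ring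
  simp only [e1]
  rw [sum_comm]
  simp only [← mul_sum]
  refine le_trans (le_of_eq ?_) (sum_le_sum fun y2 _ => mul_le_mul_of_nonneg_left
    (hel (f := fun x1 => f (e (x1, x2))) ho h0 h1 (fun y1 => l (e (y1, y2))) fun _ => hl _)
    (chan_nonneg h0 h1 _ _))
  rw [← sum_mul, sum_chan, hs]
  simp [mul_comm]

theorem hel_cover {f : (ι → ℤˣ) → ℤˣ} (hf : OddCover f) {ε : ℝ} (h0 : 0 ≤ ε) (h1 : ε ≤ 1)
    (l : (ι → ℤˣ) → ℝ) (hl : ∀ y, 0 < l y) :
    2 * √(ε * (1 - ε)) * 2 ^ Fintype.card ι ≤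
      ∑ x, ∑ y, chan ε x y * if f x = 1 then l y else (l y)⁻¹ := by
  obtain ⟨w, w0, w1, w2, w3⟩ := hf
  have := sum_le_sum fun a (_ : a ∈ univ) =>
    block (fun i => i ∈ a) (w a) (w0 a) (w1 a) (w2 a) h0 h1 l hl
  rw [sum_comm, sum_comm (f := fun a x => w a x * ∑ y, _)] at this
  simp only [← sum_mul, w3, one_mul] at this
  refine le_trans (le_of_eq ?_) this
  simp
  ring

end Vale.Agent.P322
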