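import Vale.Agent.P322.Lin

/-! The Hellinger type inequality for odd functions on a cube. -/

namespace Vale.Agent.P322

open Matrix Finset

variable {ι : Type} [Fintype ι] [DecidableEq ι]

/-- A sign as a real number. -/
def sg (u : ℤˣ) : ℝ := ((u : ℤ) : ℝ)

theorem sum_units (g : ℤˣ → ℝ) : ∑ u, g u = g 1 + g (-1) := by
  rw [UnitsInt.univ, sum_pair (by decide)]

@[simp] theorem sg_one : sg 1 = 1 := by simp [sg]
@[simp] theorem sg_neg (u : ℤˣ) : sg (-u) = -sg u := by simp [sg]

/-- Walsh characters. -/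
noncomputable def wal (S : Finset ι) (x : ι → ℤˣ) : ℝ := ∏ i, if i ∈ S then sg (x i) else 1

/-- Square root of the channel. -/
noncomputable def rt (ε : ℝ) (y x : ι → ℤˣ) : ℝ := ∏ i, if y i = x i then √(1 - ε) else √ε

theorem rt_sq {ε : ℝ} (h0 : 0 ≤ ε) (h1 : ε ≤ 1) (y x : ι → ℤˣ) :
    rt ε y x * rt ε y x = chan ε x y := by
  rw [rt, chan, ← prod_mul_distrib]
  refine prod_congr rfl fun i _ => ?_
  split_ifs
  · exact Real.mul_self_sqrt (by linarith)
  · exact Real.mul_self_sqrt h0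

theorem sum_chan (ε : ℝ) (x : ι → ℤˣ) : ∑ y, chan ε x y = 1 := by
  simp only [chan]
  rw [← Fintype.piFinset_univ,
    ← prod_univ_sum (fun _ => univ) fun i (u : ℤˣ) => if u = x i then 1 - ε else ε]
  refine prod_eq_one fun i _ => ?_
  rw [sum_units]
  rcases Int.units_eq_one_or (x i) with h | h <;> simp [h]

theorem prod_mem (S : Finset ι) (a b : ℝ) :
    ∏ i, (if i ∈ S then a else b) = a ^ S.card * b ^ (Fintype.card ι - S.card) := by
  rw [prod_ite, prod_const, prod_const, filter_mem_eq_inter, univ_inter, ← card_compl]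
  congr 3
  ext i
  simp

theorem rt_wal (ε : ℝ) (S : Finset ι) (y : ι → ℤˣ) : ∑ x, rt ε y x * wal S x =
    (√(1 - ε) - √ε) ^ S.card * (√(1 - ε) + √ε) ^ (Fintype.card ι - S.card) * wal S y := by
  simp only [rt, wal, ← prod_mul_distrib]
  rw [← Fintype.piFinset_univ, ← prod_univ_sum (fun _ => univ) fun i (u : ℤˣ) =>
    (if y i = u then √(1 - ε) else √ε) * if i ∈ S then sg u else 1, ← prod_mem,
    ← prod_mul_distrib]
  refine prod_congr rfl fun i _ => ?_
  rw [sum_units]
  rcases Int.units_eq_one_or (y i) with h | h <;> by_cases hi : i ∈ S <;> simp [h, hi] <;> ring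

theorem wal_orth (S T : Finset ι) :
    ∑ y, wal S y * wal T y = if S = T then 2 ^ Fintype.card ι else 0 := by
  simp only [wal, ← prod_mul_distrib]
  rw [← Fintype.piFinset_univ, ← prod_univ_sum (fun _ => univ) fun i (u : ℤˣ) =>
    (if i ∈ S then sg u else 1) * if i ∈ T then sg u else 1]
  split_ifs with h
  · rw [← card_univ, ← prod_const]
    refine prod_congr rfl fun i _ => ?_
    rw [sum_units, h]
    by_cases hi : i ∈ T <;> simp [hi] <;> norm_num
  · obtain ⟨i, hi⟩ : ∃ i, ¬(i ∈ S ↔ i ∈ T) := not_forall.1 fun h' => h (Finset.ext h')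
    refine prod_eq_zero (mem_univ i) ?_
    rw [sum_units]
    by_cases h1 : i ∈ S <;> by_cases h2 : i ∈ T <;> simp_all

theorem wal_neg (S : Finset ι) (x : ι → ℤˣ) : wal S (-x) = (-1) ^ S.card * wal S x := by
  have := prod_mem S (-1) 1
  rw [one_pow, mul_one] at this
  rw [← this, wal, wal, ← prod_mul_distrib]
  refine prod_congr rfl fun i _ => ?_
  by_cases hi : i ∈ S <;> simp [hi]

theorem parseval {I : Type} [Fintype I] [DecidableEq I] (σ : I → Finset ι)
    (hσ : Function.Injective σ) (d : I → ℝ) :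
    ∑ y, (∑ T, d T * wal (σ T) y) ^ 2 = 2 ^ Fintype.card ι * ∑ T, d T ^ 2 := by
  simp only [sq, sum_mul_sum]
  rw [sum_comm, mul_sum]
  refine sum_congr rfl fun T _ => ?_
  rw [sum_comm]
  have : ∀ T', ∑ y, d T * wal (σ T) y * (d T' * wal (σ T') y) =
      if T = T' then d T * d T' * 2 ^ Fintype.card ι else 0 := fun T' => by
    have e : ∀ y, d T * wal (σ T) y * (d T' * wal (σ T') y) =
        d T * d T' * (wal (σ T) y * wal (σ T') y) := fun y => by ring
    simp only [e]
    rw [← mul_sum, wal_orth]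
    simp [hσ.eq_iff]
  simp only [this, sum_ite_eq, mem_univ, if_true]
  ring

theorem sum_split {f : (ι → ℤˣ) → ℤˣ} (hf : ∀ x, f (-x) = -f x) (g : (ι → ℤˣ) → ℝ) :
    ∑ x, g x = ∑ x : {x // f x = 1}, (g x + g (-x)) := by
  rw [← Fintype.sum_subtype_add_sum_subtype (fun x => f x = 1), sum_add_distrib]
  congr 1
  symm
  refine Fintype.sum_equiv (Equiv.subtypeEquiv (Equiv.neg _) fun x => ?_) _ _ fun x => rfl
  rw [Equiv.neg_apply, hf]
  rcases Int.units_eq_one_or (f x) with h | h <;> simp [h]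

theorem am_gm (a b e l : ℝ) (he : e ^ 2 = 1) (hl : 0 < l) :
    (a + e * b) ^ 2 ≤ (1 + l) * a ^ 2 + (1 + l⁻¹) * b ^ 2 := by
  have h1 : (1 + l) * a ^ 2 + (1 + l⁻¹) * b ^ 2 - (a + e * b) ^ 2 = l⁻¹ * (l * a - e * b) ^ 2 := by
    have : b ^ 2 = e ^ 2 * b ^ 2 := by rw [he, one_mul]
    field_simp
    linear_combination (-1 - l) * b ^ 2 * he
  have : 0 ≤ l⁻¹ * (l * a - e * b) ^ 2 := by positivity
  linarith

theorem lev_anti {s : ℝ} (h0 : 0 ≤ s) (h1 : s ≤ 1) (n : ℕ) {r j : ℕ} (h : r ≤ j) (hj : j ≤ n) :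
    (1 - s) ^ j * (1 + s) ^ (n - j) ≤ (1 - s) ^ r * (1 + s) ^ (n - r) := by
  obtain ⟨d, rfl⟩ := Nat.exists_eq_add_of_le h
  obtain ⟨e, rfl⟩ := Nat.exists_eq_add_of_le hj
  have e1 : r + d + e - (r + d) = e := by omega
  have e2 : r + d + e - r = d + e := by omega
  have a0 : 0 ≤ 1 - s := by linarith
  rw [e1, e2, pow_add, pow_add, mul_assoc]
  gcongr
  linarith

theorem hel {f : (ι → ℤˣ) → ℤˣ} (hf : ∀ x, f (-x) = -f x) {ε : ℝ} (h0 : 0 ≤ ε) (h1 : ε ≤ 1)
    (l : (ι → ℤˣ) → ℝ) (hl : ∀ y, 0 < l y) :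
    2 * √(ε * (1 - ε)) * 2 ^ Fintype.card ι ≤
      ∑ x, ∑ y, chan ε x y * if f x = 1 then l y else (l y)⁻¹ := by
  obtain ⟨i0⟩ : Nonempty ι := by
    by_contra hn
    have := hf 1
    rw [not_nonempty_iff] at hn
    rw [Subsingleton.elim (-1 : ι → ℤˣ) 1] at this
    exact units_ne_neg_self _ this
  set s := 2 * √(ε * (1 - ε)) with hs
  set n := Fintype.card ι with hn
  have n0 : 0 < n := Fintype.card_pos_iff.2 ⟨i0⟩
  have q1 : √(1 - ε) ^ 2 = 1 - ε := Real.sq_sqrt (by linarith)
  have q2 : √ε ^ 2 = ε := Real.sq_sqrt h0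
  have q3 : √(ε * (1 - ε)) = √ε * √(1 - ε) := Real.sqrt_mul h0 _
  have pm : (√(1 - ε) - √ε) ^ 2 = 1 - s := by rw [hs, q3]; nlinarith
  have pp : (√(1 - ε) + √ε) ^ 2 = 1 + s := by rw [hs, q3]; nlinarith
  have s0 : 0 ≤ s := by positivity
  have s1 : s ≤ 1 := by linarith [sq_nonneg (√(1 - ε) - √ε)]
  let C : Matrix {x // f x = 1} {x // f x = 1} ℝ := Matrix.of fun x x' =>
    ∑ y, ((1 + l y) * (rt ε y x * rt ε y x') + (1 + (l y)⁻¹) * (rt ε y (-x) * rt ε y (-x')))
  have hq : ∀ u, u ⬝ᵥ C *ᵥ u = ∑ y, ((1 + l y) * (∑ x, rt ε y x.1 * u x) ^ 2 +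
      (1 + (l y)⁻¹) * (∑ x, rt ε y (-x.1) * u x) ^ 2) := fun u => by
    simp only [C, dotProduct, mulVec, of_apply, sq, sum_mul_sum, mul_sum, sum_mul,
      ← sum_add_distrib]
    symm
    rw [sum_comm]
    refine sum_congr rfl fun x _ => ?_
    rw [sum_comm]
    exact sum_congr rfl fun x' _ => sum_congr rfl fun y _ => by ring
  have key := trace_ge C (by
      ext x x'
      simp only [C, conjTranspose_apply, of_apply, star_trivial, mul_comm]) (fun u => by
      rw [hq]
      exact sum_nonneg fun y _ => by have := hl y; positivity)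
    (univ.erase i0).powerset card (fun j => if j < n then 2 * ((1 - s) ^ j * (1 + s) ^ (n - j))
      else 0) n (fun a _ => card_le_univ a) (fun j => by
      have a0 : 0 ≤ 1 - s := by linarith
      by_cases hj : j + 1 < n
      · rw [if_pos hj, if_pos (by omega)]
        linarith [lev_anti s0 s1 n (Nat.le_add_right j 1) hj.le]
      · rw [if_neg hj]
        split_ifs
        · positivity
        · exact le_rfl) (if_neg (lt_irrefl n)) (fun j hj => ?_)
  · have t1 : C.trace = 2 ^ n + ∑ x, ∑ y, chan ε x y * if f x = 1 then l y else (l y)⁻¹ := by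
      have e : (2 : ℝ) ^ n = ∑ x : ι → ℤˣ, ∑ y, chan ε x y := by simp [sum_chan, hn]
      rw [e, ← sum_add_distrib, sum_split hf]
      refine sum_congr rfl fun x _ => ?_
      have e2 : f (-x.1) ≠ 1 := by rw [hf, x.2]; decide
      simp only [C, diag_apply, of_apply, rt_sq h0 h1, x.2, e2, if_true, if_false,
        ← sum_add_distrib]
      exact sum_congr rfl fun y _ => by ring
    have c1 : (univ.erase i0).card = n - 1 := by rw [card_erase_of_mem (mem_univ _), card_univ]
    have t2 : ∑ a ∈ (univ.erase i0).powerset, (if a.card < n then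
        2 * ((1 - s) ^ a.card * (1 + s) ^ (n - a.card)) else 0) = 2 ^ n * (1 + s) := by
      have e := sum_pow_mul_eq_add_pow (1 - s) (1 + s) (univ.erase i0)
      have e2 : (2 : ℝ) ^ n = 2 * (1 - s + (1 + s)) ^ (univ.erase i0).card := by
        rw [c1, show 1 - s + (1 + s) = 2 by ring, ← pow_succ', Nat.sub_add_cancel n0]
      rw [e2, ← e, mul_sum, sum_mul]
      refine sum_congr rfl fun a ha => ?_
      have := card_le_card (mem_powerset.1 ha)
      rw [c1] at this ⊢
      rw [if_pos (by omega), show n - a.card = n - 1 - a.card + 1 by omega, pow_succ]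
      ring
    rw [t1, t2] at key
    linarith
  · let σ : ((univ.erase i0).powerset.filter fun a => a.card ≤ j) → Finset ι := fun T =>
      if Even (T.1.card + j) then T.1 else insert i0 T.1
    have ni : ∀ T : ((univ.erase i0).powerset.filter fun a => a.card ≤ j), i0 ∉ T.1 := fun T h =>
      notMem_erase i0 univ (mem_powerset.1 (mem_filter.1 T.2).1 h)
    have σi : Function.Injective σ := fun T T' h => by
      have e : ∀ T, (σ T).erase i0 = T.1 := fun T => by
        simp only [σ]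
        split_ifs
        · exact erase_eq_of_notMem (ni T)
        · exact erase_insert (ni T)
      exact Subtype.ext (by rw [← e, h, e])
    have σc : ∀ T, (σ T).card ≤ j ∧ Even ((σ T).card + j) := fun T => by
      have := (mem_filter.1 T.2).2
      simp only [σ]
      split_ifs with h
      · exact ⟨this, h⟩
      · rw [card_insert_of_notMem (ni T)]
        rw [Nat.even_iff] at h ⊢
        omega
    have σp : ∀ T, (-1 : ℝ) ^ (σ T).card = (-1) ^ j := fun T => by
      have := (σc T).2.neg_one_pow (α := ℝ)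
      rw [pow_add] at this
      have e : ((-1 : ℝ) ^ j) * (-1) ^ j = 1 := by rw [← mul_pow]; simp
      linear_combination (-1) ^ j * this - (-1) ^ (σ T).card * e
    let v := fun (c : _ → ℝ) (x : ι → ℤˣ) => ∑ T, c T * wal (σ T) x
    have vn : ∀ c x, v c (-x) = (-1) ^ j * v c x := fun c x => by
      simp only [v, wal_neg, σp, mul_sum]
      exact sum_congr rfl fun T _ => by ring
    have e2 : ((-1 : ℝ) ^ j) ^ 2 = 1 := by rw [← pow_mul, mul_comm, pow_mul]; simp
    have nv : ∀ c, 2 * ∑ x : {x // f x = 1}, v c x * v c x = 2 ^ n * ∑ T, c T ^ 2 := fun c => by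
      rw [← parseval σ σi c, sum_split hf, mul_sum]
      refine sum_congr rfl fun x _ => ?_
      change _ = v c x ^ 2 + v c (-x) ^ 2
      rw [vn, mul_pow, e2]
      ring
    refine ⟨Matrix.vecMulLinear (Matrix.of fun T (x : {x // f x = 1}) => wal (σ T) x),
      fun c hc => ?_, fun c => ?_⟩
    · change 0 < ∑ x : {x // f x = 1}, v c x * v c x
      obtain ⟨T, hT⟩ := Function.ne_iff.1 hc
      have : 0 < ∑ T, c T ^ 2 :=
        sum_pos' (fun _ _ => sq_nonneg _) ⟨T, mem_univ _, sq_pos_of_ne_zero hT⟩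
      have := mul_pos (pow_pos two_pos n) this
      linarith [nv c]
    · rw [hq, if_pos hj]
      change 2 * ((1 - s) ^ j * (1 + s) ^ (n - j)) * (∑ x : {x // f x = 1}, v c x * v c x) ≤
        ∑ y, ((1 + l y) * (∑ x : {x // f x = 1}, rt ε y x.1 * v c x) ^ 2 +
          (1 + (l y)⁻¹) * (∑ x : {x // f x = 1}, rt ε y (-x.1) * v c x) ^ 2)
      refine le_trans ?_ (sum_le_sum fun y _ => am_gm _ _ _ _ e2 (hl y))
      have a1 : ∀ y, ∑ x : {x // f x = 1}, rt ε y x.1 * v c x +
          (-1) ^ j * ∑ x : {x // f x = 1}, rt ε y (-x.1) * v c x =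
          ∑ T, (c T * ((√(1 - ε) - √ε) ^ (σ T).card * (√(1 - ε) + √ε) ^ (n - (σ T).card))) *
            wal (σ T) y := fun y => by
        have b1 : ∑ x, rt ε y x * v c x = ∑ T, c T * ∑ x, rt ε y x * wal (σ T) x := by
          simp only [v, mul_sum]
          rw [sum_comm]
          exact sum_congr rfl fun T _ => sum_congr rfl fun x _ => by ring
        simp only [rt_wal, ← mul_assoc] at b1 ⊢
        rw [← b1, sum_split hf, mul_sum, ← sum_add_distrib]
        exact sum_congr rfl fun x _ => by rw [vn]; ring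
      simp only [a1]
      rw [parseval σ σi, mul_comm 2, mul_assoc, nv, mul_left_comm, mul_sum]
      refine mul_le_mul_of_nonneg_left (sum_le_sum fun T _ => ?_) (by positivity)
      rw [mul_pow, mul_pow, ← pow_mul, ← pow_mul, mul_comm _ 2, mul_comm _ 2, pow_mul, pow_mul,
        pm, pp, mul_comm]
      exact mul_le_mul_of_nonneg_left (lev_anti s0 s1 n (σc T).1 hj.le) (sq_nonneg _)

end Vale.Agent.P322
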