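import Vale.Agent.P322.CKStmts

/-! The Bellman induction and the end points. -/

namespace Vale.Agent.P322

open Finset Real

namespace Ind

/-- The uniform average. -/
noncomputable def av {I : Type} [Fintype I] (g : I → ℝ) : ℝ := (∑ i, g i) / Fintype.card I

variable {I : Type} [Fintype I] {g g' p q : I → ℝ} {ε k c : ℝ}

theorem av_le (h : ∀ i, g i ≤ g' i) : av g ≤ av g' :=
  div_le_div_of_nonneg_right (sum_le_sum fun i _ => h i) (Nat.cast_nonneg _)

theorem av_lin [Nonempty I] (a b d : ℝ) (g g' : I → ℝ) :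
    av (fun i => a + b * g i + d * g' i) = a + b * av g + d * av g' := by
  have : (Fintype.card I : ℝ) ≠ 0 := Nat.cast_ne_zero.2 Fintype.card_ne_zero
  simp only [av, sum_add_distrib, ← mul_sum, sum_const, card_univ, nsmul_eq_mul]
  field_simp

theorem av_const [Nonempty I] (a : ℝ) : av (fun _ : I => a) = a := by
  simpa using av_lin (I := I) a 0 0 0 0

theorem av_sub [Nonempty I] (g : I → ℝ) : av (fun i => 1 - g i) = 1 - av g := by
  simpa [sub_eq_add_neg] using av_lin 1 (-1) 0 g g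

theorem av_add [Nonempty I] (g g' : I → ℝ) : av (fun i => g i + g' i) = av g + av g' := by
  simpa using av_lin 0 1 1 g g'

theorem av_zero [Nonempty I] (h : ∀ i, 0 ≤ g i) (h0 : av g = 0) (i : I) : g i = 0 := by
  have : (Fintype.card I : ℝ) ≠ 0 := Nat.cast_ne_zero.2 Fintype.card_ne_zero
  exact (sum_eq_zero_iff_of_nonneg fun i _ => h i).1 ((div_eq_zero_iff.1 h0).resolve_right this)
    i (mem_univ i)

theorem conc {x y t : ℝ} (x0 : 0 ≤ x) (x1 : x ≤ 1) (y0 : 0 ≤ y) (y1 : y ≤ 1) (t0 : 0 ≤ t)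
    (t1 : t ≤ 1) : binEntropy x + binEntropy y ≤
      binEntropy ((1 - t) * x + t * y) + binEntropy (t * x + (1 - t) * y) := by
  have a := strictConcave_binEntropy.concaveOn.2 ⟨x0, x1⟩ ⟨y0, y1⟩ (sub_nonneg.2 t1) t0 (by ring)
  have b := strictConcave_binEntropy.concaveOn.2 ⟨x0, x1⟩ ⟨y0, y1⟩ t0 (sub_nonneg.2 t1) (by ring)
  simp only [smul_eq_mul] at a b
  linarith

theorem spread (k0 : 0 ≤ k) (c0 : 0 ≤ c) {a b x y : ℝ} (a0 : 0 ≤ a) (b1 : b ≤ 1) (h1 : a ≤ x)
    (h2 : x ≤ b) (e : a + b = x + y) : Bf k c b + Bf k c a ≤ Bf k c x + Bf k c y := by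
  have h : binEntropy b + binEntropy a ≤ binEntropy x + binEntropy y := by
    rcases (h1.trans h2).eq_or_lt with rfl | l
    · obtain rfl := le_antisymm h1 h2
      obtain rfl : a = y := by linarith
      exact le_rfl
    · have d := sub_pos.2 l
      have := conc (a0.trans l.le) b1 a0 (l.le.trans b1) (t := (b - x) / (b - a))
        (div_nonneg (sub_nonneg.2 h2) d.le) ((div_le_one d).2 (by linarith))
      rwa [show (1 - (b - x) / (b - a)) * b + (b - x) / (b - a) * a = x by field_simp; ring,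
        show (b - x) / (b - a) * b + (1 - (b - x) / (b - a)) * a = y by
          rw [show y = a + b - x by linarith]; field_simp; ring] at this
  have := mul_le_mul_of_nonneg_left h k0
  have := mul_nonneg c0 (mul_nonneg (sub_nonneg.2 h1) (sub_nonneg.2 h2))
  obtain rfl : y = a + b - x := by linarith
  unfold Bf
  nlinarith

theorem Bf_sub (k c x : ℝ) : Bf k c (1 - x) = Bf k c x := by
  rw [Bf, Bf, binEntropy_one_sub]; ring

theorem step0 [Nonempty I] (e0 : 0 ≤ ε) (e1 : ε ≤ 1) (hc : Cert ε k (binEntropy ε - k * log 2))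
    (q0 : ∀ i, 0 ≤ q i) (qp : ∀ i, q i ≤ p i) (p1 : ∀ i, p i ≤ 1) (s : av p + av q ≤ 1)
    (h : (Bf k (binEntropy ε - k * log 2) (av p) + Bf k (binEntropy ε - k * log 2) (av q)) / 2 ≤
      av fun i => (binEntropy (p i) + binEntropy (q i)) / 2) :
    Bf k (binEntropy ε - k * log 2) ((av p + av q) / 2) ≤ av fun i => Fe ε (p i) (q i) := by
  have Q0 : 0 ≤ av q := (av_const 0).ge.trans (av_le q0)
  rcases (av_le qp).eq_or_lt with e | l
  · rw [e, add_self_div_two] at h ⊢
    refine h.trans (av_le fun i => ?_)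
    unfold Fe
    linarith [conc ((q0 i).trans (qp i)) (p1 i) (q0 i) ((qp i).trans (p1 i)) e0 e1]
  rcases ((av_le p1).trans (av_const 1).le).eq_or_lt with e | l'
  · have z : av q = 0 := by linarith
    have a := av_zero q0 z
    have b := av_zero (g := fun i => 1 - p i) (fun i => sub_nonneg.2 (p1 i)) (by rw [av_sub, e]; ring)
    have : ∀ i, Fe ε (p i) (q i) = binEntropy ε := fun i => by
      rw [a i, show p i = 1 by linarith [b i], Fe]
      simp
    simp only [this, av_const, e, z, Bf]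
    rw [show ((1 : ℝ) + 0) / 2 = 2⁻¹ by norm_num, binEntropy_two_inv]
    linarith
  obtain ⟨α, a0, a1, a2, α0, h1, h2⟩ := hc _ _ Q0 l s l'
  refine h2.trans (le_trans ?_ (av_le fun i => h1 _ _ (q0 i) (qp i) (p1 i)
    fun z => av_zero q0 z i))
  rw [av_add (fun i => a0 + a1 * p i + a2 * q i), av_lin]
  have := av_lin 0 α 0 (fun i => (binEntropy (p i) + binEntropy (q i)) / 2) p
  simp only [zero_add, zero_mul, add_zero] at this
  rw [this]
  linarith [mul_le_mul_of_nonneg_left h α0]

theorem step1 [Nonempty I] (e0 : 0 ≤ ε) (e1 : ε ≤ 1) (hc : Cert ε k (binEntropy ε - k * log 2))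
    (q0 : ∀ i, 0 ≤ q i) (qp : ∀ i, q i ≤ p i) (p1 : ∀ i, p i ≤ 1)
    (h : (Bf k (binEntropy ε - k * log 2) (av p) + Bf k (binEntropy ε - k * log 2) (av q)) / 2 ≤
      av fun i => (binEntropy (p i) + binEntropy (q i)) / 2) :
    Bf k (binEntropy ε - k * log 2) ((av p + av q) / 2) ≤ av fun i => Fe ε (p i) (q i) := by
  rcases le_total (av p + av q) 1 with s | s
  · exact step0 e0 e1 hc q0 qp p1 s h
  have := step0 (p := fun i => 1 - q i) (q := fun i => 1 - p i) e0 e1 hc
    (fun i => sub_nonneg.2 (p1 i)) (fun i => sub_le_sub_left (qp i) 1)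
    (fun i => sub_le_self 1 (q0 i)) (by rw [av_sub, av_sub]; linarith) (by
      simpa only [av_sub, Bf_sub, binEntropy_one_sub, add_comm (Bf _ _ (av q)),
        add_comm (binEntropy (q _))] using h)
  rw [av_sub, av_sub, show (1 - av q + (1 - av p)) / 2 = 1 - (av p + av q) / 2 by ring,
    Bf_sub] at this
  refine this.trans (av_le fun i => le_of_eq ?_)
  rw [Fe, Fe, add_comm, ← binEntropy_one_sub, ← binEntropy_one_sub (_ * (1 - q i) + _)]
  congr 3 <;> ring

theorem step [Nonempty I] (e0 : 0 ≤ ε) (e1 : ε ≤ 1) (k0 : 0 ≤ k)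
    (c0 : 0 ≤ binEntropy ε - k * log 2) (hc : Cert ε k (binEntropy ε - k * log 2))
    (q0 : ∀ i, 0 ≤ q i) (q1 : ∀ i, q i ≤ 1) (p0 : ∀ i, 0 ≤ p i) (p1 : ∀ i, p i ≤ 1)
    (h : (Bf k (binEntropy ε - k * log 2) (av p) + Bf k (binEntropy ε - k * log 2) (av q)) / 2 ≤
      av fun i => (binEntropy (p i) + binEntropy (q i)) / 2) :
    Bf k (binEntropy ε - k * log 2) ((av p + av q) / 2) ≤ av fun i => Fe ε (p i) (q i) := by
  have e : av (fun i => min (p i) (q i)) + av (fun i => max (p i) (q i)) = av p + av q := by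
    simp only [← av_add, min_add_max]
  have sp := spread k0 c0 ((av_const 0).ge.trans (av_le fun i => le_min (p0 i) (q0 i)))
    ((av_le fun i => max_le (p1 i) (q1 i)).trans (av_const 1).le)
    (av_le fun i => min_le_left (p i) (q i)) (av_le fun i => le_max_left (p i) (q i)) e
  have := step1 (p := fun i => max (p i) (q i)) (q := fun i => min (p i) (q i)) e0 e1 hc
    (fun i => le_min (p0 i) (q0 i)) (fun i => min_le_max) (fun i => max_le (p1 i) (q1 i))
    (le_trans (by linarith) (h.trans (av_le fun i => by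
      rcases le_total (p i) (q i) with l | l <;> simp [l, add_comm])))
  rw [add_comm, e] at this
  refine this.trans (av_le fun i => ?_)
  rcases le_total (p i) (q i) with l | l
  · rw [max_eq_right l, min_eq_left l, Fe, Fe, add_comm, add_comm (ε * q i), add_comm (_ * q i)]
  · rw [max_eq_left l, min_eq_right l]

theorem sum_succ (n : ℕ) (g : (Fin (n + 1) → ℤˣ) → ℝ) :
    ∑ y, g y = ∑ y : Fin n → ℤˣ, (g (Fin.cons 1 y) + g (Fin.cons (-1) y)) := by
  rw [← (Fin.consEquiv fun _ => ℤˣ).sum_comp, Fintype.sum_prod_type_right]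
  exact sum_congr rfl fun y _ => sum_units _

theorem av_succ (n : ℕ) (g : (Fin (n + 1) → ℤˣ) → ℝ) :
    av g = av fun y : Fin n → ℤˣ => (g (Fin.cons 1 y) + g (Fin.cons (-1) y)) / 2 := by
  rw [av, av, sum_succ, ← sum_div]
  simp only [Fintype.card_pi, Fintype.card_units_int, prod_const, card_univ, Fintype.card_fin]
  push_cast
  field_simp
  ring

theorem post_cons (n : ℕ) (f : (Fin (n + 1) → ℤˣ) → ℤˣ) (b : ℤˣ) (y : Fin n → ℤˣ) :
    post ε f (Fin.cons b y) = (if b = 1 then 1 - ε else ε) * post ε (fun x => f (Fin.cons 1 x)) y +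
      (if b = -1 then 1 - ε else ε) * post ε (fun x => f (Fin.cons (-1) x)) y := by
  simp only [post, sum_succ, mul_sum, ← sum_add_distrib, chan, Fin.prod_univ_succ, Fin.cons_zero,
    Fin.cons_succ, mul_ite, mul_zero]

variable {ι : Type} [Fintype ι] [DecidableEq ι]

theorem post_mem (h0 : 0 ≤ ε) (h1 : ε ≤ 1) (f : (ι → ℤˣ) → ℤˣ) (y : ι → ℤˣ) :
    0 ≤ post ε f y ∧ post ε f y ≤ 1 := by
  refine ⟨sum_nonneg fun x _ => by split_ifs; exacts [chan_nonneg h0 h1 _ _, le_rfl],
    sub_nonneg.1 ?_⟩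
  rw [one_sub_post]
  exact sum_nonneg fun x _ => by split_ifs; exacts [chan_nonneg h0 h1 _ _, le_rfl]

theorem bell (e0 : 0 ≤ ε) (e1 : ε ≤ 1) (k0 : 0 ≤ k) (c0 : 0 ≤ binEntropy ε - k * log 2)
    (hc : Cert ε k (binEntropy ε - k * log 2)) (n : ℕ) (f : (Fin n → ℤˣ) → ℤˣ) :
    Bf k (binEntropy ε - k * log 2) (av (post ε f)) ≤ av fun y => binEntropy (post ε f y) := by
  induction n with
  | zero =>
    simp only [av, post, chan, Bf, Fintype.sum_unique]
    split_ifs <;> simp
  | succ n ih =>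
    have := step (p := post ε fun x => f (Fin.cons 1 x)) (q := post ε fun x => f (Fin.cons (-1) x))
      e0 e1 k0 c0 hc (fun y => (post_mem e0 e1 _ y).1) (fun y => (post_mem e0 e1 _ y).2)
      (fun y => (post_mem e0 e1 _ y).1) (fun y => (post_mem e0 e1 _ y).2) (by
        have := av_lin 0 (1 / 2) (1 / 2) (fun y => binEntropy (post ε (fun x => f (Fin.cons 1 x)) y))
          fun y => binEntropy (post ε (fun x => f (Fin.cons (-1) x)) y)
        simp only [div_eq_inv_mul _ (2 : ℝ), zero_add, mul_one, mul_add] at this ⊢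
        linarith [ih fun x => f (Fin.cons 1 x), ih fun x => f (Fin.cons (-1) x)])
    rw [av_succ, av_succ]
    have e1 : ¬(1 : ℤˣ) = -1 := by decide
    have e2 : ¬(-1 : ℤˣ) = 1 := by decide
    simp only [post_cons, if_true, e1, e2, if_false]
    refine le_of_eq_of_le (congrArg _ ?_) this
    have := av_lin 0 (1 / 2) (1 / 2) (post ε fun x => f (Fin.cons 1 x))
      (post ε fun x => f (Fin.cons (-1) x))
    rw [show ∀ a b : ℝ, (a + b) / 2 = 0 + 1 / 2 * a + 1 / 2 * b from fun a b => by ring, ← this]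
    congr 1
    ext y
    ring

theorem mi_eq (h0 : 0 ≤ ε) (h1 : ε ≤ 1) (f : (ι → ℤˣ) → ℤˣ) : mutInf ε f =
    (binEntropy (av (post ε f)) - av fun y => binEntropy (post ε f y)) / log 2 := by
  set N : ℝ := 2 ^ Fintype.card ι with hN
  have N0 : 0 < N := by positivity
  have l2 : 0 < log 2 := log_pos one_lt_two
  have p0 : ∀ y, 0 ≤ post ε f y := fun y => (post_mem h0 h1 f y).1
  have p1 : ∀ y, 0 ≤ 1 - post ε f y := fun y => sub_nonneg.2 (post_mem h0 h1 f y).2
  have j1 : ∀ y, joint ε f 1 y = post ε f y / N := fun y => by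
    rw [joint, post, sum_div]
    exact sum_congr rfl fun x _ => by split_ifs <;> ring
  have j2 : ∀ y, joint ε f (-1) y = (1 - post ε f y) / N := fun y => by
    rw [joint, one_sub_post, sum_div]
    exact sum_congr rfl fun x _ => by split_ifs <;> ring
  have j3 : ∀ y, ∑ b, joint ε f b y = 1 / N := fun y => by
    rw [sum_units, j1, j2]; ring
  obtain ⟨m, hm⟩ : ∃ m, m = ∑ y, post ε f y / N := ⟨_, rfl⟩
  have cN : (Fintype.card (ι → ℤˣ) : ℝ) = N := by simp [hN]
  have hm' : 1 - m = ∑ y, (1 - post ε f y) / N := by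
    simp only [sub_div, sum_sub_distrib, ← hm, sum_const, card_univ, nsmul_eq_mul, cN]
    field_simp
  have m1 : ∀ y, post ε f y ≠ 0 → m ≠ 0 := fun y hy => by
    rw [hm]
    exact (sum_pos' (fun z _ => div_nonneg (p0 z) N0.le)
      ⟨y, mem_univ _, div_pos ((p0 y).lt_of_ne' hy) N0⟩).ne'
  have m2 : ∀ y, 1 - post ε f y ≠ 0 → 1 - m ≠ 0 := fun y hy => by
    rw [hm']
    exact (sum_pos' (fun z _ => div_nonneg (p1 z) N0.le)
      ⟨y, mem_univ _, div_pos ((p1 y).lt_of_ne' hy) N0⟩).ne'
  rw [mutInf, sum_units]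
  simp only [j3, j1, j2, ← hm, ← hm']
  have s1 : ∑ y, post ε f y = N * m := by rw [hm, ← sum_div]; field_simp
  have s2 : ∑ y, (1 - post ε f y) = N * (1 - m) := by rw [hm', ← sum_div]; field_simp
  rw [sum_congr rfl fun y _ => term_eq N0 (m1 y), sum_congr rfl fun y _ => term_eq N0 (m2 y),
    ← sum_div, ← sum_div, av, av, cN, s1, mul_div_cancel_left₀ _ N0.ne']
  simp only [binEntropy, log_inv, mul_neg, sum_add_distrib, sum_neg_distrib]
  rw [sum_sub_distrib, sum_sub_distrib, ← sum_mul, ← sum_mul, s1, s2]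
  field_simp
  ring

theorem pinsker0 {m : ℝ} (h0 : 0 ≤ m) (h1 : m ≤ 1 / 2) :
    (1 - 2 * m) ^ 2 / 2 ≤ log 2 - binEntropy m := by
  have d : ∀ x ∈ interior (Set.Icc (0 : ℝ) (1 / 2)),
      HasDerivAt (fun x => binEntropy x + (1 - 2 * x) ^ 2 / 2)
        (log (1 - x) - log x - 2 * (1 - 2 * x)) x := fun x hx => by
    rw [interior_Icc] at hx
    have := (((hasDerivAt_id x).const_mul 2).const_sub 1).pow 2 |>.div_const 2
    refine ((hasDerivAt_binEntropy hx.1.ne' (by linarith [hx.2] : x < 1).ne).add this).congr_deriv ?_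
    simp
    ring
  have := monotoneOn_of_deriv_nonneg (convex_Icc (0 : ℝ) (1 / 2))
    (f := fun x => binEntropy x + (1 - 2 * x) ^ 2 / 2) (by fun_prop)
    (fun x hx => (d x hx).differentiableAt.differentiableWithinAt) (fun x hx => by
      rw [(d x hx).deriv]
      rw [interior_Icc] at hx
      have x0 := hx.1
      have x1 : 0 < 1 - 2 * x := by linarith [hx.2]
      have := le_log_one_add_of_nonneg (div_nonneg x1.le x0.le)
      rw [show 1 + (1 - 2 * x) / x = (1 - x) / x by field_simp; ring,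
        log_div (by linarith) x0.ne',
        show 2 * ((1 - 2 * x) / x) / ((1 - 2 * x) / x + 2) = 2 * (1 - 2 * x) by
          rw [show (1 - 2 * x) / x + 2 = 1 / x by field_simp; ring]; field_simp] at this
      linarith) ⟨h0, h1⟩ ⟨by norm_num, le_rfl⟩ h1
  simp only [one_div, binEntropy_two_inv] at this
  norm_num at this
  linarith

theorem pinsker {m : ℝ} (h0 : 0 ≤ m) (h1 : m ≤ 1) :
    (1 - 2 * m) ^ 2 / 2 ≤ log 2 - binEntropy m := by
  rcases le_total m (1 / 2) with h | h
  · exact pinsker0 h0 h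
  · have := pinsker0 (m := 1 - m) (by linarith) (by linarith)
    rw [binEntropy_one_sub] at this
    linarith

end Ind

open Ind

theorem ind : IndStmt := by
  rintro ε e0 e1 ⟨k, k0, k1, c0, c1, hc⟩ n f
  have e2 : ε ≤ 1 := by linarith
  have l2 : 0 < log 2 := log_pos one_lt_two
  have b := bell e0.le e2 k0 c0 hc n f
  have p := pinsker ((av_const 0).ge.trans (av_le fun y => (post_mem e0.le e2 f y).1))
    ((av_le fun y => (post_mem e0.le e2 f y).2).trans (av_const 1).le)
  rw [mi_eq e0.le e2, h2_eq, le_sub_iff_add_le, ← add_div, div_le_one l2]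
  unfold Bf at b
  generalize av (post ε f) = m at b p ⊢
  nlinarith [mul_le_mul_of_nonneg_left p (sub_nonneg.2 k1),
    mul_le_mul_of_nonneg_right c1 (sq_nonneg (1 - 2 * m))]

theorem ends : EndStmt := fun n f => by
  have l2 : 0 < log 2 := log_pos one_lt_two
  constructor
  · rw [mi_eq le_rfl zero_le_one, h2_eq, binEntropy_zero, zero_div, sub_zero, div_le_one l2]
    have := (av_const 0).ge.trans (av_le fun y => binEntropy_nonneg
      (post_mem le_rfl zero_le_one f y).1 (post_mem le_rfl zero_le_one f y).2)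
    linarith [binEntropy_le_log_two (p := av (post 0 f))]
  · have : post (1 / 2) f = fun _ => post (1 / 2) f 1 := by
      ext y
      simp only [post, chan, show (1 : ℝ) - 1 / 2 = 1 / 2 by norm_num, ite_self]
    rw [mi_eq (by norm_num) (by norm_num), this, av_const, av_const, sub_self, zero_div, h2_eq,
      one_div, binEntropy_two_inv, div_self l2.ne', sub_self]

end Vale.Agent.P322
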