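import Mathlib

/-! Midpoint-radius fixed point arithmetic with verified logarithms. -/

namespace Vale.Agent.P322

open Real

structure Iv where
  ok : ℕ
  p : ℕ
  q : ℕ
  r : ℕ

namespace Iv

def SS : ℕ := 79228162514264337593543950336

noncomputable def S : ℝ := 2 ^ 96

theorem S_pos : 0 < S := by unfold S; positivity

theorem SS_cast : (SS : ℝ) = S := by unfold SS S; norm_num

def Mem (x : ℝ) (I : Iv) : Prop := I.ok ≠ 0 → |x * S - (I.p - I.q)| ≤ I.r

def pt (n : ℕ) : Iv := ⟨1, n, 0, 0⟩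
def cst (n : ℕ) : Iv := ⟨1, Nat.mul n 79228162514264337593543950336, 0, 0⟩
noncomputable def add (a b : Iv) : Iv :=
  Iv.rec (fun o p q r => Iv.rec (fun o' p' q' r' =>
    ⟨Nat.mul o o', Nat.add p p', Nat.add q q', Nat.add r r'⟩) b) a
noncomputable def neg (a : Iv) : Iv := Iv.rec (fun o p q r => ⟨o, q, p, r⟩) a
noncomputable def sub (a b : Iv) : Iv :=
  Iv.rec (fun o p q r => Iv.rec (fun o' p' q' r' =>
    ⟨Nat.mul o o', Nat.add p q', Nat.add q p', Nat.add r r'⟩) b) a
noncomputable def mul (a b : Iv) : Iv :=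
  Iv.rec (fun o p q r => Iv.rec (fun o' p' q' r' =>
    ⟨Nat.mul o o', Nat.shiftRight (Nat.add (Nat.mul p p') (Nat.mul q q')) 96,
      Nat.shiftRight (Nat.add (Nat.mul p q') (Nat.mul q p')) 96,
      Nat.add (Nat.shiftRight (Nat.add (Nat.mul (Nat.add p q) r')
        (Nat.mul (Nat.add (Nat.add p' q') r') r)) 96) 2⟩) b) a
noncomputable def half (a : Iv) : Iv :=
  Iv.rec (fun o p q r =>
    ⟨o, Nat.shiftRight p 1, Nat.shiftRight q 1, Nat.add (Nat.shiftRight r 1) 2⟩) a
noncomputable def isZ (a : Iv) : Bool :=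
  Iv.rec (fun o p q r => Nat.beq p q && Nat.beq r 0 && Nat.blt 0 o) a
noncomputable def mul0 (a b : Iv) : Iv := bif isZ b then pt 0 else mul a b
noncomputable def le (a b : Iv) : Bool :=
  Iv.rec (fun o p q r => Iv.rec (fun o' p' q' r' =>
    Nat.ble (Nat.add (Nat.add p q') (Nat.add r r')) (Nat.add p' q) && Nat.blt 0 (Nat.mul o o')) b) a
noncomputable def lt (a b : Iv) : Bool :=
  Iv.rec (fun o p q r => Iv.rec (fun o' p' q' r' =>
    Nat.blt (Nat.add (Nat.add p q') (Nat.add r r')) (Nat.add p' q) && Nat.blt 0 (Nat.mul o o')) b) a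

noncomputable def val (n : ℕ) : ℝ := n / S

theorem mem_pt (n : ℕ) : Mem (val n) (pt n) := fun _ => by
  simp [pt, val, S_pos.ne']

theorem mem_cst (n : ℕ) : Mem n (cst n) := fun _ => by
  have : (cst n).p = n * SS := rfl
  rw [this]
  simp [cst, SS_cast]

theorem mem_zero : Mem 0 (cst 0) := by simpa using mem_cst 0
theorem mem_one : Mem 1 (cst 1) := by simpa using mem_cst 1
theorem mem_two : Mem 2 (cst 2) := by simpa using mem_cst 2
theorem mem_four : Mem 4 (cst 4) := by simpa using mem_cst 4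
theorem mem_eight : Mem 8 (cst 8) := by simpa using mem_cst 8
theorem mem_twelve : Mem 12 (cst 12) := by simpa using mem_cst 12

variable {x y : ℝ} {a b : Iv}

theorem mem_add (ha : Mem x a) (hb : Mem y b) : Mem (x + y) (add a b) := fun h => by
  obtain ⟨o, p, q, r⟩ := a
  obtain ⟨o', p', q', r'⟩ := b
  have h0 : o * o' ≠ 0 := h
  have h1 := abs_le.1 (ha (left_ne_zero_of_mul h0))
  have h2 := abs_le.1 (hb (right_ne_zero_of_mul h0))
  show |(x + y) * S - (((p + p' : ℕ) : ℝ) - ((q + q' : ℕ) : ℝ))| ≤ ((r + r' : ℕ) : ℝ)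
  push_cast
  simp only at h1 h2
  rw [abs_le]; constructor <;> linarith [h1.1, h1.2, h2.1, h2.2]

theorem mem_sub (ha : Mem x a) (hb : Mem y b) : Mem (x - y) (sub a b) := fun h => by
  obtain ⟨o, p, q, r⟩ := a
  obtain ⟨o', p', q', r'⟩ := b
  have h0 : o * o' ≠ 0 := h
  have h1 := abs_le.1 (ha (left_ne_zero_of_mul h0))
  have h2 := abs_le.1 (hb (right_ne_zero_of_mul h0))
  show |(x - y) * S - (((p + q' : ℕ) : ℝ) - ((q + p' : ℕ) : ℝ))| ≤ ((r + r' : ℕ) : ℝ)
  push_cast
  simp only at h1 h2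
  rw [abs_le]; constructor <;> linarith [h1.1, h1.2, h2.1, h2.2]

theorem mem_neg (ha : Mem x a) : Mem (-x) (neg a) := fun h => by
  obtain ⟨o, p, q, r⟩ := a
  have h1 := abs_le.1 (ha h)
  show |(-x) * S - ((q : ℝ) - (p : ℝ))| ≤ (r : ℝ)
  simp only at h1
  rw [abs_le]; constructor <;> linarith [h1.1, h1.2]

theorem div_nat (m d : ℕ) (hd : 0 < d) :
    ((m / d : ℕ) : ℝ) ≤ m / d ∧ (m : ℝ) / d ≤ (m / d : ℕ) + 1 := by
  refine ⟨Nat.cast_div_le, ?_⟩
  have h := Nat.lt_mul_div_succ m hd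
  have h' : (m : ℝ) < d * ((m / d : ℕ) + 1) := by exact_mod_cast h
  have hd' : (0 : ℝ) < d := by exact_mod_cast hd
  rw [div_le_iff₀ hd']; linarith

theorem shr_nat (m k : ℕ) :
    ((Nat.shiftRight m k : ℕ) : ℝ) ≤ m / 2 ^ k ∧ (m : ℝ) / 2 ^ k ≤ (Nat.shiftRight m k : ℕ) + 1 := by
  have e : Nat.shiftRight m k = m / 2 ^ k := Nat.shiftRight_eq_div_pow m k
  have := div_nat m (2 ^ k) (by positivity)
  rw [e]
  simpa using this

theorem mem_mul (ha : Mem x a) (hb : Mem y b) : Mem (x * y) (mul a b) := fun h => by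
  obtain ⟨o, p, q, r⟩ := a
  obtain ⟨o', p', q', r'⟩ := b
  have h0 : o * o' ≠ 0 := h
  have h1 := ha (left_ne_zero_of_mul h0)
  have h2 := hb (right_ne_zero_of_mul h0)
  simp only at h1 h2
  show |x * y * S - (((Nat.shiftRight (p * p' + q * q') 96 : ℕ) : ℝ) -
    ((Nat.shiftRight (p * q' + q * p') 96 : ℕ) : ℝ))| ≤
    ((Nat.shiftRight ((p + q) * r' + (p' + q' + r') * r) 96 + 2 : ℕ) : ℝ)
  have s1 := shr_nat (p * p' + q * q') 96
  have s1' := shr_nat (p * q' + q * p') 96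
  have s2 := (shr_nat ((p + q) * r' + (p' + q' + r') * r) 96).2
  generalize Nat.shiftRight (p * p' + q * q') 96 = u at s1
  generalize Nat.shiftRight (p * q' + q * p') 96 = v at s1'
  generalize Nat.shiftRight ((p + q) * r' + (p' + q' + r') * r) 96 = t at s2
  push_cast at s1 s1' s2 ⊢
  have hS : (2 : ℝ) ^ 96 = S := rfl
  rw [hS] at s1 s1' s2
  have a1 : |(p : ℝ) - q| ≤ p + q := by
    simpa [Nat.abs_cast] using abs_sub (p : ℝ) q
  have a2 : |(p' : ℝ) - q'| ≤ p' + q' := by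
    simpa [Nat.abs_cast] using abs_sub (p' : ℝ) q'
  have key : |x * y * S - ((p * p' + q * q') / S - (p * q' + q * p') / S)| ≤
      ((p + q) * r' + (p' + q' + r') * r) / S := by
    have : x * y * S - ((p * p' + q * q') / S - (p * q' + q * p') / S) =
        ((p - q) * (y * S - (p' - q')) + (y * S) * (x * S - (p - q))) / S := by
      have := S_pos.ne'
      field_simp
      ring
    rw [this, abs_div, abs_of_pos S_pos]
    refine div_le_div_of_nonneg_right ?_ S_pos.le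
    refine (abs_add_le _ _).trans (add_le_add ?_ ?_)
    · rw [abs_mul]; exact mul_le_mul a1 h2 (abs_nonneg _) (by positivity)
    · rw [abs_mul]
      refine mul_le_mul ?_ h1 (abs_nonneg _) (by positivity)
      have := abs_add_le ((p' : ℝ) - q') (y * S - (p' - q'))
      simp only [add_sub_cancel] at this
      linarith
  have k := abs_le.1 key
  rw [abs_le]; constructor <;> linarith [k.1, k.2, s1.1, s1.2, s1'.1, s1'.2]

theorem mem_half (ha : Mem x a) : Mem (x / 2) (half a) := fun h => by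
  obtain ⟨o, p, q, r⟩ := a
  have h1 := abs_le.1 (ha h)
  simp only at h1
  show |x / 2 * S - (((Nat.shiftRight p 1 : ℕ) : ℝ) - ((Nat.shiftRight q 1 : ℕ) : ℝ))| ≤
    ((Nat.shiftRight r 1 + 2 : ℕ) : ℝ)
  have s1 := shr_nat p 1
  have s1' := shr_nat q 1
  have s2 := (shr_nat r 1).2
  push_cast
  rw [pow_one] at s1 s1' s2
  rw [abs_le]; constructor <;> linarith [h1.1, h1.2, s1.1, s1.2, s1'.1, s1'.2]

theorem isZ_eq (ha : Mem x a) (h : isZ a = true) : x = 0 := by
  obtain ⟨o, p, q, r⟩ := a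
  simp only [isZ, Bool.and_eq_true, Nat.beq_eq, Nat.blt_eq] at h
  have := ha h.2.ne'
  simp only [h.1.1, h.1.2, sub_self, sub_zero, Nat.cast_zero, abs_nonpos_iff, mul_eq_zero] at this
  exact this.resolve_right S_pos.ne'

theorem mem_mul0 (ha : Mem x a) (hb : Mem y b) : Mem (x * y) (mul0 a b) := by
  unfold mul0
  cases h : isZ b
  · exact mem_mul ha hb
  · rw [isZ_eq hb h, mul_zero]
    intro _
    simp [pt]

theorem mem_sq (ha : Mem x a) : Mem (x ^ 2) (mul a a) := by
  rw [sq]; exact mem_mul ha ha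

theorem le_sound (ha : Mem x a) (hb : Mem y b) (h : le a b = true) : x ≤ y := by
  obtain ⟨o, p, q, r⟩ := a
  obtain ⟨o', p', q', r'⟩ := b
  simp only [le, Bool.and_eq_true, Nat.ble_eq, Nat.blt_eq, Nat.add_eq, Nat.mul_eq] at h
  have h1 := abs_le.1 (ha (left_ne_zero_of_mul h.2.ne'))
  have h2 := abs_le.1 (hb (right_ne_zero_of_mul h.2.ne'))
  simp only at h1 h2
  have h4 : (p : ℝ) + q' + (r + r') ≤ p' + q := by exact_mod_cast h.1
  exact le_of_mul_le_mul_right (by linarith [h1.2, h2.1]) S_pos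

theorem lt_sound (ha : Mem x a) (hb : Mem y b) (h : lt a b = true) : x < y := by
  obtain ⟨o, p, q, r⟩ := a
  obtain ⟨o', p', q', r'⟩ := b
  simp only [lt, Bool.and_eq_true, Nat.blt_eq, Nat.add_eq, Nat.mul_eq] at h
  have h1 := abs_le.1 (ha (left_ne_zero_of_mul h.2.ne'))
  have h2 := abs_le.1 (hb (right_ne_zero_of_mul h.2.ne'))
  simp only at h1 h2
  have h4 : (p : ℝ) + q' + (r + r') < p' + q := by exact_mod_cast h.1
  exact lt_of_mul_lt_mul_right (by linarith [h1.2, h2.1]) S_pos.le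

/-- Horner evaluation of the odd series. -/
def hor (z2 : ℕ) (n : ℕ) : ℕ → ℕ :=
  Nat.rec (fun _ => 0)
    (fun _ ih k => Nat.add (Nat.div SS k) (Nat.shiftRight (Nat.mul z2 (ih (Nat.add k 2))) 96)) n

noncomputable def horR (w : ℝ) : ℕ → ℕ → ℝ
  | 0, _ => 0
  | n + 1, k => 1 / k + w * horR w n (k + 2)

theorem hor_spec {w : ℝ} {z2 : ℕ} (h0 : 0 ≤ w) (h1 : w ≤ 1 / 9) (hz : |w * S - z2| ≤ 3) :
    ∀ n k : ℕ, 0 < k → 0 ≤ horR w n k ∧ horR w n k ≤ 9 / 8 ∧ |horR w n k * S - hor z2 n k| ≤ 8 := by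
  intro n
  induction n with
  | zero => intro k _; simp [horR, hor]; norm_num
  | succ n ih =>
    intro k hk
    obtain ⟨a0, a1, a2⟩ := ih (k + 2) (by omega)
    have hk1 : (1 : ℝ) ≤ k := by exact_mod_cast hk
    have hk2 : 1 / (k : ℝ) ≤ 1 := by rw [div_le_one (by linarith)]; exact hk1
    have hk3 : 0 ≤ 1 / (k : ℝ) := by positivity
    refine ⟨by simp only [horR]; positivity, by simp only [horR]; nlinarith, ?_⟩
    have e : hor z2 (n + 1) k = SS / k + Nat.shiftRight (z2 * hor z2 n (k + 2)) 96 := rfl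
    have s1 := div_nat SS k hk
    have s2 := shr_nat (z2 * hor z2 n (k + 2)) 96
    rw [e]
    simp only [horR]
    generalize Nat.shiftRight (z2 * hor z2 n (k + 2)) 96 = q at s2
    generalize SS / k = t at s1
    generalize hor z2 n (k + 2) = H at a2 s2
    generalize horR w n (k + 2) = T at a0 a1 a2
    push_cast at s1 s2 ⊢
    have hS : (2 : ℝ) ^ 96 = S := rfl
    rw [hS] at s2
    rw [SS_cast] at s1
    have hS1 : (1000 : ℝ) ≤ S := by unfold S; norm_num
    have b := abs_le.1 a2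
    have c := abs_le.1 hz
    have key : |w * T * S - z2 * H / S| ≤ 5 := by
      have : w * T * S - z2 * H / S =
          w * (T * S - H) + (w * S - z2) * (H / S) := by
        have := S_pos.ne'
        field_simp
        ring
      rw [this]
      have hH0 : (0 : ℝ) ≤ H / S := by have := S_pos; positivity
      have hH : (H : ℝ) / S ≤ 1.2 := by rw [div_le_iff₀ S_pos]; nlinarith [b.1]
      rw [abs_le]; constructor <;> nlinarith [b.1, b.2, c.1, c.2]
    have k1 := abs_le.1 key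
    have e3 : (1 / (k : ℝ) + w * T) * S = S / k + w * T * S := by ring
    rw [e3, abs_le]; constructor <;> linarith [k1.1, k1.2, s1.1, s1.2, s2.1, s2.2]

theorem horR_sum (z : ℝ) (n j : ℕ) :
    z ^ (2 * j + 1) * horR (z ^ 2) n (2 * j + 1) =
      ∑ i ∈ Finset.range n, z ^ (2 * (i + j) + 1) / (2 * (i + j : ℕ) + 1) := by
  induction n generalizing j with
  | zero => simp [horR]
  | succ n ih =>
    rw [Finset.sum_range_succ']
    have := ih (j + 1)
    simp only [horR]
    have e : 2 * j + 1 + 2 = 2 * (j + 1) + 1 := by ring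
    rw [e, mul_add, ← mul_assoc, ← pow_add, e, this]
    simp only [zero_add]
    rw [add_comm]
    congr 1
    · exact Finset.sum_congr rfl fun i _ => by rw [show i + (j + 1) = i + 1 + j by ring]
    · push_cast; ring

theorem aux9 {z u v g : ℝ} (z0 : 0 ≤ z) (z1 : z ≤ 1 / 3) (hu : |u| ≤ 8) (g0 : 0 ≤ g) (g1 : g ≤ 1.2)
    (v0 : 0 ≤ v) (v1 : v ≤ 1) : |2 * (z * u + v * g)| ≤ 9 := by
  have b := abs_le.1 hu
  rw [abs_le]; constructor <;> nlinarith [b.1, b.2]

theorem aux_19 {z : ℝ} (z0 : 0 ≤ z) (z1 : z ≤ 1 / 3) : z ^ 2 ≤ 1 / 9 := by nlinarith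

theorem aux_tail {z B : ℝ} (z0 : 0 ≤ z) (z1 : z ≤ 1 / 3) (hB : z ^ 2 ≤ B⁻¹) (n : ℕ) :
    2 * (z ^ (2 * n + 1) / (1 - z ^ 2)) ≤ 1 / B ^ n := by
  have p1 : z ^ (2 * n) ≤ 1 / B ^ n := by
    rw [pow_mul, one_div, ← inv_pow]
    exact pow_le_pow_left₀ (by positivity) hB n
  have p0 : 0 ≤ z ^ (2 * n) := by positivity
  have : z ^ (2 * n + 1) / (1 - z ^ 2) ≤ z ^ (2 * n) / 2 := by
    rw [div_le_iff₀ (by nlinarith), pow_succ]
    nlinarith [mul_nonneg p0 (show 0 ≤ 1 / 2 - z - z ^ 2 / 2 by nlinarith)]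
  linarith

theorem aux_sq {z Z q : ℝ} (z0 : 0 ≤ z) (z1 : z ≤ 1 / 3) (hZ0 : 0 ≤ Z) (s1 : Z ≤ z * S)
    (s2 : z * S ≤ Z + 1) (s3 : q ≤ Z * Z / S) (s4 : Z * Z / S ≤ q + 1) : |z ^ 2 * S - q| ≤ 3 := by
  have : z ^ 2 * S - Z * Z / S = (z * S - Z) * (z + Z / S) := by
    have := S_pos.ne'
    field_simp
    ring
  have t0 : (0 : ℝ) ≤ Z / S := by have := S_pos; positivity
  have t1 : (Z : ℝ) / S ≤ 1 / 3 := by rw [div_le_iff₀ S_pos]; nlinarith [S_pos]
  rw [abs_le]; constructor <;> nlinarith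

/-- Enclosure of `log ((q + p) / (q - p))` when `3 p ≤ q`. -/
def ath (n p q : ℕ) : ℕ :=
  Nat.shiftRight (Nat.mul (Nat.div (Nat.mul p SS) q) (hor (Nat.shiftRight
    (Nat.mul (Nat.div (Nat.mul p SS) q) (Nat.div (Nat.mul p SS) q)) 96) n 1)) 95

theorem mem_ath (n p q B : ℕ) (hq : 0 < q) (h : 3 * p ≤ q) (hB0 : 0 < B) (hB : B * p ^ 2 ≤ q ^ 2) :
    |log ((1 + (p : ℝ) / q) / (1 - p / q)) * S - ath n p q| ≤ ((SS / B ^ n + 20 : ℕ) : ℝ) := by
  have hq' : (0 : ℝ) < q := by exact_mod_cast hq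
  have h' : 3 * (p : ℝ) ≤ q := by exact_mod_cast h
  have z0 : 0 ≤ (p : ℝ) / q := by positivity
  have z1 : (p : ℝ) / q ≤ 1 / 3 := by rw [div_le_iff₀ hq']; linarith
  have zB : ((p : ℝ) / q) ^ 2 ≤ (B : ℝ)⁻¹ := by
    have hB' : (B : ℝ) * p ^ 2 ≤ q ^ 2 := by exact_mod_cast hB
    have hB1 : (0 : ℝ) < B := by exact_mod_cast hB0
    rw [div_pow, inv_eq_one_div, div_le_div_iff₀ (by positivity) hB1]
    linarith
  have s1 := div_nat (p * SS) q hq
  have e : ath n p q = Nat.shiftRight ((p * SS / q) *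
      (hor (Nat.shiftRight ((p * SS / q) * (p * SS / q)) 96) n 1)) 95 := rfl
  rw [e]
  have s2 := shr_nat ((p * SS / q) * (p * SS / q)) 96
  have s4 := (div_nat SS (B ^ n) (by positivity)).2
  generalize p * SS / q = Z at s1 s2 ⊢
  have hS : (2 : ℝ) ^ 96 = S := rfl
  have hS1 : (1000 : ℝ) ≤ S := by unfold S; norm_num
  push_cast at s1 s2 s4
  rw [SS_cast] at s1 s4
  rw [hS] at s2
  have e4 : (p : ℝ) * S / q = p / q * S := by ring
  rw [e4] at s1
  have lo := Real.sum_range_le_log_div z0 (by linarith) n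
  have hi := Real.log_div_le_sum_range_add z0 (by linarith) n
  have hsum := horR_sum ((p : ℝ) / q) n 0
  simp only [mul_zero, zero_add, pow_one, add_zero] at hsum
  generalize (p : ℝ) / q = z at *
  have hZ0 : (0 : ℝ) ≤ Z := by positivity
  have hz2 : |z ^ 2 * S - (Nat.shiftRight (Z * Z) 96 : ℕ)| ≤ 3 :=
    aux_sq z0 z1 hZ0 s1.1 s1.2 s2.1 s2.2
  obtain ⟨a0, a1, a2⟩ := hor_spec (w := z ^ 2) (by positivity) (aux_19 z0 z1) hz2 n 1 one_pos
  have s3 := shr_nat (Z * hor (Nat.shiftRight (Z * Z) 96) n 1) 95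
  generalize hor (Nat.shiftRight (Z * Z) 96) n 1 = H at a2 s3
  generalize Nat.shiftRight (Z * H) 95 = R at s3
  generalize horR (z ^ 2) n 1 = T at a0 a1 a2 hsum
  have h95 : (2 : ℝ) ^ 95 = S / 2 := by unfold S; norm_num
  push_cast at s3 ⊢
  rw [h95] at s3
  have b := abs_le.1 a2
  have key : |2 * (z * T) * S - Z * H / (S / 2)| ≤ 9 := by
    have : 2 * (z * T) * S - Z * H / (S / 2) =
        2 * (z * (T * S - H) + (z * S - Z) * (H / S)) := by
      have := S_pos.ne'
      field_simp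
      ring
    rw [this]
    have hH0 : (0 : ℝ) ≤ H / S := by have := S_pos; positivity
    have hT := mul_le_mul_of_nonneg_right a1 S_pos.le
    have hH : (H : ℝ) / S ≤ 1.2 := by rw [div_le_iff₀ S_pos]; linarith [b.1]
    exact aux9 z0 z1 a2 hH0 hH (by linarith [s1.1]) (by linarith [s1.2])
  have tail := aux_tail z0 z1 zB n
  have k1 := abs_le.1 key
  rw [← hsum] at lo hi
  have t2 : 2 * (z ^ (2 * n + 1) / (1 - z ^ 2)) * S ≤ S / B ^ n := by
    have := mul_le_mul_of_nonneg_right tail S_pos.le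
    rwa [one_div_mul_eq_div] at this
  have lo' := mul_le_mul_of_nonneg_right lo S_pos.le
  have hi' := mul_le_mul_of_nonneg_right hi S_pos.le
  have hd : (0 : ℝ) ≤ ((SS / B ^ n : ℕ) : ℝ) := by positivity
  generalize z ^ (2 * n + 1) / (1 - z ^ 2) = tl at *
  generalize log ((1 + z) / (1 - z)) = LL at *
  generalize ((SS / B ^ n : ℕ) : ℝ) = u at *
  generalize S / (B : ℝ) ^ n = u' at *
  generalize (Z : ℝ) * H / (S / 2) = u'' at *
  clear key tail hz2 a2 b lo hi hsum s2 s1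
  rw [abs_le]; constructor <;> linarith [k1.1, k1.2, s3.1, s3.2]

def l2n : ℕ := 54916777467707473351141471126

def l2 : Iv := ⟨1, 54916777467707473351141471126, 0, 20⟩

theorem l2_abs : |log 2 * S - l2n| ≤ 20 := by
  have := mem_ath 31 1 3 9 (by norm_num) (by norm_num) (by norm_num) (by norm_num)
  have e : ath 31 1 3 = l2n := by decide +kernel
  have e2 : SS / 9 ^ 31 + 20 = 20 := by decide +kernel
  rw [e, e2] at this
  norm_num at this ⊢
  exact this

theorem mem_l2 : Mem (log 2) l2 := fun _ => by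
  have := l2_abs
  simpa [l2, l2n] using this

def tabN : ℕ := 1594176980902713216500647911048527419246549761709072470646835289482279624259853945325095659780994429015514036647116294500918816182538460596802907734826686919661608414918576288445636162142173876218532920895632122344944057808020940271718069180429798519635279390560194785500178371757292676506012172529762635425602592465681346698242586036029747711131479528501992786324709323740227880029312815413918702727905972759357686852189832465247430771521499096184971628858310656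

def tab (j : ℕ) : ℕ :=
  Nat.land (Nat.shiftRight tabN (Nat.mul 96 j)) 79228162514264337593543950335

theorem tab_abs {j : ℕ} (hj : j < 16) : |log ((16 + j) / 16) * S - tab j| ≤ 20 := by
  have := mem_ath 31 j (32 + j) 9 (by omega) (by omega) (by norm_num) (by nlinarith)
  have e : ∀ j < 16, ath 31 j (32 + j) = tab j := by decide +kernel
  have e2 : SS / 9 ^ 31 + 20 = 20 := by decide +kernel
  have e3 : (1 + (j : ℝ) / (32 + j : ℕ)) / (1 - j / (32 + j : ℕ)) = (16 + j) / 16 := by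
    push_cast
    have : (0 : ℝ) < 32 + j := by positivity
    field_simp
    ring
  rw [e j hj, e2, e3] at this
  exact_mod_cast this

def hor7 (z : ℕ) : ℕ :=
  (Nat.add 79228162514264337593543950336 (Nat.shiftRight (Nat.mul z
    (Nat.add 26409387504754779197847983445 (Nat.shiftRight (Nat.mul z
    (Nat.add 15845632502852867518708790067 (Nat.shiftRight (Nat.mul z
    (Nat.add 11318308930609191084791992905 (Nat.shiftRight (Nat.mul z
    (Nat.add 8803129168251593065949327815 (Nat.shiftRight (Nat.mul z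
    (Nat.add 7202560228569485235776722757 (Nat.shiftRight (Nat.mul z
    6094474039558795199503380795) 96))) 96))) 96))) 96))) 96))) 96))

theorem hor7_eq (z : ℕ) : hor7 z = hor z 7 1 := by
  have h : ∀ n k, hor z (n + 1) k = SS / k + Nat.shiftRight (z * hor z n (k + 2)) 96 :=
    fun _ _ => rfl
  have h0 : ∀ k, hor z 0 k = 0 := fun _ => rfl
  simp only [h, h0, hor7, SS, Nat.add_eq, Nat.mul_eq]
  norm_num

def ath7 (z : ℕ) : ℕ := Nat.shiftRight (Nat.mul z (hor7 (Nat.shiftRight (Nat.mul z z) 96))) 95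

def lgC (a e j : ℕ) : ℕ :=
  Nat.add (Nat.add (ath7 (Nat.div
    (Nat.shiftLeft (Nat.sub (Nat.mul 16 a) (Nat.shiftLeft (Nat.add 16 j) e)) 96)
    (Nat.add (Nat.mul 16 a) (Nat.shiftLeft (Nat.add 16 j) e)))) (tab j)) (Nat.mul e l2n)

def lgB (a e : ℕ) : ℕ := lgC a e (Nat.sub (Nat.shiftRight (Nat.mul 16 a) e) 16)

/-- Enclosure of the logarithm of `a`. -/
def lgN (a : ℕ) : ℕ := lgB a (Nat.log2 a)

theorem lgN_abs (a : ℕ) (ha : 0 < a) (hb : Nat.log2 a ≤ 200) :
    |log (a / S) * S - (lgN a - 5272010636899917441709581228096)| ≤ 50000000 := by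
  have h1 : 2 ^ Nat.log2 a ≤ a := Nat.log2_self_le ha.ne'
  have h2 : a < 2 ^ (Nat.log2 a + 1) := Nat.lt_log2_self
  unfold lgN lgB
  generalize Nat.log2 a = k at *
  have hk : 0 < 2 ^ k := by positivity
  have ej : Nat.sub (Nat.shiftRight (Nat.mul 16 a) k) 16 = 16 * a / 2 ^ k - 16 := by
    rw [← Nat.shiftRight_eq_div_pow]; rfl
  rw [ej]
  have j1 : 16 ≤ 16 * a / 2 ^ k := (Nat.le_div_iff_mul_le hk).2 (by omega)
  have j2 : 16 * a / 2 ^ k < 32 := (Nat.div_lt_iff_lt_mul hk).2 (by rw [pow_succ] at h2; omega)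
  have j3 : 16 * a / 2 ^ k * 2 ^ k ≤ 16 * a := Nat.div_mul_le_self _ _
  have j4 : 16 * a < 2 ^ k * (16 * a / 2 ^ k + 1) := Nat.lt_mul_div_succ _ hk
  obtain ⟨j, hj⟩ : ∃ j, 16 * a / 2 ^ k = 16 + j := ⟨_, (Nat.add_sub_cancel' j1).symm⟩
  rw [hj] at j2 j3 j4 ⊢
  rw [Nat.add_sub_cancel_left]
  have e : lgC a k j = ath 7 (16 * a - (16 + j) * 2 ^ k) (16 * a + (16 + j) * 2 ^ k) + tab j +
      k * l2n := by
    simp only [lgC, ath7, ath, hor7_eq, Nat.add_eq, Nat.mul_eq, Nat.sub_eq, Nat.shiftLeft_eq', Nat.shiftLeft_eq]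
    rfl
  rw [e]
  have j5 : 33 * (16 * a - (16 + j) * 2 ^ k) ≤ 16 * a + (16 + j) * 2 ^ k := by
    have : (16 + j) * 2 ^ k = 16 * 2 ^ k + j * 2 ^ k := by ring
    have : 2 ^ k * (16 + j + 1) = 17 * 2 ^ k + j * 2 ^ k := by ring
    omega
  have hc := abs_le.1 (mem_ath 7 (16 * a - (16 + j) * 2 ^ k) (16 * a + (16 + j) * 2 ^ k) 1089
    (by positivity) (by omega) (by norm_num)
    (by have := Nat.pow_le_pow_left j5 2; rw [mul_pow] at this; exact this))
  have hl := abs_le.1 l2_abs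
  have ht := abs_le.1 (tab_abs (j := j) (by omega))
  have ha' : (0 : ℝ) < a := by exact_mod_cast ha
  have e3 : (1 + ((16 * a - (16 + j) * 2 ^ k : ℕ) : ℝ) / (16 * a + (16 + j) * 2 ^ k : ℕ)) /
      (1 - ((16 * a - (16 + j) * 2 ^ k : ℕ) : ℝ) / (16 * a + (16 + j) * 2 ^ k : ℕ)) =
      a / ((16 + j) / 16 * 2 ^ k) := by
    rw [Nat.cast_sub j3]
    push_cast
    have : (0 : ℝ) < 2 ^ k := by positivity
    field_simp
    ring
  have e2 : SS / 1089 ^ 7 + 20 = 43619895 := by decide +kernel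
  rw [e3, e2] at hc
  have e4 : log (a / S) = log (a / ((16 + j) / 16 * 2 ^ k)) + log ((16 + j) / 16) +
      ((k : ℝ) - 96) * log 2 := by
    unfold S
    rw [log_div ha'.ne' (by positivity), log_div ha'.ne' (by positivity),
      log_mul (by positivity) (by positivity), log_pow, log_pow]
    push_cast; ring
  rw [e4]
  have e5 : (5272010636899917441709581228096 : ℝ) = 96 * l2n := by unfold l2n; norm_num
  rw [e5]
  push_cast at hc ⊢
  have hk0 : (0 : ℝ) ≤ k := by positivity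
  have hk1 : (k : ℝ) ≤ 200 := by exact_mod_cast hb
  have t1 := mul_le_mul_of_nonneg_left hl.1 hk0
  have t2 := mul_le_mul_of_nonneg_left hl.2 hk0
  rw [abs_le]; constructor <;> linarith [hc.1, hc.2, hl.1, hl.2, ht.1, ht.2]

theorem aux_lg {x M r : ℝ} (hr : 0 ≤ r) (hlt : r < M) (h1 : -r ≤ x * S - M) (h2 : x * S - M ≤ r) :
    log x = log (M / S) + log (x * S / M) ∧ log (x * S / M) ≤ r / (M - r) ∧
      -(r / (M - r)) ≤ log (x * S / M) := by
  have hx : 0 < x * S := by linarith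
  have hM : (0 : ℝ) < M := by linarith
  have hd : (0 : ℝ) < M - r := by linarith
  refine ⟨?_, ?_, ?_⟩
  · have := S_pos
    rw [← log_mul (by positivity) (by positivity)]
    congr 1
    field_simp
  · refine (log_le_sub_one_of_pos (by positivity)).trans ?_
    rw [div_sub_one hM.ne', div_le_div_iff₀ hM hd]
    nlinarith
  · have := log_le_sub_one_of_pos (show 0 < (M : ℝ) / (x * S) by positivity)
    have e5 : log (M / (x * S)) = -log (x * S / M) := by rw [← log_inv, inv_div]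
    have : (M : ℝ) / (x * S) - 1 ≤ r / (M - r) := by
      rw [div_sub_one hx.ne', div_le_div_iff₀ hx hd]
      nlinarith
    linarith

noncomputable def lgA (o a r : ℕ) : Iv :=
  ⟨bif Nat.blt r a && Nat.ble (Nat.log2 a) 200 then o else 0, lgN a, 5272010636899917441709581228096,
    Nat.add (Nat.div (Nat.shiftLeft r 96) (Nat.sub a r)) 50000001⟩

noncomputable def lg (_n : ℕ) (a : Iv) : Iv := Iv.rec (fun o p q r => lgA o (Nat.sub p q) r) a

theorem mem_lg (n : ℕ) (ha : Mem x a) : Mem (log x) (lg n a) := fun h => by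
  obtain ⟨o, p, q, r⟩ := a
  have h0 : (bif Nat.blt r (p - q) && Nat.ble (Nat.log2 (p - q)) 200 then o else 0) ≠ 0 := h
  have hb : (Nat.blt r (p - q) && Nat.ble (Nat.log2 (p - q)) 200) = true := by
    by_contra hn
    rw [Bool.not_eq_true] at hn
    rw [hn] at h0
    exact h0 rfl
  rw [hb] at h0
  simp only [Bool.and_eq_true, Nat.blt_eq, Nat.ble_eq] at hb
  have h1 := abs_le.1 (ha h0)
  simp only at h1
  have hlt := hb.1
  have hm : ((p - q : ℕ) : ℝ) = p - q := Nat.cast_sub (by omega)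
  have hc := abs_le.1 (lgN_abs (p - q) (by omega) hb.2)
  show |log x * S - (((lgN (p - q) : ℕ) : ℝ) - ((5272010636899917441709581228096 : ℕ) : ℝ))| ≤
    ((Nat.shiftLeft r 96 / (p - q - r) + 50000001 : ℕ) : ℝ)
  have e0 : Nat.shiftLeft r 96 = r * SS := by rw [Nat.shiftLeft_eq', Nat.shiftLeft_eq]; rfl
  rw [e0]
  have s := (div_nat (r * SS) (p - q - r) (by omega)).2
  rw [Nat.cast_sub hlt.le] at s
  have hlt' : (r : ℝ) < (p - q : ℕ) := by exact_mod_cast hlt
  rw [← hm] at h1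
  generalize r * SS / (p - q - r) = t at s
  generalize lgN (p - q) = G at hc ⊢
  generalize p - q = M at s h1 hlt' hc
  clear hb hm hlt h0 h ha
  push_cast at s ⊢
  rw [SS_cast] at s
  obtain ⟨e3, u1, u2⟩ := aux_lg (x := x) (Nat.cast_nonneg r) hlt' h1.1 h1.2
  have e6 : (r : ℝ) * S / (M - r) = r / (M - r) * S := by ring
  rw [e6] at s
  have u1' := mul_le_mul_of_nonneg_right u1 S_pos.le
  have u2' := mul_le_mul_of_nonneg_right u2 S_pos.le
  rw [e3, abs_le]; constructor <;> linarith [hc.1, hc.2]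

noncomputable def xl (n : ℕ) (a : Iv) : Iv := bif isZ a then pt 0 else mul a (lg n a)

theorem mem_xl (n : ℕ) (ha : Mem x a) : Mem (x * log x) (xl n a) := by
  unfold xl
  cases h : isZ a
  · exact mem_mul ha (mem_lg n ha)
  · rw [isZ_eq ha h, zero_mul]
    intro _
    simp [pt]

noncomputable def ent (n : ℕ) (a : Iv) : Iv := neg (add (xl n a) (xl n (sub (cst 1) a)))

theorem mem_ent (n : ℕ) (ha : Mem x a) : Mem (binEntropy x) (ent n a) := by
  have : binEntropy x = -(x * log x + (1 - x) * log (1 - x)) := by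
    simp [binEntropy]; ring
  rw [this]
  exact mem_neg (mem_add (mem_xl n ha) (mem_xl n (mem_sub mem_one ha)))

end Iv

end Vale.Agent.P322
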