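import Vale.Agent.P322.Defs

/-! A trace lower bound by eigenvalue counting. -/

namespace Vale.Agent.P322

open Matrix Finset

theorem spec {m : Type} [Fintype m] [DecidableEq m] (C : Matrix m m ℝ) (hC : C.IsHermitian) :
    ∃ (U : Matrix m m ℝ) (l : m → ℝ), C.trace = ∑ k, l k ∧
      (∀ u : m → ℝ, u ⬝ᵥ C *ᵥ u = ∑ k, l k * (U *ᵥ u) k ^ 2) ∧
      (∀ u : m → ℝ, u ⬝ᵥ u = ∑ k, (U *ᵥ u) k ^ 2) ∧ ∀ v, ∃ u, U *ᵥ u = v := by
  let V : Matrix m m ℝ := hC.eigenvectorUnitary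
  have h1 : V * Vᵀ = 1 := hC.eigenvectorUnitary.2.2
  have h2 : Vᵀ * V = 1 := hC.eigenvectorUnitary.2.1
  have h3 : C = V * diagonal hC.eigenvalues * Vᵀ := hC.spectral_theorem
  refine ⟨Vᵀ, hC.eigenvalues, hC.trace_eq_sum_eigenvalues, fun u => ?_, fun u => ?_,
    fun v => ⟨V *ᵥ v, by rw [mulVec_mulVec, h2, one_mulVec]⟩⟩
  · conv_lhs => rw [h3, ← mulVec_mulVec, ← mulVec_mulVec, dotProduct_mulVec, ← mulVec_transpose]
    simp only [dotProduct, mulVec_diagonal]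
    exact sum_congr rfl fun k _ => by ring
  · have e : u ⬝ᵥ u = u ⬝ᵥ (V * Vᵀ) *ᵥ u := by rw [h1, one_mulVec]
    rw [e, ← mulVec_mulVec, dotProduct_mulVec, ← mulVec_transpose]
    simp only [dotProduct]
    exact sum_congr rfl fun k _ => by ring

theorem count_le {m I : Type} [Fintype m] [Fintype I] [DecidableEq m] (U : Matrix m m ℝ)
    (l : m → ℝ) (g : ℝ) (L : (I → ℝ) →ₗ[ℝ] (m → ℝ))
    (h0 : ∀ c, c ≠ 0 → 0 < ∑ k, (U *ᵥ L c) k ^ 2)
    (h : ∀ c, g * ∑ k, (U *ᵥ L c) k ^ 2 ≤ ∑ k, l k * (U *ᵥ L c) k ^ 2) :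
    Fintype.card I ≤ (univ.filter fun k => g ≤ l k).card := by
  by_contra hlt
  let Φ : (I → ℝ) →ₗ[ℝ] ({k // g ≤ l k} → ℝ) :=
    (LinearMap.funLeft ℝ ℝ Subtype.val) ∘ₗ (Matrix.mulVecLin U) ∘ₗ L
  have hk : LinearMap.ker Φ ≠ ⊥ := LinearMap.ker_ne_bot_of_finrank_lt (by
    rw [Module.finrank_fintype_fun_eq_card, Module.finrank_fintype_fun_eq_card,
      Fintype.card_subtype]
    exact not_le.1 hlt)
  obtain ⟨c, hc, hc0⟩ := Submodule.exists_mem_ne_zero_of_ne_bot hk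
  have hz : ∀ k, g ≤ l k → (U *ᵥ L c) k = 0 := fun k hk => congrFun (LinearMap.mem_ker.1 hc) ⟨k, hk⟩
  have h1 := h c
  have h2 := h0 c hc0
  obtain ⟨k, -, hk⟩ := exists_lt_of_sum_lt (f := fun _ : m => (0 : ℝ)) (by simpa using h2)
  rw [mul_sum] at h1
  refine absurd h1 (not_le.2 (sum_lt_sum (fun j _ => ?_) ⟨k, mem_univ _, ?_⟩))
  · by_cases hj : g ≤ l j
    · rw [hz j hj]; simp
    · exact mul_le_mul_of_nonneg_right (not_le.1 hj).le (sq_nonneg _)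
  · by_cases hj : g ≤ l k
    · rw [hz k hj] at hk; simp at hk
    · exact mul_lt_mul_of_pos_right (not_le.1 hj) hk

theorem tele_le (g : ℕ → ℝ) (x : ℝ) (N : ℕ) :
    ∑ j ∈ range N, (if g j ≤ x then g j - g (j + 1) else 0) ≤ max (x - g N) 0 := by
  induction N with
  | zero => simp
  | succ N ih =>
    rw [sum_range_succ]
    split_ifs with h
    · rw [max_eq_left (sub_nonneg.2 h)] at ih
      exact le_max_of_le_left (by linarith)
    · rw [max_eq_right (sub_nonpos.2 (not_le.1 h).le)] at ih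
      exact le_max_of_le_right (by linarith)

theorem tele_eq (g : ℕ → ℝ) (r N : ℕ) (h : r ≤ N) :
    ∑ j ∈ range N, (if r ≤ j then g j - g (j + 1) else 0) = g r - g N := by
  induction N, h using Nat.le_induction with
  | base => rw [sub_self]; exact sum_eq_zero fun j hj => if_neg (not_le.2 (mem_range.1 hj))
  | succ N h ih => rw [sum_range_succ, ih, if_pos h]; ring

theorem sum_le_of_count {m α : Type} [Fintype m] (s : Finset α) (r : α → ℕ) (l : m → ℝ)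
    (g : ℕ → ℝ) (N : ℕ) (hl : ∀ k, 0 ≤ l k) (hr : ∀ a ∈ s, r a ≤ N) (hg : ∀ j, g (j + 1) ≤ g j)
    (hN : g N = 0)
    (hc : ∀ j < N, (s.filter fun a => r a ≤ j).card ≤ (univ.filter fun k => g j ≤ l k).card) :
    ∑ a ∈ s, g (r a) ≤ ∑ k, l k := by
  calc ∑ a ∈ s, g (r a)
      = ∑ a ∈ s, ∑ j ∈ range N, (if r a ≤ j then g j - g (j + 1) else 0) :=
        sum_congr rfl fun a ha => by rw [tele_eq g _ N (hr a ha), hN, sub_zero]
    _ = ∑ j ∈ range N, ((s.filter fun a => r a ≤ j).card : ℝ) * (g j - g (j + 1)) := by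
        rw [sum_comm]
        exact sum_congr rfl fun j _ => by rw [← sum_filter, sum_const, nsmul_eq_mul]
    _ ≤ ∑ j ∈ range N, ((univ.filter fun k => g j ≤ l k).card : ℝ) * (g j - g (j + 1)) :=
        sum_le_sum fun j hj => mul_le_mul_of_nonneg_right
          (by exact_mod_cast hc j (mem_range.1 hj)) (sub_nonneg.2 (hg j))
    _ = ∑ k, ∑ j ∈ range N, (if g j ≤ l k then g j - g (j + 1) else 0) := by
        rw [sum_comm]
        exact sum_congr rfl fun j _ => by rw [← sum_filter, sum_const, nsmul_eq_mul]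
    _ ≤ ∑ k, l k := sum_le_sum fun k _ =>
        (tele_le g (l k) N).trans (by rw [hN, sub_zero, max_eq_left (hl k)])

/-- The trace bound. -/
theorem trace_ge {m α : Type} [Fintype m] [DecidableEq m] (C : Matrix m m ℝ)
    (hC : C.IsHermitian) (hp : ∀ u : m → ℝ, 0 ≤ u ⬝ᵥ C *ᵥ u) (s : Finset α) (r : α → ℕ)
    (g : ℕ → ℝ) (N : ℕ) (hr : ∀ a ∈ s, r a ≤ N) (hg : ∀ j, g (j + 1) ≤ g j) (hN : g N = 0)
    (hL : ∀ j < N, ∃ L : ((s.filter fun a => r a ≤ j) → ℝ) →ₗ[ℝ] (m → ℝ),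
      (∀ c, c ≠ 0 → 0 < L c ⬝ᵥ L c) ∧ ∀ c, g j * (L c ⬝ᵥ L c) ≤ L c ⬝ᵥ C *ᵥ L c) :
    ∑ a ∈ s, g (r a) ≤ C.trace := by
  obtain ⟨U, l, h1, h2, h3, h4⟩ := spec C hC
  rw [h1]
  refine sum_le_of_count s r l g N (fun k => ?_) hr hg hN fun j hj => ?_
  · obtain ⟨u, hu⟩ := h4 (Pi.single k 1)
    have := hp u
    rw [h2, hu, sum_eq_single k (fun b _ hb => by simp [hb]) (by simp)] at this
    simpa using this
  · obtain ⟨L, a1, a2⟩ := hL j hj
    rw [← Fintype.card_coe]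
    exact count_le U l (g j) L (fun c hc => h3 _ ▸ a1 c hc) fun c => h2 _ ▸ h3 _ ▸ a2 c

end Vale.Agent.P322
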