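import Vale.Agent.P322.Ent

/-! The mutual information bound. -/

namespace Vale.Agent.P322

open Finset Real

variable {ι : Type} [Fintype ι] [DecidableEq ι]

theorem sum_chan' (ε : ℝ) (y : ι → ℤˣ) : ∑ x, chan ε x y = 1 := by
  rw [← sum_chan ε y]
  exact sum_congr rfl fun x _ => prod_congr rfl fun i _ => by simp only [eq_comm]

/-- The posterior probability of `f X = 1`. -/
noncomputable def post (ε : ℝ) (f : (ι → ℤˣ) → ℤˣ) (y : ι → ℤˣ) : ℝ :=
  ∑ x, if f x = 1 then chan ε x y else 0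

theorem one_sub_post (ε : ℝ) (f : (ι → ℤˣ) → ℤˣ) (y : ι → ℤˣ) :
    1 - post ε f y = ∑ x, if f x = -1 then chan ε x y else 0 := by
  rw [← sum_chan' ε y, post, ← sum_sub_distrib]
  refine sum_congr rfl fun x _ => ?_
  rcases Int.units_eq_one_or (f x) with h | h <;> simp [h]

theorem term_eq {p m N : ℝ} (hN : 0 < N) (h : p ≠ 0 → m ≠ 0) :
    p / N * logb 2 (p / N / (m * (1 / N))) = (p * log p - p * log m) / (N * log 2) := by
  by_cases hp : p = 0
  · simp [hp]
  · have e : p / N / (m * (1 / N)) = p / m := by have := h hp; field_simp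
    rw [e, logb, log_div hp (h hp)]
    field_simp

theorem mi_le {ε : ℝ} (h0 : 0 ≤ ε) (h1 : ε ≤ 1) (f : (ι → ℤˣ) → ℤˣ) :
    mutInf ε f ≤ 1 - (∑ y, binEntropy (post ε f y)) / (2 ^ Fintype.card ι * log 2) := by
  set N : ℝ := 2 ^ Fintype.card ι with hN
  have N0 : 0 < N := by positivity
  have l2 : 0 < log 2 := log_pos one_lt_two
  have p0 : ∀ y, 0 ≤ post ε f y := fun y =>
    sum_nonneg fun x _ => by split_ifs; exacts [chan_nonneg h0 h1 _ _, le_rfl]
  have p1 : ∀ y, 0 ≤ 1 - post ε f y := fun y => by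
    rw [one_sub_post]
    exact sum_nonneg fun x _ => by split_ifs; exacts [chan_nonneg h0 h1 _ _, le_rfl]
  have j1 : ∀ y, joint ε f 1 y = post ε f y / N := fun y => by
    rw [joint, post, sum_div]
    exact sum_congr rfl fun x _ => by split_ifs <;> ring
  have j2 : ∀ y, joint ε f (-1) y = (1 - post ε f y) / N := fun y => by
    rw [joint, one_sub_post, sum_div]
    exact sum_congr rfl fun x _ => by split_ifs <;> ring
  have j3 : ∀ y, ∑ b, joint ε f b y = 1 / N := fun y => by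
    rw [sum_units, j1, j2]; ring
  obtain ⟨m, hm⟩ : ∃ m, m = ∑ y, post ε f y / N := ⟨_, rfl⟩
  have cN : (Fintype.card (ι → ℤˣ) : ℝ) = N := by simp [hN]
  have hm' : 1 - m = ∑ y, (1 - post ε f y) / N := by
    simp only [sub_div, sum_sub_distrib, ← hm, sum_const, card_univ, nsmul_eq_mul, cN]
    field_simp
  have m1 : ∀ y, post ε f y ≠ 0 → m ≠ 0 := fun y hy => by
    rw [hm]
    exact (sum_pos' (fun z _ => div_nonneg (p0 z) N0.le)
      ⟨y, mem_univ _, div_pos ((p0 y).lt_of_ne' hy) N0⟩).ne'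
  have m2 : ∀ y, 1 - post ε f y ≠ 0 → 1 - m ≠ 0 := fun y hy => by
    rw [hm']
    exact (sum_pos' (fun z _ => div_nonneg (p1 z) N0.le)
      ⟨y, mem_univ _, div_pos ((p1 y).lt_of_ne' hy) N0⟩).ne'
  rw [mutInf, sum_units]
  simp only [j3, j1, j2, ← hm, ← hm']
  rw [sum_congr rfl fun y _ => term_eq N0 (m1 y), sum_congr rfl fun y _ => term_eq N0 (m2 y),
    ← sum_div, ← sum_div, ← add_div, le_sub_iff_add_le, ← add_div, div_le_one (by positivity)]
  have s1 : ∑ y, post ε f y = N * m := by rw [hm, ← sum_div]; field_simp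
  have s2 : ∑ y, (1 - post ε f y) = N * (1 - m) := by rw [hm', ← sum_div]; field_simp
  have hb := binEntropy_le_log_two (p := m)
  simp only [binEntropy, log_inv, mul_neg, sum_add_distrib, sum_neg_distrib] at hb ⊢
  rw [sum_sub_distrib, sum_sub_distrib, ← sum_mul, ← sum_mul, s1, s2]
  nlinarith

theorem h2_eq (p : ℝ) : h2 p = binEntropy p / log 2 := by
  rw [h2, binEntropy, log_inv, log_inv, logb, logb]
  ring

theorem ck {f : (ι → ℤˣ) → ℤˣ} (hf : OddCover f) {ε : ℝ} (h0 : 0 ≤ ε) (h1 : ε ≤ 1 / 2) :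
    mutInf ε f ≤ 1 - h2 ε := by
  have h1' : ε ≤ 1 := by linarith
  have l2 : 0 < log 2 := log_pos one_lt_two
  refine (mi_le h0 h1' f).trans (sub_le_sub_left ?_ 1)
  rw [h2_eq, div_le_div_iff₀ l2 (by positivity), ← mul_assoc]
  refine mul_le_mul_of_nonneg_right ?_ l2.le
  rcases h0.eq_or_lt with rfl | h0'
  · rw [binEntropy_zero, zero_mul]
    refine sum_nonneg fun y _ => binEntropy_nonneg ?_ (sub_nonneg.1 ?_)
    · exact sum_nonneg fun x _ => by split_ifs; exacts [chan_nonneg h0 h1' _ _, le_rfl]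
    · rw [one_sub_post]
      exact sum_nonneg fun x _ => by split_ifs; exacts [chan_nonneg h0 h1' _ _, le_rfl]
  have cp : ∀ x y : ι → ℤˣ, 0 < chan ε x y := fun x y =>
    prod_pos fun _ _ => by split_ifs <;> linarith
  have ex : ∀ b, ∃ x, f x = b := fun b => by
    obtain ⟨w, -, -, w2, w3⟩ := hf
    obtain ⟨a, -, ha⟩ := exists_ne_zero_of_sum_ne_zero ((w3 1).trans_ne one_ne_zero)
    rcases Int.units_eq_one_or (f 1) with h | h <;> rcases Int.units_eq_one_or b with rfl | rfl
    · exact ⟨_, h⟩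
    · exact ⟨_, by rw [w2 a 1 ha, h]⟩
    · exact ⟨_, by rw [w2 a 1 ha, h, neg_neg]⟩
    · exact ⟨_, h⟩
  have pos : ∀ b y, 0 < ∑ x, if f x = b then chan ε x y else 0 := fun b y => by
    obtain ⟨x, hx⟩ := ex b
    exact sum_pos' (fun z _ => by split_ifs; exacts [(cp _ _).le, le_rfl])
      ⟨x, mem_univ _, by rw [if_pos hx]; exact cp _ _⟩
  have p0 : ∀ y, 0 < post ε f y := pos 1
  have p1 : ∀ y, 0 < 1 - post ε f y := fun y => by rw [one_sub_post]; exact pos _ y
  obtain ⟨c, c0, hc⟩ := ent h0' h1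
  have a1 := sum_le_sum fun y (_ : y ∈ univ) => hc (post ε f y) (p0 y) (sub_pos.1 (p1 y))
  have a2 := hel_cover hf h0 h1' (fun y => √(1 - post ε f y) / √(post ε f y)) fun y =>
    div_pos (sqrt_pos.2 (p1 y)) (sqrt_pos.2 (p0 y))
  have a3 : ∀ y, (∑ x, chan ε x y * if f x = 1 then √(1 - post ε f y) / √(post ε f y)
      else (√(1 - post ε f y) / √(post ε f y))⁻¹) = 2 * √(post ε f y * (1 - post ε f y)) :=
    fun y => by
    generalize hl : √(1 - post ε f y) / √(post ε f y) = l
    have e : (∑ x, chan ε x y * if f x = 1 then l else l⁻¹) =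
        post ε f y * l + (1 - post ε f y) * l⁻¹ := by
      rw [one_sub_post, post, sum_mul, sum_mul, ← sum_add_distrib]
      refine sum_congr rfl fun x _ => ?_
      rcases Int.units_eq_one_or (f x) with h | h <;> simp [h]
    rw [e, ← hl, sqrt_mul (p0 y).le]
    have b1 := sq_sqrt (p0 y).le
    have b2 := sq_sqrt (p1 y).le
    have b3 := (sqrt_pos.2 (p0 y)).ne'
    have b4 := (sqrt_pos.2 (p1 y)).ne'
    generalize √(post ε f y) = u at *
    generalize √(1 - post ε f y) = v at *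
    rw [← b2, ← b1]
    field_simp
    ring
  rw [sum_comm] at a2
  simp only [a3] at a2
  simp only [sum_add_distrib, ← mul_sum, sum_sub_distrib, sum_const, card_univ, nsmul_eq_mul,
    Fintype.card_pi, Fintype.card_units_int, prod_const, Nat.cast_pow, Nat.cast_ofNat] at a1 a2
  nlinarith [mul_nonneg c0 (sub_nonneg.2 a2)]

theorem cover_of_anti {f : (ι → ℤˣ) → ℤˣ} {a : Finset ι} (h : ∀ x, f (flipOn a x) = -f x) :
    OddCover f :=
  ⟨fun b _ => if b = a then 1 else 0, fun _ _ => by positivity, fun _ _ _ _ => rfl,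
    fun b x hb => by
      have : b = a := by
        by_contra hn
        exact hb (if_neg hn)
      rw [this, h], fun _ => by simp⟩

end Vale.Agent.P322
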