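import Vale.Agent.P322.S5

/-! The two leaves with tangent point at the mean. -/

namespace Vale.Agent.P322

open Real S5A

namespace S01A

theorem bpos {W r : ℝ} (W0 : 0 ≤ W) (r0 : 0 ≤ r) (h : W * (1 + r) < 1) :
    0 < (1 - W) ^ 2 - (W * r) ^ 2 := by
  have := mul_nonneg W0 r0
  nlinarith

theorem Rle {W r : ℝ} (W0 : 0 ≤ W) (W1 : W ≤ 1 / 2) (r0 : 0 ≤ r) (r1 : r ≤ 1) :
    0 ≤ W * r / (1 - W) ∧ W * r / (1 - W) ≤ 1 :=
  ⟨div_nonneg (mul_nonneg W0 r0) (by linarith), (div_le_one (by linarith)).2 (by nlinarith)⟩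

theorem Ph_mono (hs : SerStmt) {x y : ℝ} (x0 : 0 ≤ x) (h : x ≤ y) (y1 : y ≤ 1) : Ph x ≤ Ph y := by
  have := hs.2.2.2 0 x y (by norm_num) x0 h y1
  unfold psi at this
  nlinarith

theorem Hb_r (hs : SerStmt) (hb : BrStmt) {W r s : ℝ} (W0 : 0 < W) (W1 : W ≤ 1 / 2) (r0 : 0 ≤ r)
    (h : r ≤ s) (s1 : s ≤ 1) : Hb W s ≤ Hb W r := by
  rw [hb.1 W s W0 W1 (r0.trans h) s1, hb.1 W r W0 W1 r0 (h.trans s1)]
  have a := Ph_mono hs r0 h s1
  have b := Ph_mono hs (Rle W0.le W1 r0 (h.trans s1)).1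
    (div_le_div_of_nonneg_right (mul_le_mul_of_nonneg_left h W0.le) (by linarith))
    (Rle W0.le W1 (r0.trans h) s1).2
  nlinarith

theorem Hb_W {A B r t : ℝ} (A0 : 0 ≤ A) (A1 : A ≤ 1 / 2) (B0 : 0 ≤ B) (B1 : B ≤ 1 / 2) (r0 : 0 ≤ r)
    (r1 : r ≤ 1) (t0 : 0 ≤ t) (t1 : t ≤ 1) :
    (1 - t) * Hb A r + t * Hb B r ≤ Hb ((1 - t) * A + t * B) r := by
  obtain ⟨a1, a2, a3, a4⟩ := box A0 A1 r0 r1
  obtain ⟨b1, b2, b3, b4⟩ := box B0 B1 r0 r1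
  have x := conc a1 a2 b1 b2 t0 t1
  have y := conc a3 a4 b3 b4 t0 t1
  unfold Hb
  rw [add_mul ((1 - t) * A), add_mul ((1 - t) * A), mul_assoc, mul_assoc, mul_assoc, mul_assoc]
  linarith

theorem log_c {a t : ℝ} (a1 : a < 1) (t0 : 0 ≤ t) (t1 : t ≤ 1) :
    t * log (1 - a) ≤ log (1 - t * a) := by
  have := strictConcaveOn_log_Ioi.concaveOn.2 (show (1 : ℝ) ∈ Set.Ioi 0 from Set.mem_Ioi.2 one_pos)
    (show 1 - a ∈ Set.Ioi 0 from sub_pos.2 a1) (sub_nonneg.2 t1) t0 (by ring)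
  simp only [smul_eq_mul, log_one] at this
  rw [show 1 - t * a = (1 - t) * 1 + t * (1 - a) by ring]
  linarith

theorem M_W {W r t : ℝ} (W0 : 0 ≤ W) (r0 : 0 ≤ r) (h : W * (1 + r) < 1) (t0 : 0 ≤ t) (t1 : t ≤ 1) :
    t * log ((1 - W) ^ 2 - (W * r) ^ 2) ≤ log ((1 - t * W) ^ 2 - (t * W * r) ^ 2) := by
  have p := mul_nonneg W0 r0
  have h' : W * (1 - r) < 1 := by nlinarith
  have k : ∀ a : ℝ, a < 1 → 1 - t * a ≠ 0 := fun a ha => by
    rcases t1.eq_or_lt with rfl | t1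
    · linarith
    rcases le_total a 0 with c | c
    · nlinarith [mul_nonneg t0 (neg_nonneg.2 c)]
    · nlinarith [mul_nonneg t0 (sub_pos.2 ha).le]
  rw [show (1 - W) ^ 2 - (W * r) ^ 2 = (1 - W * (1 + r)) * (1 - W * (1 - r)) by ring,
    show (1 - t * W) ^ 2 - (t * W * r) ^ 2 = (1 - t * (W * (1 + r))) * (1 - t * (W * (1 - r))) by
      ring, log_mul (by linarith) (by linarith), log_mul (k _ h) (k _ h')]
  linarith [log_c h t0 t1, log_c h' t0 t1]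

theorem kap_mono {a b : ℝ} (h : a ≤ b) (b1 : b ≤ 1 / 2) : kap a ≤ kap b := by
  unfold kap
  nlinarith

theorem red (hb : BrStmt) (h1 : C1Stmt) {ε W r θ u : ℝ} (hD : Dom ε W r) (θ0 : 0 ≤ θ)
    (hu : log 2 - binEntropy ε = (1 / 2 + u) * (1 - 2 * ε) ^ 2)
    (hθ : θ * -log ((1 - W) ^ 2 - (W * r) ^ 2) ≤
      log ((1 - W) ^ 2 - ((1 - 2 * ε) * (W * r)) ^ 2) - log ((1 - W) ^ 2 - (W * r) ^ 2))
    (h : 0 ≤ (1 - 2 * ε) ^ 2 * (θ * (Hb W r - (log 2 - 1 / 2 - u) *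
      (4 * W * (1 - W) - 4 * (W * r) ^ 2)) - (log 2 - 1 / 2 - u) * (4 * (W * r) ^ 2)) +
      (W * ((1 - 2 * ε) ^ 2 * Ph r - Ph ((1 - 2 * ε) * r)) + (1 - W) *
      ((1 - 2 * ε) ^ 2 * Ph (W * r / (1 - W)) - Ph ((1 - 2 * ε) * (W * r / (1 - W)))))) :
    CA ε W r := by
  refine h1 ε W r θ hD θ0 hθ ?_
  obtain ⟨e0, e1, W0, W1, r0, r1, -⟩ := hD
  have hc : cc ε = (1 - 2 * ε) ^ 2 * (log 2 - 1 / 2 - u) := by
    unfold cc kap
    linear_combination -hu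
  have hk : kap ε = 1 - (1 - 2 * ε) ^ 2 := by
    unfold kap
    ring
  have a := hb.1 W r W0 W1 r0.le r1
  rw [hb.2.1, hb.2.2.1, hb.1 W _ W0 W1 (by nlinarith) (by nlinarith), Bf, hc, hk,
    show W * ((1 - 2 * ε) * r) / (1 - W) = (1 - 2 * ε) * (W * r / (1 - W)) by ring]
  linear_combination h + (1 - 2 * ε) ^ 2 * a

theorem exu (hb : BrStmt) {ε : ℝ} (e0 : 0 < ε) (e1 : ε < 1 / 2) :
    ∃ u, log 2 - binEntropy ε = (1 / 2 + u) * (1 - 2 * ε) ^ 2 ∧ 0 ≤ log 2 - 1 / 2 - u := by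
  have p : 0 < (1 - 2 * ε) ^ 2 := pow_pos (by linarith) 2
  have hu : log 2 - binEntropy ε =
      (1 / 2 + ((log 2 - binEntropy ε) / (1 - 2 * ε) ^ 2 - 1 / 2)) * (1 - 2 * ε) ^ 2 := by
    rw [add_sub_cancel, div_mul_cancel₀ _ p.ne']
  refine ⟨_, hu, ?_⟩
  generalize (log 2 - binEntropy ε) / (1 - 2 * ε) ^ 2 - 1 / 2 = u at hu
  have := hb.2.2.2.2.2.1 ε e0.le e1.le
  unfold cc kap at this
  refine nonneg_of_mul_nonneg_left (a := log 2 - 1 / 2 - u) ?_ p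
  linear_combination this - hu

theorem sig (hs : SerStmt) (hb : BrStmt) {ε u s : ℝ} (e0 : 0 < ε) (e1 : ε < 1 / 2)
    (hu : log 2 - binEntropy ε = (1 / 2 + u) * (1 - 2 * ε) ^ 2) (s0 : 0 ≤ s) (s1 : s ≤ 1) :
    (1 - 2 * ε) ^ 2 * psi u s ≤ (1 - 2 * ε) ^ 2 * Ph s - Ph ((1 - 2 * ε) * s) := by
  have := hs.2.2.1 s (1 - 2 * ε) s0 s1 (by linarith) (by linarith)
  rw [hb.2.2.2.1, hu, mul_comm s] at this
  unfold psi
  linear_combination this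

theorem Mpos {W r : ℝ} (W0 : 0 < W) (r0 : 0 ≤ r) (h : W * (1 + r) < 1) :
    0 < -log ((1 - W) ^ 2 - (W * r) ^ 2) :=
  neg_pos.2 (log_neg (bpos W0.le r0 h) (by nlinarith [sq_nonneg (W * r), mul_nonneg W0.le r0]))

theorem ule {a u p : ℝ} (p0 : 0 < p) (h : (1 / 2 + a) * p ≤ (1 / 2 + u) * p) : a ≤ u := by
  linarith [le_of_mul_le_mul_right h p0]

theorem Yle {W A B x y : ℝ} (W0 : 0 ≤ W) (h : A ≤ W) (h' : W ≤ B) (B1 : B ≤ 1 / 2) (hx : y ≤ x)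
    (y0 : 0 ≤ y) : 4 * W * (1 - W) - 4 * x ≤ 4 * W * (1 - A) ∧
      4 * W * (1 - W) - 4 * x ≤ 4 * B * (1 - B) - 4 * y := by
  constructor <;> nlinarith

theorem key0 {c c' k k' t M N w w' H H' Y Y' : ℝ} (c0 : 0 ≤ c) (cu : c ≤ c') (k1 : 0 < k')
    (k2 : k' ≤ k) (t0 : 0 ≤ t) (M0 : 0 ≤ M) (N0 : 0 ≤ N) (w0 : 0 ≤ w) (w1 : w ≤ w') (Y0 : 0 ≤ Y')
    (a1 : t * H' ≤ H) (a2 : M ≤ t * N) (a3 : Y ≤ t * Y')
    (l : 4 * w' * c' * N ≤ k' * (H' - c' * Y')) : 4 * c * (w * M) ≤ k * (H - c * Y) := by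
  have c1 : 0 ≤ c' := c0.trans cu
  have w2 : 0 ≤ w' := w0.trans w1
  have z0 : 0 ≤ H' - c' * Y' := nonneg_of_mul_nonneg_right (le_trans (by positivity) l) k1
  have a4 : c * Y ≤ c' * (t * Y') :=
    (mul_le_mul_of_nonneg_left a3 c0).trans (mul_le_mul_of_nonneg_right cu (by positivity))
  calc 4 * c * (w * M) ≤ 4 * c' * (w' * (t * N)) := by gcongr
    _ = t * (4 * w' * c' * N) := by ring
    _ ≤ t * (k' * (H' - c' * Y')) := by gcongr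
    _ ≤ t * (k * (H' - c' * Y')) := by gcongr
    _ = k * (t * H' - c' * (t * Y')) := by ring
    _ ≤ _ := mul_le_mul_of_nonneg_left (by linarith) (by linarith)

theorem th0 {w x q M : ℝ} (x0 : 0 < x) (b0 : 0 < w - x) (q0 : 0 ≤ q) (q1 : q ≤ 1) (M0 : 0 < M) :
    (1 - q) * x / (w * M) * M ≤ log (w - q * x) - log (w - x) := by
  have a0 : 0 < w - q * x := by nlinarith
  have := log_le_sub_one_of_pos (div_pos b0 a0)
  rw [log_div b0.ne' a0.ne', div_sub_one a0.ne'] at this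
  rw [div_mul_eq_mul_div, mul_div_mul_right _ _ M0.ne']
  refine le_trans ?_ (neg_le_neg this |>.trans_eq (neg_sub _ _))
  rw [← neg_div, show -(w - x - (w - q * x)) = (1 - q) * x by ring]
  exact div_le_div_of_nonneg_left (mul_nonneg (by linarith) x0.le) a0
    (sub_le_self _ (by positivity))

theorem th1 {v w x y q q' : ℝ} (x0 : 0 ≤ x) (x1 : x ≤ y) (b0 : 0 < w - y) (w1 : w ≤ v)
    (q1 : q ≤ q') (q2 : q' ≤ 1) :
    log (v - q' * x) - log (v - x) ≤ log (w - q * y) - log (w - y) := by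
  have b1 : 0 < v - x := by linarith
  have a0 : 0 < w - q * y := by nlinarith
  have a1 : 0 < v - q' * x := by nlinarith
  rw [← log_div a1.ne' b1.ne', ← log_div a0.ne' b0.ne']
  refine log_le_log (div_pos a1 b1) ((div_le_div_iff₀ b1 b0).2 ?_)
  have : (1 - q') * x * (w - y) ≤ (1 - q) * y * (v - x) := by
    have : 0 ≤ 1 - q := by linarith
    have : 0 ≤ y := by linarith
    gcongr
  linear_combination this

theorem sq1 {a b : ℝ} (h : a ≤ b) (b1 : b ≤ 1) : (1 - b) ^ 2 ≤ (1 - a) ^ 2 :=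
  pow_le_pow_left₀ (by linarith) (by linarith) 2

theorem Rl_le {W A r s R : ℝ} (A0 : 0 ≤ A) (h : A ≤ W) (W1 : W ≤ 1 / 2) (s0 : 0 ≤ s) (h' : s ≤ r)
    (R0 : 0 ≤ R) (l : R * (1 - A) ≤ A * s) : R ≤ W * r / (1 - W) := by
  rw [le_div_iff₀ (by linarith)]
  have : A * s ≤ W * r := mul_le_mul h h' s0 (A0.trans h)
  nlinarith

end S01A

open S01A

theorem s0 (hs : SerStmt) (hb : BrStmt) (h1 : C1Stmt) : S0 := by
  rintro ⟨e1, e2, W1, W2, r1, r2⟩ ⟨c1, c2, c3, c4, c5, c6, c7, c8, c9⟩ ul ⟨l1, l2, l3⟩ ε W r hD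
    d1 d2 d3 d4 d5 d6
  dsimp only at *
  obtain ⟨e0, e1', W0, W1', r0, r1', h⟩ := id hD
  obtain ⟨u, hu, ct⟩ := exu hb e0 e1'
  have ρ0 : 0 < 1 - 2 * ε := by linarith only [e1']
  have ρ1 : 1 - 2 * ε ≤ 1 := by linarith only [e0]
  have p : 0 < (1 - 2 * ε) ^ 2 := pow_pos ρ0 2
  have hul : ul ≤ u := ule p (hu ▸ (hb.2.2.2.2.2.2.2 ε e1 e2 ul 0 c1 d1 d2 c3 e1').1 l1)
  have b0 := bpos W0.le r0.le h
  have x0 : 0 < (W * r) ^ 2 := by positivity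
  have w0 : 0 < (1 - W) ^ 2 := pow_pos (by linarith only [W1']) 2
  have M0 := Mpos W0 r0.le h
  have k1 : 0 < kap e1 := mul_pos (mul_pos four_pos c1) (by linarith only [c2, c3])
  have k2 := kap_mono d1 e1'.le
  have hk : kap ε = 1 - (1 - 2 * ε) ^ 2 := by
    unfold kap
    ring
  have key : 4 * (log 2 - 1 / 2 - u) * ((1 - W) ^ 2 * -log ((1 - W) ^ 2 - (W * r) ^ 2)) ≤
      kap ε * (Hb W r - (log 2 - 1 / 2 - u) * (4 * W * (1 - W) - 4 * (W * r) ^ 2)) := by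
    obtain ⟨t, t0, t1, ht⟩ := mix W0.le d4
    rw [mul_zero, zero_add] at ht
    have r20 : 0 ≤ r2 := c7.trans c8
    have W20 : 0 < W2 := W0.trans_le d4
    refine key0 (c' := log 2 - 1 / 2 - ul) (H' := Hb W2 r2) (Y' := 4 * W2 * (1 - W1)) ct
      (by linarith only [hul]) k1 k2 t0 M0.le (Mpos W20 r20 l2).le w0.le
      (sq1 d3 (by linarith only [W1'])) (mul_nonneg (by positivity) (by linarith only [c5, c6]))
      ?_ ?_ ?_ (l3.trans_eq (by ring))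
    · have := Hb_W le_rfl (by norm_num) W20.le c6 r20 c9 t0 t1
      rw [mul_zero, zero_add, ← ht, show Hb 0 r2 = 0 by simp [Hb]] at this
      linarith only [this, Hb_r hs hb W0 W1' r0.le d6 c9]
    · have b2 : 0 < (1 - W) ^ 2 - (W * r2) ^ 2 :=
        bpos W0.le r20 ((mul_le_mul_of_nonneg_right d4 (by positivity)).trans_lt l2)
      have a := M_W W20.le r20 l2 t0 t1
      rw [← ht] at a
      have := log_le_log b2 (show _ ≤ (1 - W) ^ 2 - (W * r) ^ 2 from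
        sub_le_sub_left (by gcongr) _)
      linarith only [a, this]
    · rw [show t * (4 * W2 * (1 - W1)) = 4 * (t * W2) * (1 - W1) by ring, ← ht]
      exact (Yle W0.le d3 d4 c6 x0.le le_rfl).1
  refine red hb h1 (θ := kap ε * (W * r) ^ 2 /
    ((1 - W) ^ 2 * -log ((1 - W) ^ 2 - (W * r) ^ 2))) hD
    (div_nonneg (mul_nonneg (k1.le.trans k2) x0.le) (by positivity)) hu ?_ ?_
  · rw [mul_pow (1 - 2 * ε), hk]
    exact th0 x0 b0 p.le (pow_le_one₀ ρ0.le ρ1) M0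
  · obtain ⟨R0, R1⟩ := Rle W0.le W1' r0.le r1'
    refine add_nonneg (mul_nonneg p.le (sub_nonneg.2 ?_)) (add_nonneg (mul_nonneg W0.le
      (sub_nonneg.2 (hs.2.1 _ _ ρ0.le ρ1 r0.le r1'))) (mul_nonneg (by linarith only [W1'])
      (sub_nonneg.2 (hs.2.1 _ _ ρ0.le ρ1 R0 R1))))
    rw [div_mul_eq_mul_div, le_div_iff₀ (by positivity)]
    linear_combination mul_le_mul_of_nonneg_left key x0.le

theorem s1 (hs : SerStmt) (hb : BrStmt) (h1 : C1Stmt) : S1 := by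
  rintro ⟨e1, e2, W1, W2, r1, r2⟩ ⟨c1, c2, c3, c4, c5, c6, c7, c8, c9⟩ ul uh θ Rl
    ⟨l1, l2, l3, l4, l5, l6, l7, l8, E11, E12, E21, E22⟩ ε W r hD d1 d2 d3 d4 d5 d6
  dsimp only at *
  obtain ⟨e0, e1', W0, W1', r0, r1', h⟩ := id hD
  obtain ⟨u, hu, ct⟩ := exu hb e0 e1'
  have p : 0 < (1 - 2 * ε) ^ 2 := pow_pos (by linarith only [e1']) 2
  obtain ⟨hul, huh⟩ := hb.2.2.2.2.2.2.2 ε e1 e2 ul uh c1 d1 d2 c3 e1'
  replace hul : ul ≤ u := ule p (hu ▸ hul l1)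
  replace huh : u ≤ uh := ule p (hu ▸ huh l2)
  have r20 : 0 ≤ r2 := c7.trans c8
  have W20 : 0 ≤ W2 := c4.trans c5
  have x1 : (W1 * r1) ^ 2 ≤ (W * r) ^ 2 := by gcongr
  have x2 : (W * r) ^ 2 ≤ (W2 * r2) ^ 2 := by gcongr
  have b0 := bpos W0.le r0.le h
  refine red hb h1 hD l5 hu ?_ ?_
  · have w2 : (1 - W2) ^ 2 ≤ (1 - W) ^ 2 := sq1 d4 (by linarith only [c6])
    have m := log_le_log (bpos W20 r20 l4)
      (show _ ≤ (1 - W) ^ 2 - (W * r) ^ 2 by linarith only [w2, x2])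
    refine (mul_le_mul_of_nonneg_left (neg_le_neg m) l5).trans (l6.trans ?_)
    rw [mul_pow (1 - 2 * e1), mul_pow (1 - 2 * ε)]
    exact th1 (sq_nonneg _) x1 b0 (sq1 d3 (by linarith only [W1']))
      (sq1 (by linarith only [d1]) (by linarith only [e1']))
      (pow_le_one₀ (by linarith only [c2, c3]) (by linarith only [c1]))
  · obtain ⟨R0, R1⟩ := Rle W0.le W1' r0.le r1'
    have u1 : u ≤ 1 / 12 := huh.trans l3
    have z : 0 ≤ psi u 0 := by simpa [psi] using hs.1 0 le_rfl zero_le_one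
    have hR := Rl_le c4 d3 W1' c7 d5 l7 l8
    have p1 := hs.2.2.2 u r1 r u1 c7 d5 r1'
    have p2 := hs.2.2.2 u 0 r1 u1 le_rfl c7 (c8.trans c9)
    have p3 := hs.2.2.2 u Rl _ u1 l7 hR R1
    have p4 := hs.2.2.2 u 0 Rl u1 le_rfl l7 (hR.trans R1)
    have w0 : 0 ≤ 1 - W := by linarith only [W1']
    have g1 := mul_le_mul_of_nonneg_left (sig hs hb e0 e1' hu r0.le r1') W0.le
    have g2 := mul_le_mul_of_nonneg_left (sig hs hb e0 e1' hu R0 R1) w0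
    have g3 : W1 * psi u r1 ≤ W * psi u r := mul_le_mul d3 p1 (z.trans p2) W0.le
    have g4 : (1 - W2) * psi u Rl ≤ (1 - W) * psi u (W * r / (1 - W)) :=
      mul_le_mul (sub_le_sub_left d4 1) p3 (z.trans p4) w0
    obtain ⟨s, s0, s1, hs'⟩ := mix hul huh
    obtain ⟨t, t0, t1, ht⟩ := mix d3 d4
    have g5 : (1 - t) * Hb W1 r2 + t * Hb W2 r2 ≤ Hb W r := by
      have := Hb_W c4 (c5.trans c6) W20 c6 r20 c9 t0 t1
      rw [← ht] at this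
      exact this.trans (Hb_r hs hb W0 W1' r0.le d6 c9)
    have g6 : 0 ≤ θ * ((1 - t) * Hb W1 r2 + t * Hb W2 r2 - (log 2 - 1 / 2 - u) *
        (4 * W2 * (1 - W2) - 4 * (W1 * r1) ^ 2)) + W1 * psi u r1 + (1 - W2) * psi u Rl -
        (log 2 - 1 / 2 - u) * (4 * (W2 * r2) ^ 2) := by
      have := add_nonneg (mul_nonneg (sub_nonneg.2 s1) (add_nonneg
        (mul_nonneg (sub_nonneg.2 t1) E11) (mul_nonneg t0 E12))) (mul_nonneg s0 (add_nonneg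
        (mul_nonneg (sub_nonneg.2 t1) E21) (mul_nonneg t0 E22)))
      simp only [E1, psi] at this ⊢
      rw [hs']
      linear_combination this
    have g7 := mul_le_mul_of_nonneg_left (Yle W0.le d3 d4 c6 x1 (sq_nonneg _)).2 ct
    have g8 := mul_le_mul_of_nonneg_left (sub_le_sub g5 g7) l5
    have g9 := mul_le_mul_of_nonneg_left x2 ct
    have := mul_nonneg p.le (show 0 ≤ θ * (Hb W r - (log 2 - 1 / 2 - u) *
      (4 * W * (1 - W) - 4 * (W * r) ^ 2)) - (log 2 - 1 / 2 - u) * (4 * (W * r) ^ 2) +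
      (W * psi u r + (1 - W) * psi u (W * r / (1 - W))) by
        linear_combination g6 + g8 + 4 * g9 + g3 + g4)
    linear_combination this + g1 + g2

end Vale.Agent.P322
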