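import Vale.Agent.P322.CKLeaf

/-! Leaf lemmas near the extreme corner. -/

namespace Vale.Agent.P322

open Real

namespace S23

theorem hb_eq (x : ℝ) : binEntropy x = -x * log x - (1 - x) * log (1 - x) := by
  simp only [binEntropy, log_inv]; ring

theorem tail_le {t : ℝ} (h1 : t < 1) : -((1 - t) * log (1 - t)) ≤ t := by
  have p : 0 < 1 - t := by linarith
  have a := log_le_sub_one_of_pos (inv_pos.2 p)
  rw [log_inv] at a
  have b := mul_le_mul_of_nonneg_left a p.le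
  rw [mul_sub, mul_inv_cancel₀ p.ne'] at b
  linarith

theorem hb_le {t : ℝ} (h1 : t < 1) : binEntropy t ≤ t * (1 - log t) := by
  rw [hb_eq]; linarith [tail_le h1]

theorem le_hb {x δ : ℝ} (h0 : 0 ≤ x) (h1 : x ≤ δ) (h2 : δ < 1) :
    x * (-log δ + 1 - δ) ≤ binEntropy x := by
  rw [hb_eq]
  have p : 0 < 1 - x := by linarith
  have a := mul_le_mul_of_nonneg_left (log_le_sub_one_of_pos p) p.le
  have b : x * log x ≤ x * log δ := by
    rcases h0.eq_or_lt with h | h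
    · rw [← h]; simp
    · exact mul_le_mul_of_nonneg_left (log_le_log h h1) h0
  nlinarith [mul_le_mul_of_nonneg_left h1 h0]

theorem kap_mono {a b : ℝ} (h : a ≤ b) (hb : b ≤ 1 / 2) : kap a ≤ kap b := by
  unfold kap; nlinarith

theorem hb_mono {a b : ℝ} (h0 : 0 ≤ a) (h : a ≤ b) (hb : b ≤ 1 / 2) :
    binEntropy a ≤ binEntropy b :=
  binEntropy_strictMonoOn.monotoneOn ⟨h0, by linarith⟩ ⟨by linarith, by linarith⟩ h

theorem cy {c χ Y δ d : ℝ} (h0 : 0 ≤ c) (h1 : χ ≤ c) (δ0 : 0 ≤ δ) (δ1 : δ ≤ d) (d1 : d ≤ 1)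
    (hY : 2 * δ * (1 - δ) ≤ Y) : χ * (2 * δ * (1 - d)) ≤ c * Y := by
  have a : 0 ≤ 2 * δ * (1 - d) := mul_nonneg (by linarith) (by linarith)
  have b : 2 * δ * (1 - d) ≤ Y := le_trans (by nlinarith) hY
  exact (mul_le_mul_of_nonneg_right h1 a).trans (mul_le_mul_of_nonneg_left b h0)

theorem vlow {V δ d : ℝ} (δ0 : 0 < δ) (δ1 : δ ≤ d) (d1 : d ≤ 1 / 2) (hV : 1 - δ ^ 2 ≤ V) :
    δ * ((1 - d) * (2 + d)) ≤ (V - (1 - δ) ^ 2 / V) * (1 + d) := by
  have p : 0 < 1 - δ ^ 2 := by nlinarith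
  have a : (1 - δ) ^ 2 / V ≤ (1 - δ) / (1 + δ) := by
    rw [div_le_div_iff₀ (by linarith) (by linarith)]
    nlinarith [mul_le_mul_of_nonneg_left hV (show 0 ≤ 1 - δ by linarith)]
  have b : δ * ((1 - d) * (2 + d)) ≤ (1 - δ ^ 2 - (1 - δ) / (1 + δ)) * (1 + d) := by
    have e : (1 - δ ^ 2 - (1 - δ) / (1 + δ)) * (1 + d) =
        δ * ((1 - δ) * (2 + δ) * (1 + d) / (1 + δ)) := by
      field_simp; ring
    rw [e]
    refine mul_le_mul_of_nonneg_left ?_ δ0.le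
    rw [le_div_iff₀ (by linarith)]
    have : 0 ≤ (d - δ) * (2 + (1 + d) * (1 + δ)) := mul_nonneg (by linarith) (by nlinarith)
    nlinarith
  exact b.trans (mul_le_mul_of_nonneg_right (by linarith) (by linarith))

theorem geo {W r W1 r1 d : ℝ} (W0 : 0 < W) (W1' : W ≤ 1 / 2) (r0 : 0 < r) (r1' : r ≤ 1)
    (P1 : W * (1 + r) < 1) (a3 : W1 ≤ W) (a5 : r1 ≤ r) (o7 : 0 ≤ r1) (l3 : 1 - 2 * W1 * r1 ≤ d)
    {δ : ℝ} (hδ : δ = 1 - 2 * (W * r)) :
    W * r ≤ W ∧ 0 < δ ∧ δ ≤ d ∧ 0 < (1 - W) ^ 2 - (W * r) ^ 2 ∧ (1 - W) ^ 2 - (W * r) ^ 2 ≤ δ ∧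
      1 - δ ^ 2 ≤ 4 * W * (1 - W) ∧ 2 * δ * (1 - δ) ≤ 4 * W * (1 - W) - 4 * (W * r) ^ 2 ∧
      0 ≤ W * (1 - r) ∧ W * (1 + r) = W * (1 - r) + (1 - δ) ∧ 1 / 4 ≤ (1 - W) ^ 2 ∧
      (1 - W) ^ 2 ≤ 1 ∧ 4 * (W * (1 - W)) ≤ 1 := by
  have x0 : 0 < W * r := mul_pos W0 r0
  have x1 : W * r ≤ W := mul_le_of_le_one_right W0.le r1'
  have t := mul_le_mul a3 a5 o7 W0.le
  have v : 1 - δ ^ 2 ≤ 4 * W * (1 - W) := by
    have := pow_le_pow_left₀ (show 0 ≤ 1 - 2 * W by linarith) (show 1 - 2 * W ≤ δ by linarith) 2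
    linarith
  have e : (1 - W) ^ 2 - (W * r) ^ 2 = (1 - W * (1 + r)) * (1 - W + W * r) := by ring
  refine ⟨x1, by linarith, by linarith, ?_, ?_, v, ?_, by linarith, by rw [hδ]; ring,
    by nlinarith, by nlinarith, by nlinarith [sq_nonneg (1 - 2 * W)]⟩
  · rw [e]; exact mul_pos (by linarith) (by linarith)
  · rw [e]
    exact (mul_le_of_le_one_right (by linarith) (by linarith)).trans (by linarith)
  · have : 4 * (W * r) ^ 2 = (1 - δ) ^ 2 := by rw [hδ]; ring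
    linarith

theorem kap_pos {a : ℝ} (h : 0 < a) (h1 : a ≤ 1 / 2) : 0 < kap a :=
  mul_pos (by linarith) (by linarith)

theorem kap_le (a : ℝ) : kap a ≤ 1 := by unfold kap; nlinarith [sq_nonneg (1 - 2 * a)]

theorem lin1 {α l L a c K d : ℝ} (α0 : 0 ≤ α) (αl : α * l ≤ 2 * a) (L0 : 0 < L) (lL : L ≤ l)
    (d0 : 0 < d) (K0 : 0 ≤ K) (lA : a * (1 + d) ≤ K) (lB : a * (L + c) * (1 + d) ≤ L * K) :
    α * (l + c) * (1 + d) ≤ 2 * K := by
  rcases le_total 0 (l + c) with h | h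
  · have t1 := mul_le_mul_of_nonneg_right αl (mul_nonneg h (show 0 ≤ 1 + d by linarith))
    have t2 := mul_le_mul_of_nonneg_right lA (show 0 ≤ l - L by linarith)
    refine le_of_mul_le_mul_left ?_ (show 0 < l by linarith)
    linarith
  · have := mul_nonpos_of_nonpos_of_nonneg (mul_nonpos_of_nonneg_of_nonpos α0 h)
      (show 0 ≤ 1 + d by linarith)
    linarith

theorem hup (hb : BrStmt) {W r δ : ℝ} (δ0 : 0 < δ) (δ1 : δ ≤ 1 / 2) (P1 : W * (1 + r) < 1)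
    (q0 : 0 ≤ W * (1 - r)) (e1 : W * (1 + r) = W * (1 - r) + (1 - δ)) :
    Hb W r ≤ δ / 2 * (-log δ + log 2 + 1) := by
  have t0 : 0 < δ / 2 := by linarith
  have t1 := hb.2.2.2.2.2.2.1 (1 - W * (1 + r)) (δ / 2) (by linarith) (by linarith) t0 (by linarith)
  have t2 := hb.2.2.2.2.2.2.1 (W * (1 - r)) (δ / 2) q0 (by linarith) t0 (by linarith)
  have t3 := tail_le (show δ / 2 < 1 by linarith)
  rw [binEntropy_one_sub] at t1
  rw [Xe, log_div δ0.ne' two_ne_zero] at t1 t2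
  rw [Hb]
  rw [e1] at t1 ⊢
  linarith

theorem gup (hs : SerStmt) {W r ρ : ℝ} (W0 : 0 < W) (W1' : W ≤ 1 / 2) (r0 : 0 < r) (r1' : r ≤ 1)
    (ρ0 : 0 < ρ) (ρ1 : ρ < 1) : W * Ph (ρ * r) + (1 - W) * Ph (W * (ρ * r) / (1 - W)) ≤
      Ph ρ * ((1 - (1 - 2 * (W * r))) ^ 2 / (4 * W * (1 - W))) := by
  have W3 : 0 < 1 - W := by linarith
  have x1 : W * r ≤ W := mul_le_of_le_one_right W0.le r1'
  have t1 := hs.2.1 r ρ r0.le r1' ρ0.le ρ1.le
  have t2 := hs.2.1 (W * r / (1 - W)) ρ (by positivity) ((div_le_one W3).2 (by linarith)) ρ0.le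
    ρ1.le
  rw [show W * (ρ * r) / (1 - W) = W * r / (1 - W) * ρ by ring, mul_comm ρ r]
  refine (add_le_add (mul_le_mul_of_nonneg_left t1 W0.le)
    (mul_le_mul_of_nonneg_left t2 W3.le)).trans_eq ?_
  field_simp
  ring

end S23

open S23

theorem s2 (hs : SerStmt) (hb : BrStmt) (h1 : C1Stmt) : S2 := by
  rintro ⟨e1, e2, W1, W2, r1, r2⟩ ⟨o1, o2, o3, o4, -, -, o7, -, -⟩ ul uh d
    ⟨l1, l2, l3, l4, l5, lA, lB⟩ ε W r hD a1 a2 a3 - a5 -
  dsimp only at *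
  obtain ⟨ε0, ε1, W0, W1', r0, r1', P1⟩ := id hD
  obtain ⟨u1, u2⟩ := hb.2.2.2.2.2.2.2 ε e1 e2 ul uh o1 a1 a2 o3 ε1
  replace u1 := u1 l1
  replace u2 := u2 l2
  have ul0 := l1.1
  obtain ⟨ρ, hρ⟩ : ∃ ρ, ρ = 1 - 2 * ε := ⟨_, rfl⟩
  obtain ⟨δ, hδ⟩ : ∃ δ, δ = 1 - 2 * (W * r) := ⟨_, rfl⟩
  obtain ⟨x1, δ0, δd, den0, den1, V1, Y1, q0, eP, w1, w2, -⟩ := geo W0 W1' r0 r1' P1 a3 a5 o7 l3 hδ
  have ρ0 : 0 < ρ := by linarith
  have ρ1 : ρ < 1 := by linarith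
  have kρ : kap ε = 1 - ρ ^ 2 := by rw [hρ, kap]; ring
  have k1 := kap_mono a1 ε1.le
  have k0 := kap_pos o1 (o2.trans o3)
  have ρ2 : ρ ^ 2 ≤ 1 := pow_le_one₀ ρ0.le ρ1.le
  have nd : (1 - W) ^ 2 - (W * r) ^ 2 ≤ (1 - W) ^ 2 - (ρ * (W * r)) ^ 2 := by
    rw [mul_pow ρ]; linarith [mul_le_of_le_one_left (sq_nonneg (W * r)) ρ2]
  have n1 : (1 - W) ^ 2 - (ρ * (W * r)) ^ 2 ≤ 1 := by linarith [sq_nonneg (ρ * (W * r))]
  have n2 : kap e1 / 4 ≤ (1 - W) ^ 2 - (ρ * (W * r)) ^ 2 := by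
    have t1 : (W * r) ^ 2 ≤ (1 - W) ^ 2 := by linarith
    have t2 := mul_le_mul_of_nonneg_left t1 (sq_nonneg ρ)
    have t4 := mul_le_mul_of_nonneg_left w1 (show 0 ≤ 1 - ρ ^ 2 by linarith)
    rw [mul_pow ρ]
    linarith
  obtain ⟨N, hN⟩ : ∃ N, N = -log ((1 - W) ^ 2 - (ρ * (W * r)) ^ 2) := ⟨_, rfl⟩
  obtain ⟨E, hE⟩ : ∃ E, E = -log ((1 - W) ^ 2 - (W * r) ^ 2) := ⟨_, rfl⟩
  obtain ⟨l, hl⟩ : ∃ l, l = -log δ := ⟨_, rfl⟩
  obtain ⟨a, ha⟩ : ∃ a, a = log 2 - log (kap e1) / 2 := ⟨_, rfl⟩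
  have lL : -log d ≤ l := by rw [hl]; linarith only [log_le_log δ0 δd]
  have L0 : 0 < -log d := by linarith only [log_neg l4 (by linarith)]
  have lE : l ≤ E := by rw [hl, hE]; linarith only [log_le_log den0 den1]
  have NE : N ≤ E := by rw [hN, hE]; linarith only [log_le_log den0 nd]
  have N0 : 0 ≤ N := by rw [hN]; linarith only [log_nonpos (den0.le.trans nd) n1]
  have Na : N ≤ 2 * a := by
    have t := log_le_log (by positivity) n2
    rw [log_div k0.ne' (by norm_num), show (4 : ℝ) = 2 ^ 2 by norm_num, log_pow] at t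
    rw [hN, ha]
    push_cast at t
    linarith only [t]
  have E0 : 0 < E := by linarith only [L0, lL, lE]
  obtain ⟨α, hα⟩ : ∃ α, α = N / E := ⟨_, rfl⟩
  have αE : α * E = N := by rw [hα]; field_simp
  have α0 : 0 ≤ α := hα ▸ div_nonneg N0 E0.le
  have α1 : α ≤ 1 := hα ▸ (div_le_one E0).2 NE
  have αl : α * l ≤ 2 * a := by linarith only [mul_le_mul_of_nonneg_left lE α0, αE, Na]
  refine h1 ε W r (1 - α) hD (by linarith only [α1])
    (by rw [← hρ, ← hE]; linarith only [αE, hN, hE]) ?_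
  rw [← hρ] at u1 u2
  rw [← ha] at lA lB
  obtain ⟨K, hK⟩ : ∃ K, K = (1 / 2 + ul) * (1 - d) * (2 + d) := ⟨_, rfl⟩
  obtain ⟨c0, hc0⟩ : ∃ c0, c0 = log 2 + 1 - 4 * (log 2 - 1 / 2 - uh) * (1 - d) := ⟨_, rfl⟩
  have lB' : a * (-log d + c0) * (1 + d) ≤ -log d * K := by
    rw [hK, hc0]; linarith only [lB]
  rw [← hK] at lA
  have d1 : 0 ≤ 1 - d := by linarith only [l5]
  have K0 : 0 ≤ K := by rw [hK]; positivity
  have main := lin1 α0 αl L0 lL l4 K0 lA lB'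
  obtain ⟨U, hU⟩ : ∃ U, U = log 2 - binEntropy ε := ⟨_, rfl⟩
  rw [← hU] at u1 u2
  have cU : cc ε = ρ ^ 2 * log 2 - U := by rw [cc, kρ, hU]; ring
  have U0 : 0 ≤ U := le_trans (by positivity) u1
  have g := gup hs W0 W1' r0 r1' ρ0 ρ1
  rw [show Ph ρ = U by rw [hρ, hb.2.2.2.1, hU], ← hδ] at g
  have hW : log 2 * (4 * W * (1 - W)) ≤ binEntropy W := by
    have t := hs.2.1 (1 - 2 * W) 1 (by linarith only [W1']) (by linarith only [W0]) zero_le_one
      le_rfl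
    rw [mul_one, hb.2.2.2.1, hb.2.2.2.2.1] at t
    linarith only [t]
  have up := hup hb δ0 (δd.trans l5) P1 q0 eP
  rw [← hl] at up
  have cY := cy (χ := ρ ^ 2 * (log 2 - 1 / 2 - uh)) (hb.2.2.2.2.2.1 ε ε0.le ε1.le)
    (by rw [cU]; linarith only [u2]) δ0.le δd (by linarith only [l5]) Y1
  have vl := vlow δ0 δd l5 V1
  have f1 : Hb W r - Bb ε W r ≤ ρ ^ 2 * (δ / 2) * (l + c0) := by
    rw [hb.2.2.1, kρ, hc0]
    linarith only [mul_le_mul_of_nonneg_left up (sq_nonneg ρ), cY]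
  obtain ⟨V, hV⟩ : ∃ V, V = 4 * W * (1 - W) := ⟨_, rfl⟩
  rw [← hV] at g hW vl
  have f2 : ρ ^ 2 * δ * K ≤ U * (V - (1 - δ) ^ 2 / V) * (1 + d) := by
    have t1 := mul_le_mul_of_nonneg_left vl U0
    have t2 := mul_le_mul_of_nonneg_right u1 (show 0 ≤ δ * ((1 - d) * (2 + d)) by positivity)
    rw [hK]
    linarith only [t1, t2]
  have f3 : α * (Hb W r - Bb ε W r) ≤ U * (V - (1 - δ) ^ 2 / V) := by
    refine le_of_mul_le_mul_right ?_ (show 0 < 1 + d by positivity)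
    have t1 := mul_le_mul_of_nonneg_right (mul_le_mul_of_nonneg_left f1 α0)
      (show 0 ≤ 1 + d by positivity)
    have t2 := mul_le_mul_of_nonneg_left main (show 0 ≤ ρ ^ 2 * (δ / 2) by positivity)
    linarith only [t1, t2, f2]
  rw [hb.2.1, ← hρ, hb.1 W (ρ * r) W0 W1' (by positivity) (mul_le_one₀ ρ1.le r0.le r1'), Bf, kρ,
    cU, sub_sub_cancel]
  have t := mul_le_mul_of_nonneg_left hW (sq_nonneg ρ)
  have e : 4 * (ρ ^ 2 * log 2 - U) * (W * (1 - W)) = (ρ ^ 2 * log 2 - U) * V := by rw [hV]; ring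
  rw [e]
  linarith only [t, f3, g]

theorem s3 (_hs : SerStmt) (hb : BrStmt) (h2 : C2Stmt) : S3 := by
  rintro ⟨e1, e2, W1, W2, r1, r2⟩ ⟨o1, o2, o3, o4, -, -, o7, -, -⟩ a a1 d
    ⟨l3, l4, l5, a0, l6, l7, lA, lB, lC⟩ ε W r hD a2 a3 a4 - a5 -
  dsimp only at *
  obtain ⟨ε0, ε1, W0, W1', r0, r1', P1⟩ := id hD
  obtain ⟨δ, hδ⟩ : ∃ δ, δ = 1 - 2 * (W * r) := ⟨_, rfl⟩
  obtain ⟨x1, δ0, δd, -, -, -, Y1, q0, eP, -, -, w3⟩ := geo W0 W1' r0 r1' P1 a4 a5 o7 l3 hδ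
  have δ1 : 0 < 1 - δ := by linarith only [δd, l5]
  obtain ⟨t, ht⟩ : ∃ t, t = a * δ / (1 - δ) := ⟨_, rfl⟩
  have t0 : 0 < t := by rw [ht]; positivity
  have t1 : t * (1 - δ) = a * δ := by rw [ht]; field_simp
  have a10 : 0 < a1 := (pos_iff_pos_of_mul_pos (lt_of_lt_of_le (mul_pos a0 l4) l6)).2
    (by linarith only [l5])
  have t2 : t ≤ a1 := by
    rw [ht, div_le_iff₀ δ1]
    linarith only [mul_le_mul_of_nonneg_left δd a0.le, mul_le_mul_of_nonneg_left δd a10.le, l6]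
  have t3 : a * δ ≤ t := by linarith only [mul_pos t0 δ0, t1]
  have k1 := kap_mono a2 ε1.le
  have k2 := kap_mono a3 o3
  have k0 := kap_pos o1 (o2.trans o3)
  have c0 := hb.2.2.2.2.2.1 ε ε0.le ε1.le
  have lg : 0 < log 2 := log_pos one_lt_two
  have eD : 2 * W * r = 1 - δ := by linarith only [hδ]
  have e20 : 0 < e2 := o1.trans_le o2
  have τ0 : 0 < 1 - 2 * a1 := by linarith only [l7, e20]
  refine h2 ε W r (1 - 2 * t) hD (by linarith only [τ0, t2]) (by linarith only [t0]) ?_ (Or.inr ?_)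
  · obtain ⟨b, hb'⟩ : ∃ b, b = ε + (1 - 2 * ε) * t := ⟨_, rfl⟩
    rw [show (1 - (1 - 2 * ε) * (1 - 2 * t)) / 2 = b by rw [hb']; ring, eD]
    have q0 : 0 < (1 - 2 * ε) * t := mul_pos (by linarith only [ε1]) t0
    have q1 : b ≤ e2 + a1 := by linarith only [mul_pos ε0 t0, hb', a3, t2]
    have q2 : 0 < b := by linarith only [q0, hb', ε0]
    have q3 : 0 < e2 + a1 := by positivity
    obtain ⟨m, hm⟩ : ∃ m, m = log (1 - (e2 + a1)) - log (e2 + a1) := ⟨_, rfl⟩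
    have m0 : 0 ≤ m := by
      rw [hm]
      linarith only [log_le_log q3 (show e2 + a1 ≤ 1 - (e2 + a1) by linarith only [l7])]
    have m1 : m ≤ log (1 - b) - log b := by
      rw [hm]
      linarith only [log_le_log q2 q1, log_le_log (show 0 < 1 - (e2 + a1) by linarith only [l7])
        (show 1 - (e2 + a1) ≤ 1 - b by linarith only [q1])]
    rw [← hm] at lA
    have g1 := hb.2.2.2.2.2.2.1 ε b ε0.le (by linarith only [ε1]) q2 (by linarith only [q1, l7])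
    have g2 : binEntropy ε + (1 - 2 * ε) * t * m ≤ binEntropy b := by
      rw [hb_eq b]
      rw [Xe] at g1
      have := mul_le_mul_of_nonneg_left m1 q0.le
      rw [show (1 - 2 * ε) * t = b - ε by rw [hb']; ring] at this ⊢
      linarith only [this, g1]
    have g3 : Bf (kap ε) (cc ε) W ≤ binEntropy ε := by
      have s1 := mul_le_mul_of_nonneg_left (binEntropy_le_log_two (p := W)) (k0.le.trans k1)
      have s2 := mul_le_mul_of_nonneg_left w3 c0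
      have s3 : cc ε = binEntropy ε - kap ε * log 2 := rfl
      rw [Bf]
      linarith only [s1, s2, s3]
    have g4 := hb_mono ε0.le a3 o3
    have g5 : 0 ≤ binEntropy ε := binEntropy_nonneg ε0.le (by linarith only [ε1])
    have g6 : 2 * a ≤ 1 := lB.trans (mul_le_one₀ (by linarith only [a10]) k0.le (kap_le _))
    have g7 : binEntropy ε * (1 - 2 * a) ≤ a * (1 - 2 * ε) * m := by
      have s1 := mul_le_mul_of_nonneg_right g4 (show 0 ≤ 1 - 2 * a by linarith only [g6])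
      have s2 := mul_le_mul_of_nonneg_right (show 1 - 2 * e2 ≤ 1 - 2 * ε by linarith only [a3])
        (mul_nonneg a0.le m0)
      linarith only [s1, s2, lA]
    have s1 := mul_le_mul_of_nonneg_left g3 (show 0 ≤ 1 - 2 * t by linarith only [τ0, t2])
    have s2 := mul_le_mul_of_nonneg_left g2 δ1.le
    have s3 := mul_le_mul_of_nonneg_left g7 δ0.le
    have s4 := mul_le_mul_of_nonneg_left t3 g5
    have s5 : (1 - δ) * ((1 - 2 * ε) * t * m) = δ * (a * (1 - 2 * ε) * m) := by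
      linear_combination (1 - 2 * ε) * m * t1
    linarith only [s1, s2, s3, s4, s5]
  · rw [show (1 - (1 - 2 * t)) / 2 = t by ring, eD]
    obtain ⟨l, hl⟩ : ∃ l, l = -log δ := ⟨_, rfl⟩
    have lL : -log d ≤ l := by rw [hl]; linarith only [log_le_log δ0 δd]
    have L0 : 0 < -log d := by linarith only [log_neg l4 (by linarith only [l5])]
    have g1 := hb_le (show t < 1 by linarith only [τ0, t2])
    have g2 : log a - l ≤ log t := by
      rw [hl, sub_neg_eq_add, ← log_mul a0.ne' δ0.ne']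
      exact log_le_log (mul_pos a0 δ0) t3
    have g3 : (1 - δ) * binEntropy t ≤ δ * (a * (1 - log a + l)) := by
      have s1 := mul_le_mul_of_nonneg_left g1 δ1.le
      have s2 := mul_le_mul_of_nonneg_left g2 (mul_pos a0 δ0).le
      have s3 : (1 - δ) * (t * (1 - log t)) = a * δ * (1 - log t) := by rw [← t1]; ring
      linarith only [s1, s2, s3]
    have g4 : δ * (l + 1 - d) / 2 ≤ Hb W r := by
      have s1 := le_hb (x := 1 - W * (1 + r)) (δ := δ) (by linarith only [P1])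
        (by linarith only [eP, q0]) (by linarith only [δ1])
      have s2 := le_hb (x := W * (1 - r)) (δ := δ) q0 (by linarith only [eP, P1])
        (by linarith only [δ1])
      rw [binEntropy_one_sub, ← hl] at s1
      rw [← hl] at s2
      rw [Hb]
      rw [eP] at s1 ⊢
      linarith only [mul_le_mul_of_nonneg_left δd δ0.le, s1, s2]
    have g5 : 0 ≤ δ * (l + 1 - d) / 2 := by
      have : 0 ≤ l + 1 - d := by linarith only [lL, L0, l5]
      positivity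
    have cY := cy (χ := binEntropy e1 - kap e2 * log 2) c0 (by
      have s1 := hb_mono o1.le a2 ε1.le
      have s2 := mul_le_mul_of_nonneg_right k2 lg.le
      rw [cc]; linarith only [s1, s2]) δ0.le δd (by linarith only [l5]) Y1
    have g6 := mul_le_mul k1 g4 g5 (k0.le.trans k1)
    have g7 : 0 ≤ Bb ε W r := by
      rw [hb.2.2.1]
      exact add_nonneg ((mul_nonneg k0.le g5).trans g6) (mul_nonneg c0
        (le_trans (by positivity) Y1))
    have g8 := mul_le_mul_of_nonneg_right (show 1 - 2 * a1 ≤ 1 - 2 * t by linarith only [t2]) g7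
    have g9 : δ * (kap e1 * (l + 1 - d) / 2 + 2 * (binEntropy e1 - kap e2 * log 2) * (1 - d)) ≤
        Bb ε W r := by rw [hb.2.2.1]; linarith only [g6, cY]
    have s1 := mul_le_mul_of_nonneg_left g9 τ0.le
    have s2 := mul_le_mul_of_nonneg_right lB (show 0 ≤ l - -log d by linarith only [lL])
    have s3 : a * (1 - log a + l) ≤ (1 - 2 * a1) *
        (kap e1 * (l + 1 - d) / 2 + 2 * (binEntropy e1 - kap e2 * log 2) * (1 - d)) := by
      linarith only [s2, lC]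
    have s4 := mul_le_mul_of_nonneg_left s3 δ0.le
    linarith only [s1, s4, g3, g8]

end Vale.Agent.P322
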