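import Vale.Agent.P322.S5

/-! The small bias leaf and the very low noise range. -/

namespace Vale.Agent.P322.S4A

open Real

theorem h_lo {x : ℝ} (x1 : x < 1) : x * -log x + x * (1 - x) ≤ binEntropy x := by
  have h := log_le_sub_one_of_pos (sub_pos.2 x1)
  have := mul_le_mul_of_nonneg_left h (sub_pos.2 x1).le
  rw [SerA.h_eq]
  linarith

theorem h_hi {x : ℝ} (x1 : x ≤ 1) : binEntropy x ≤ x * -log x + x := by
  have := SerA.gib (sub_nonneg.2 x1) one_pos
  rw [log_one] at this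
  rw [SerA.h_eq]
  linarith

theorem h_mono {x y : ℝ} (x0 : 0 ≤ x) (h : x ≤ y) (y1 : y ≤ 1 / 2) : binEntropy x ≤ binEntropy y :=
  binEntropy_strictMonoOn.monotoneOn ⟨x0, by linarith⟩ ⟨by linarith, by linarith⟩ h

theorem h_ratio {x y : ℝ} (x0 : 0 < x) (h : x ≤ y) (y1 : y ≤ 1) :
    x * binEntropy y ≤ y * binEntropy x := by
  have y0 : 0 < y := by linarith
  have := S5A.conc (x := 0) (y := y) (t := x / y) le_rfl zero_le_one y0.le y1 (by positivity)
    ((div_le_one y0).2 h)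
  rw [binEntropy_zero, mul_zero, zero_add, zero_add, div_mul_cancel₀ _ y0.ne'] at this
  have h2 := mul_le_mul_of_nonneg_left this y0.le
  rwa [← mul_assoc, mul_div_cancel₀ _ y0.ne'] at h2

theorem kap_mono {x y : ℝ} (h : x ≤ y) (y1 : y ≤ 1 / 2) : kap x ≤ kap y := by
  unfold kap
  nlinarith

theorem h_Ph (x : ℝ) : binEntropy ((1 - x) / 2) = log 2 - Ph x := by
  have : (1 - x) / 2 = 1 - (1 + x) / 2 := by ring
  rw [this, binEntropy_one_sub, Ph]
  ring

theorem gap (hb : BrStmt) {ε W r : ℝ} (hd : Dom ε W r) : Bf (kap ε) (cc ε) W - Bb ε W r =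
    kap ε * (W * Ph r + (1 - W) * Ph (W * r / (1 - W))) + cc ε * (2 * W * r) ^ 2 := by
  obtain ⟨e0, e1, W0, W1, r0, r1, P1⟩ := hd
  rw [hb.2.2.1, hb.1 W r W0 W1 r0.le r1, Bf]
  ring

theorem Jle (hs : SerStmt) (hb : BrStmt) {W r : ℝ} (W0 : 0 < W) (W1 : W ≤ 1 / 2) (r0 : 0 < r)
    (r1 : r ≤ 1) : (1 - W) * (W * Ph r + (1 - W) * Ph (W * r / (1 - W))) ≤
      (1 / 2 + (log 2 - 1 / 2) * r ^ 2) * (W * r ^ 2) := by
  have V0 : 0 < 1 - W := by linarith
  obtain ⟨R, hR⟩ : ∃ R, R = W * r / (1 - W) := ⟨_, rfl⟩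
  have e : (1 - W) * R = W * r := by
    rw [hR]
    field_simp
  have R0 : 0 ≤ R := hR ▸ by positivity
  have R1 : R ≤ r := by
    rw [hR, div_le_iff₀ V0]
    nlinarith
  rw [← hR]
  have l0 : 0 ≤ log 2 - 1 / 2 := by linarith [log_two_gt_d9]
  have h1 := hs.2.2.1 r 1 r0.le r1 zero_le_one le_rfl
  have h2 := hs.2.2.1 R 1 R0 (R1.trans r1) zero_le_one le_rfl
  rw [mul_one, hb.2.2.2.2.1] at h1 h2
  have h3 : R ^ 2 ≤ r ^ 2 := pow_le_pow_left₀ R0 R1 2
  have h4 := mul_le_mul_of_nonneg_left h3 (mul_nonneg l0 (sq_nonneg R))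
  have a1 : Ph r ≤ (1 / 2 + (log 2 - 1 / 2) * r ^ 2) * r ^ 2 := by linarith
  have a2 : Ph R ≤ (1 / 2 + (log 2 - 1 / 2) * r ^ 2) * R ^ 2 := by linarith
  have a3 := mul_le_mul_of_nonneg_left a1 (mul_pos V0 W0).le
  have a4 := mul_le_mul_of_nonneg_left a2 (sq_nonneg (1 - W))
  have e2 : (1 - W) ^ 2 * ((1 / 2 + (log 2 - 1 / 2) * r ^ 2) * R ^ 2) =
      (1 / 2 + (log 2 - 1 / 2) * r ^ 2) * (W * r) ^ 2 := by
    rw [← e]
    ring
  linarith

theorem tilt (hb : BrStmt) (h2 : C2Stmt) {ε W r ω : ℝ} (hd : Dom ε W r) (ω0 : 0 < ω)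
    (hv : 2 * ε < exp (-ω)) (hg : Bf (kap ε) (cc ε) W - Bb ε W r ≤ ε * (2 * W * r) * ω)
    (hB : Bf (kap ε) (cc ε) W * (1 - exp (-ω)) ≤
      (1 - 2 * ε) * (2 * W * r) * (exp (-ω) * (1 + ω))) : CA ε W r := by
  have hd' := hd
  obtain ⟨e0, e1, W0, W1, r0, r1, P1⟩ := hd'
  obtain ⟨v, hv'⟩ : ∃ v, v = exp (-ω) := ⟨_, rfl⟩
  rw [← hv'] at hv hB
  have v0 : 0 < v := hv' ▸ exp_pos _
  have v1 : v < 1 := by
    rw [hv', ← exp_zero]
    exact exp_lt_exp.2 (by linarith)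
  have lv : log v = -ω := by rw [hv', log_exp]
  have ρ0 : 0 < 1 - 2 * ε := by linarith
  have D0 : 0 < 2 * W * r := by positivity
  obtain ⟨b, hb'⟩ : ∃ b, b = v / (1 + v) := ⟨_, rfl⟩
  have bv : b * (1 + v) = v := by
    rw [hb']
    field_simp
  have b0 : ε < b := by
    by_contra hh
    have := mul_le_mul_of_nonneg_right (not_lt.1 hh) (show 0 ≤ 1 + v by linarith)
    nlinarith
  have b1 : b < 1 / 2 := by
    by_contra hh
    have := mul_le_mul_of_nonneg_right (not_lt.1 hh) (show 0 ≤ 1 + v by linarith)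
    linarith
  have l1 : log b = -ω - log (1 + v) := by rw [hb', log_div v0.ne' (by linarith), lv]
  have l2 : log (1 - b) = -log (1 + v) := by
    have : 1 - b = (1 + v)⁻¹ := by
      rw [hb']
      field_simp
      ring
    rw [this, log_inv]
  obtain ⟨τ, hτ⟩ : ∃ τ, τ = (1 - 2 * b) / (1 - 2 * ε) := ⟨_, rfl⟩
  have τρ : (1 - 2 * ε) * τ = 1 - 2 * b := by
    rw [hτ]
    field_simp
  have τ0 : 0 < τ := hτ ▸ div_pos (by linarith) ρ0
  have τ1 : τ < 1 := hτ ▸ (div_lt_one ρ0).2 (by linarith)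
  have eb : (1 - (1 - 2 * ε) * τ) / 2 = b := by
    rw [τρ]
    ring
  have hbv : binEntropy b = b * ω + log (1 + v) := by
    rw [SerA.h_eq, l1, l2]
    ring
  refine h2 ε W r τ hd τ0 τ1 ?_ (Or.inl ?_)
  · rw [eb]
    have g := SerA.gib (a := 1 + v) (by linarith) one_pos
    rw [log_one] at g
    have k1 : v * (1 + ω) ≤ (1 + v) * binEntropy b := by
      have : (1 + v) * binEntropy b = b * (1 + v) * ω + (1 + v) * log (1 + v) := by
        rw [hbv]
        ring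
      rw [this, bv]
      linarith
    have k2 := mul_le_mul_of_nonneg_left k1 (mul_pos ρ0 D0).le
    refine le_of_mul_le_mul_left ?_ (mul_pos ρ0 (show 0 < 1 + v by linarith))
    have e : (1 - 2 * ε) * (1 + v) * (τ * Bf (kap ε) (cc ε) W) =
        Bf (kap ε) (cc ε) W * (1 - v) := by
      have : (1 - 2 * ε) * τ * (1 + v) = 1 - v := by
        rw [τρ]
        linarith
      rw [← this]
      ring
    rw [e]
    linarith
  · rw [eb]
    have k1 := hb.2.2.2.2.2.2.1 ((1 - τ) / 2) b (by linarith) (by linarith) (by linarith)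
      (by linarith)
    have k2 : Xe ((1 - τ) / 2) b = binEntropy b - ε * τ * ω := by
      have : b = (1 - τ) / 2 + ε * τ := by linarith
      rw [hbv, Xe, l1, l2]
      nth_rewrite 1 [this]
      ring
    have k3 := mul_le_mul_of_nonneg_left hg τ0.le
    have k4 := mul_le_mul_of_nonneg_left (show ε * τ * ω ≤ binEntropy b - binEntropy ((1 - τ) / 2)
      by linarith) D0.le
    linarith

theorem basic {ε : ℝ} (e0 : 0 < ε) (e1 : ε ≤ 1 / 2 ^ 14) :
    97 / 10 ≤ -log ε ∧ ε * -log ε ≤ 6 / 10000 ∧ binEntropy ε ≤ ε * (-log ε + 1) ∧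
      cc ε ≤ ε * (-log ε - 177 / 100) ∧ ε * (-log ε - 1773 / 1000) ≤ cc ε := by
  have t1 := log_two_gt_d9
  have t2 := log_two_lt_d9
  have a1 : log ε ≤ log (1 / 2 ^ 14) := log_le_log e0 e1
  rw [one_div, log_inv, log_pow] at a1
  push_cast at a1
  have a2 := SerA.gib e0.le (show (0 : ℝ) < 1 / 2 ^ 14 by positivity)
  rw [one_div, log_inv, log_pow] at a2
  push_cast at a2
  have a3 := h_lo (x := ε) (by linarith)
  have a4 := h_hi (x := ε) (by linarith)
  have a5 := mul_le_mul_of_nonneg_left t2.le e0.le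
  have a6 := mul_le_mul_of_nonneg_left t1.le (mul_nonneg e0.le (show 0 ≤ 1 - ε by linarith))
  have a7 := mul_le_mul_of_nonneg_left t2.le (mul_nonneg e0.le (show 0 ≤ 1 - ε by linarith))
  have a8 := mul_le_mul_of_nonneg_left e1 e0.le
  have a9 := mul_pos e0 e0
  refine ⟨by linarith, by linarith, by linarith, ?_, ?_⟩ <;> unfold cc kap <;> linarith

theorem lowZ (hs : SerStmt) (hb : BrStmt) (h0 : S0) {ε W r : ℝ} (hd : Dom ε W r)
    (e1 : ε ≤ 1 / 2 ^ 14) (hW : W ≤ ε ^ 2) : CA ε W r := by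
  have hd' := hd
  obtain ⟨e0, e2, W0, W1, r0, r1, P1⟩ := hd'
  obtain ⟨L0, L1, hh, c1, -⟩ := basic e0 e1
  have c0 := hb.2.2.2.2.2.1 ε e0.le e2.le
  have ρ0 : 0 < (1 - 2 * ε) ^ 2 := pow_pos (by linarith) 2
  have s1 : ε ^ 2 ≤ 1 / 10 ^ 8 := by nlinarith
  have s0 : 0 < ε ^ 2 := by positivity
  obtain ⟨t, ht⟩ : ∃ t, t = cc ε / (1 - 2 * ε) ^ 2 := ⟨_, rfl⟩
  have tρ : t * (1 - 2 * ε) ^ 2 = cc ε := by rw [ht, div_mul_cancel₀ _ ρ0.ne']
  have t0 : 0 ≤ t := ht ▸ div_nonneg c0 ρ0.le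
  have ec : cc ε = (1 - 2 * ε) ^ 2 * log 2 - (log 2 - binEntropy ε) := by
    unfold cc kap
    ring
  refine h0 ⟨ε, ε, 0, ε ^ 2, 0, 1⟩ ⟨e0, le_rfl, e2.le, le_rfl, s0.le, by simp only; linarith,
    le_rfl, zero_le_one, le_rfl⟩ (log 2 - 1 / 2 - t) ⟨⟨?_, Or.inr ⟨e2, ?_⟩⟩, by simp only; linarith,
    ?_⟩ ε W r hd le_rfl le_rfl W0.le hW r0.le r1
  · have k1 := hs.1 (1 - 2 * ε) (by linarith) (by linarith)
    rw [hb.2.2.2.1] at k1
    have k2 : 0 ≤ (1 - 2 * ε) ^ 4 := by positivity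
    refine le_of_mul_le_mul_right ?_ ρ0
    linarith
  · simp only
    linarith
  · simp only
    have x1 : (1 - ε ^ 2) ^ 2 - (ε ^ 2 * 1) ^ 2 = 1 - 2 * ε ^ 2 := by ring
    have x2 : log 2 - 1 / 2 - (log 2 - 1 / 2 - t) = t := by ring
    have x3 : Hb (ε ^ 2) 1 = binEntropy (2 * ε ^ 2) / 2 := by
      unfold Hb
      rw [sub_self, mul_zero, binEntropy_zero, add_zero, one_add_one_eq_two, mul_comm]
    rw [x1, x2, x3]
    have k1 := h_lo (x := 2 * ε ^ 2) (by linarith)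
    rw [log_mul two_ne_zero s0.ne', log_pow] at k1
    push_cast at k1
    have k2 : -log (1 - 2 * ε ^ 2) ≤ 2 * ε ^ 2 * (1 + ε) := by
      have g := SerA.gib (a := 1 - 2 * ε ^ 2) (by linarith) one_pos
      rw [log_one] at g
      by_contra hh
      have := mul_lt_mul_of_pos_left (not_le.1 hh) (show 0 < 1 - 2 * ε ^ 2 by linarith)
      have m : 0 ≤ ε - 2 * ε ^ 2 * (1 + ε) := by nlinarith
      have := mul_nonneg s0.le m
      linarith
    generalize -log (1 - 2 * ε ^ 2) = M at k2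
    generalize hL : -log ε = L at *
    have eL : log ε = -L := by linarith
    rw [eL] at k1
    have t1 : t ≤ ε * (L - 17 / 10) := by
      have m0 : 1 ≤ (1 - 2 * ε) ^ 2 * (1 + 5 * ε) := by nlinarith
      have m1 := mul_le_mul_of_nonneg_left m0 t0
      have m2 := mul_le_mul_of_nonneg_right c1 (show 0 ≤ 1 + 5 * ε by linarith)
      have m3 := mul_le_mul_of_nonneg_left L1 e0.le
      rw [← mul_assoc, tρ] at m1
      linarith
    have t2 : t ≤ 7 / 10000 := by linarith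
    have k3 : ε ^ 2 * (2 * L) ≤ binEntropy (2 * ε ^ 2) / 2 - 4 * t * ε ^ 2 * (1 - 0) := by
      have m1 := mul_le_mul_of_nonneg_left t2 s0.le
      have m2 := mul_le_mul_of_nonneg_left log_two_lt_d9.le s0.le
      have m3 := mul_le_mul_of_nonneg_left s1 s0.le
      linarith
    have k4 : kap ε * (ε ^ 2 * (2 * L)) ≤
        kap ε * (binEntropy (2 * ε ^ 2) / 2 - 4 * t * ε ^ 2 * (1 - 0)) :=
      mul_le_mul_of_nonneg_left k3 (by unfold kap; nlinarith)
    have k5 := mul_le_mul_of_nonneg_left k2 t0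
    have k6 := mul_le_mul_of_nonneg_right t1 (show 0 ≤ 2 * ε ^ 2 * (1 + ε) by positivity)
    refine le_trans ?_ k4
    have k7 : 0 ≤ ε * ε ^ 2 := by positivity
    have k8 := mul_le_mul_of_nonneg_left L1 k7
    have k9 : 0 ≤ ε * ε ^ 2 * ε := by positivity
    unfold kap
    linarith

theorem lowK (h3 : S3) {ε W r : ℝ} (hd : Dom ε W r)
    (e1 : ε ≤ 1 / 2 ^ 14) (hD : 7 / 10 ≤ 2 * W * r) : CA ε W r := by
  have hd' := hd
  obtain ⟨e0, e2, W0, W1, r0, r1, P1⟩ := hd'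
  obtain ⟨L0, L1, hh, -, c1⟩ := basic e0 e1
  have s0 := mul_pos e0 e0
  have s1 := mul_le_mul_of_nonneg_left e1 e0.le
  refine h3 ⟨ε, ε, W, W, r, r⟩ ⟨e0, le_rfl, e2.le, W0.le, le_rfl, W1, r0.le, le_rfl, r1⟩
    (5 / 4 * ε) (54 / 100 * ε) (3 / 10) ⟨by simp only; linarith, by norm_num, by norm_num,
      by positivity, by linarith, by simp only; linarith, ?_, ?_, ?_⟩ ε W r hd
      le_rfl le_rfl le_rfl le_rfl le_rfl le_rfl
  · simp only
    have x1 : ε + 54 / 100 * ε = 154 / 100 * ε := by ring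
    rw [x1, log_mul (by norm_num) e0.ne']
    have k1 := log_le_sub_one_of_pos (show (0 : ℝ) < 154 / 100 by norm_num)
    have k2 : -(1 / 1000) ≤ log (1 - 154 / 100 * ε) := by
      have g := SerA.gib (a := 1 - 154 / 100 * ε) (by linarith) one_pos
      rw [log_one] at g
      by_contra hh
      have := mul_lt_mul_of_pos_left (not_le.1 hh) (show 0 < 1 - 154 / 100 * ε by linarith)
      linarith
    have k3 : -log ε - 541 / 1000 ≤ log (1 - 154 / 100 * ε) - (log (154 / 100) + log ε) := by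
      linarith
    have k4 := mul_le_mul_of_nonneg_left k3
      (show 0 ≤ 5 / 4 * ε * (1 - 2 * ε) from mul_nonneg (by positivity) (by linarith))
    have k5 := mul_nonneg (binEntropy_nonneg e0.le (by linarith)) e0.le
    have k6 := mul_le_mul_of_nonneg_left L1 e0.le
    have k7 := mul_le_mul_of_nonneg_left L0 e0.le
    linarith
  · simp only
    unfold kap
    have := mul_pos s0 e0
    linarith
  · simp only
    rw [log_mul (by norm_num) e0.ne']
    have k1 : 1 / 5 ≤ log (5 / 4) := by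
      have := one_sub_inv_le_log_of_pos (show (0 : ℝ) < 5 / 4 by norm_num)
      linarith
    have k2 : 1 ≤ -log (3 / 10) := by
      have a := one_sub_inv_le_log_of_pos (show (0 : ℝ) < 5 / 3 by norm_num)
      have b := log_mul (x := (3 / 10 : ℝ)) (y := 5 / 3) (by norm_num) (by norm_num)
      have c : log (3 / 10 * (5 / 3)) = -log 2 := by
        rw [← log_inv]
        norm_num
      linarith [log_two_gt_d9]
    have k3 : -log (3 / 10) ≤ 3 := by
      have := one_sub_inv_le_log_of_pos (show (0 : ℝ) < 3 / 10 by norm_num)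
      linarith
    obtain ⟨l, hl⟩ : ∃ l, log (3 / 10) = -l := ⟨-log (3 / 10), by ring⟩
    rw [hl, neg_neg] at k2 k3 ⊢
    have hc : ε * (-log ε - 1773 / 1000) ≤ binEntropy ε - kap ε * log 2 := c1
    have hk : 3999 / 1000 * ε ≤ kap ε := by
      unfold kap
      linarith
    have m1 := mul_le_mul_of_nonneg_right hk (show 0 ≤ l + 1 - 3 / 10 by linarith)
    have m2 : ε * (19995 / 10000 * (l + 7 / 10) + 14 / 10 * (-log ε - 1773 / 1000)) ≤
        kap ε * (l + 1 - 3 / 10) / 2 + 2 * (binEntropy ε - kap ε * log 2) * (1 - 3 / 10) := by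
      linarith
    have m3 := mul_le_mul_of_nonneg_left m2 (show 0 ≤ 1 - 2 * (54 / 100 * ε) by linarith)
    refine le_trans ?_ m3
    have n1 := mul_le_mul_of_nonneg_left k1 e0.le
    have n2 := mul_le_mul_of_nonneg_left k2 e0.le
    have n3 := mul_le_mul_of_nonneg_left k3 s0.le
    have n4 := mul_le_mul_of_nonneg_left L1 e0.le
    have n5 := mul_le_mul_of_nonneg_left L0 e0.le
    linarith

theorem gap_le (hs : SerStmt) (hb : BrStmt) {ε W r : ℝ} (hd : Dom ε W r) (e1 : ε ≤ 1 / 2 ^ 14) :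
    Bf (kap ε) (cc ε) W - Bb ε W r ≤
      ε * (2 * W * r) * (2 * log 2 * (r / (1 - W)) + (-log ε - 177 / 100) * (2 * W * r)) := by
  rw [gap hb hd]
  obtain ⟨e0, e2, W0, W1, r0, r1, P1⟩ := hd
  obtain ⟨L0, L1, hh, c1, -⟩ := basic e0 e1
  have V0 : 0 < 1 - W := by linarith
  have h1 := Jle hs hb W0 W1 r0 r1
  have l0 : 0 ≤ log 2 - 1 / 2 := by linarith [log_two_gt_d9]
  have h2 := mul_le_mul_of_nonneg_left (show r ^ 2 ≤ 1 by nlinarith)
    (mul_nonneg l0 (show 0 ≤ W * r ^ 2 by positivity))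
  generalize W * Ph r + (1 - W) * Ph (W * r / (1 - W)) = J at h1 ⊢
  have h3 : J ≤ log 2 * (W * r) * (r / (1 - W)) := by
    rw [← mul_div_assoc, le_div_iff₀ V0]
    linarith
  have h4 : 0 ≤ log 2 * (W * r) * (r / (1 - W)) := by
    have := log_two_gt_d9
    positivity
  have k0 : 0 ≤ kap ε := by
    unfold kap
    nlinarith
  have k1 : kap ε ≤ 4 * ε := by
    unfold kap
    nlinarith
  have h5 := mul_le_mul_of_nonneg_left h3 k0
  have h6 := mul_le_mul_of_nonneg_right k1 h4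
  have h7 := mul_le_mul_of_nonneg_right c1 (sq_nonneg (2 * W * r))
  linarith

theorem B_le (hb : BrStmt) {ε W : ℝ} (e0 : 0 < ε) (e2 : ε < 1 / 2) :
    Bf (kap ε) (cc ε) W ≤ binEntropy ε := by
  have c0 := hb.2.2.2.2.2.1 ε e0.le e2.le
  have k0 : 0 ≤ kap ε := by
    unfold kap
    nlinarith
  have h1 := mul_le_mul_of_nonneg_left (binEntropy_le_log_two (p := W)) k0
  have h2 := mul_nonneg c0 (sq_nonneg (1 - 2 * W))
  have h3 : cc ε = binEntropy ε - kap ε * log 2 := rfl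
  unfold Bf
  linarith

theorem B_nonneg (hb : BrStmt) {ε W : ℝ} (e0 : 0 < ε) (e2 : ε < 1 / 2) (W0 : 0 ≤ W)
    (W1 : W ≤ 1) : 0 ≤ Bf (kap ε) (cc ε) W := by
  have c0 := hb.2.2.2.2.2.1 ε e0.le e2.le
  have k0 : 0 ≤ kap ε := by
    unfold kap
    nlinarith
  have := binEntropy_nonneg W0 W1
  have := sub_nonneg.2 W1
  unfold Bf
  positivity

theorem v_big {ε ω : ℝ} (e0 : 0 < ε) (h : ω < -log ε - log 2) : 2 * ε < exp (-ω) := by
  rw [← exp_log (show 0 < 2 * ε by positivity), log_mul two_ne_zero e0.ne']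
  exact exp_lt_exp.2 (by linarith)

theorem lowA (hs : SerStmt) (hb : BrStmt) (h2 : C2Stmt) {ε W r : ℝ} (hd : Dom ε W r)
    (e1 : ε ≤ 1 / 2 ^ 14) (D0 : 1 / 10 ≤ 2 * W * r) (D1 : 2 * W * r ≤ 7 / 10) : CA ε W r := by
  have hg := gap_le hs hb hd e1
  have hd' := hd
  obtain ⟨e0, e2, W0, W1, r0, r1, P1⟩ := hd'
  obtain ⟨L0, L1, hh, c1, -⟩ := basic e0 e1
  have t1 := log_two_gt_d9
  have t2 := log_two_lt_d9
  have q : r / (1 - W) ≤ 2 := by
    rw [div_le_iff₀ (by linarith)]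
    linarith
  have q2 := mul_le_mul_of_nonneg_left q (show 0 ≤ log 2 by linarith)
  generalize hD : 2 * W * r = D at *
  generalize hL : -log ε = L at *
  have p1 := mul_le_mul_of_nonneg_left D1 (show 0 ≤ L - 177 / 100 by linarith)
  have p0 := mul_le_mul_of_nonneg_left D0 (show 0 ≤ L - 177 / 100 by linarith)
  have Dp : 0 < D := by linarith
  refine tilt hb h2 (ω := 2773 / 1000 + (L - 177 / 100) * D) hd (by linarith)
    (v_big e0 (by linarith)) ?_ ?_
  · rw [hD]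
    exact hg.trans (mul_le_mul_of_nonneg_left (by linarith) (by positivity))
  rw [hD]
  have key : ε ≤ (1 - 2 * ε) * D ^ 2 * exp (-(2773 / 1000 + (L - 177 / 100) * D)) := by
    have ρ0 : 0 < 1 - 2 * ε := by linarith
    have k2 : -(1 / 1000) ≤ log (1 - 2 * ε) := by
      have g := SerA.gib ρ0.le one_pos
      rw [log_one] at g
      by_contra hh
      have := mul_lt_mul_of_pos_left (not_le.1 hh) ρ0
      linarith
    have k3 : 0 ≤ 97 / 10 * (1 - D) - 2774 / 1000 + 177 / 100 * D + 2 * log D := by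
      rcases le_total D (4 / 10) with h | h
      · have g := SerA.gib (a := 4 * D) (by linarith) one_pos
        have e : (4 : ℝ) = 2 ^ 2 := by norm_num
        rw [log_one, log_mul (by norm_num) Dp.ne', e, log_pow] at g
        push_cast at g
        refine le_of_mul_le_mul_left ?_ Dp
        have := mul_le_mul_of_nonneg_left t2.le Dp.le
        have := mul_nonneg (sub_nonneg.2 D0) (sub_nonneg.2 h)
        linarith
      · have g := SerA.gib (a := 2 * D) (by linarith) one_pos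
        rw [log_one, log_mul (by norm_num) Dp.ne'] at g
        refine le_of_mul_le_mul_left ?_ Dp
        have := mul_le_mul_of_nonneg_left t2.le Dp.le
        have := mul_nonneg (sub_nonneg.2 h) (sub_nonneg.2 D1)
        linarith
    have k4 := mul_le_mul_of_nonneg_right L0 (show 0 ≤ 1 - D by linarith)
    rw [← log_le_log_iff e0 (by positivity), log_mul (by positivity) (exp_pos _).ne', log_exp,
      log_mul ρ0.ne' (by positivity), log_pow]
    push_cast
    linarith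
  have b0 := B_nonneg hb e0 e2 W0.le (by linarith)
  have b1 := B_le hb (W := W) e0 e2
  have v0 := exp_pos (-(2773 / 1000 + (L - 177 / 100) * D))
  generalize exp (-(2773 / 1000 + (L - 177 / 100) * D)) = v at *
  have m1 := mul_pos_iff.2 (Or.inl ⟨v0, Dp⟩)
  have m2 := mul_nonneg b0 v0.le
  have m3 := mul_le_mul_of_nonneg_right key (show 0 ≤ L + 1 by linarith)
  have m4 := mul_le_mul_of_nonneg_left
    (show D * (L + 1) ≤ 1 + (2773 / 1000 + (L - 177 / 100) * D) by linarith)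
    (mul_nonneg (show 0 ≤ 1 - 2 * ε by linarith) m1.le)
  linarith

theorem lowB (hs : SerStmt) (hb : BrStmt) (h2 : C2Stmt) {ε W r : ℝ} (hd : Dom ε W r)
    (e1 : ε ≤ 1 / 2 ^ 14) (hW : ε ^ 2 ≤ W) (D1 : 2 * W * r ≤ 1 / 10) : CA ε W r := by
  have hg := gap_le hs hb hd e1
  have hd' := hd
  obtain ⟨e0, e2, W0, W1, r0, r1, P1⟩ := hd'
  obtain ⟨L0, L1, hh, c1, -⟩ := basic e0 e1
  have t1 := log_two_gt_d9
  have t2 := log_two_lt_d9
  have V0 : 0 < 1 - W := by linarith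
  have q0 : 0 < r / (1 - W) := div_pos r0 V0
  have q : r / (1 - W) ≤ 2 := by
    rw [div_le_iff₀ V0]
    linarith
  have q1 : r / (1 - W) * (1 - W) = r := div_mul_cancel₀ _ V0.ne'
  have q3 : r / (1 - W) ≤ 2 * r := by
    rw [div_le_iff₀ V0]
    nlinarith
  have q2 := mul_le_mul_of_nonneg_left q (show 0 ≤ log 2 by linarith)
  have Dp : 0 < 2 * W * r := by positivity
  have lW : -log W ≤ 2 * -log ε := by
    have := log_le_log (by positivity) hW
    rw [log_pow] at this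
    push_cast at this
    linarith
  have hW1 := h_hi (x := W) (by linarith)
  have hW2 := mul_le_mul_of_nonneg_left lW W0.le
  have b0 := B_nonneg hb e0 e2 W0.le (by linarith)
  have b1 := B_le hb (W := W) e0 e2
  have hL : log ε = -(-log ε) := by ring
  generalize -log ε = L at *
  have bq : Bf (kap ε) (cc ε) W * (r / (1 - W)) ≤ W * r * (ε * (20 * L + 1)) := by
    have k1 : kap ε ≤ 4 * ε := by
      unfold kap
      nlinarith
    have h0 := binEntropy_nonneg W0.le (show W ≤ 1 by linarith)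
    have a1 : kap ε * binEntropy W * (r / (1 - W)) ≤ 4 * ε * (W * (2 * L + 1)) * (2 * r) := by
      have : binEntropy W ≤ W * (2 * L + 1) := by linarith
      have : 0 ≤ L := by linarith
      gcongr
    have a2 := mul_le_mul_of_nonneg_right c1 (mul_pos W0 r0).le
    have a3 : Bf (kap ε) (cc ε) W * (r / (1 - W)) =
        kap ε * binEntropy W * (r / (1 - W)) + 4 * cc ε * (W * (r / (1 - W) * (1 - W))) := by
      unfold Bf
      ring
    have a4 : 0 ≤ ε * (W * r) := by positivity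
    rw [a3, q1]
    linarith
  generalize r / (1 - W) = g at *
  have p1 := mul_le_mul_of_nonneg_left D1 (show 0 ≤ L - 177 / 100 by linarith)
  have p0 := mul_pos (show 0 < L - 177 / 100 by linarith) Dp
  have p2 := mul_pos (show 0 < log 2 by linarith) q0
  obtain ⟨ω, hω⟩ : ∃ ω, ω = 2 * log 2 * g + (L - 177 / 100) * (2 * W * r) := ⟨_, rfl⟩
  rw [← hω] at hg
  have ω0 : 0 < ω := by linarith
  have ω1 : ω ≤ 26 / 10 + L / 10 := by linarith
  refine tilt hb h2 hd ω0 (v_big e0 (by linarith)) hg ?_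
  have x1 : 1 - exp (-ω) ≤ ω := by linarith [add_one_le_exp (-ω)]
  have x2 : Bf (kap ε) (cc ε) W * ω ≤ 2 * W * r * (ε * (L ^ 2 + 14 * L)) := by
    have a1 := mul_le_mul_of_nonneg_left bq (show 0 ≤ log 2 by linarith)
    have a2 := mul_le_mul_of_nonneg_right (b1.trans hh) p0.le
    have a3 : 0 ≤ W * r * ε := by positivity
    have a4 := mul_le_mul_of_nonneg_left L0 a3
    have a5 := mul_le_mul_of_nonneg_right t2.le
      (show 0 ≤ W * r * (ε * (20 * L + 1)) from mul_nonneg (by positivity)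
        (mul_nonneg e0.le (by linarith)))
    rw [hω]
    linarith
  have x3 : ε * (L ^ 2 + 14 * L) ≤ (1 - 2 * ε) * exp (-ω) := by
    have a1 : exp (-ω) = ε * exp (L - ω) := by
      rw [← exp_log e0, hL, ← exp_add]
      congr 1
      ring
    have a2 : exp 6 * exp (9 / 10 * (L - 97 / 10)) ≤ exp (L - ω) := by
      rw [← exp_add]
      exact exp_le_exp.2 (by linarith)
    have a3 : 400 ≤ exp 6 := by
      have := pow_le_pow_left₀ (by norm_num) exp_one_gt_d9.le 6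
      rw [← exp_nat_mul] at this
      norm_num at this ⊢
      linarith
    have a4 := quadratic_le_exp_of_nonneg (show 0 ≤ 9 / 10 * (L - 97 / 10) by linarith)
    have a5 := mul_le_mul_of_nonneg_right a3 (exp_pos (9 / 10 * (L - 97 / 10))).le
    have a6 : 2 * (L ^ 2 + 14 * L) ≤ exp (L - ω) + 100 * 0 + (L ^ 2 + 14 * L) / 2 := by
      nlinarith [sq_nonneg (L - 97 / 10)]
    have a7 := mul_le_mul_of_nonneg_left (show 2 * ε ≤ 1 / 3 by linarith) (exp_pos (L - ω)).le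
    have a8 : L ^ 2 + 14 * L ≤ (1 - 2 * ε) * exp (L - ω) := by linarith
    have := mul_le_mul_of_nonneg_left a8 e0.le
    rw [a1]
    linarith
  have x4 := mul_le_mul_of_nonneg_left x1 b0
  have x5 := mul_le_mul_of_nonneg_left x3 Dp.le
  have x6 : 0 ≤ (1 - 2 * ε) * (2 * W * r) * (exp (-ω) * ω) :=
    mul_nonneg (mul_nonneg (by linarith) Dp.le) (mul_nonneg (exp_pos _).le ω0.le)
  linarith

end Vale.Agent.P322.S4A

namespace Vale.Agent.P322

open Real S4A

theorem low (hs : SerStmt) (hb : BrStmt) (h2 : C2Stmt) (h0 : S0) (h3 : S3) : LowStmt := by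
  intro ε W r hd e1
  rcases le_total W (ε ^ 2) with h | h
  · exact lowZ hs hb h0 hd e1 h
  rcases le_total (7 / 10) (2 * W * r) with h' | h'
  · exact lowK h3 hd e1 h'
  rcases le_total (1 / 10) (2 * W * r) with h'' | h''
  · exact lowA hs hb h2 hd e1 h'' h'
  · exact lowB hs hb h2 hd e1 h h''

theorem S4A.s4a (hs : SerStmt) (hb : BrStmt) {c : Cell} (hc : c.OK) {m : ℝ} (hl : Leaf4 c m)
    {ε W r : ℝ} (hd : Dom ε W r) (h1 : c.e1 ≤ ε) (h3 : ε ≤ c.e2) (h4 : c.W1 ≤ W) (h5 : W ≤ c.W2)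
    (h7 : r ≤ c.r2) {τ : ℝ} (hτ : τ = 2 * r / m) :
    τ * Bf (kap ε) (cc ε) W ≤ 2 * W * r * binEntropy ((1 - (1 - 2 * ε) * τ) / 2) := by
  obtain ⟨E0, E12, E2, -, W12, W2, R0, R12, R2⟩ := hc
  obtain ⟨W10, hm, ha, hb'⟩ := hl
  have hd' := hd
  obtain ⟨e0, e1, W0, W1, r0, r1, P1⟩ := hd'
  have m0 : 0 < m := by linarith
  have t1 := log_two_gt_d9
  have l0 : 0 ≤ log 2 := by linarith
  have c0 := hb.2.2.2.2.2.1 ε e0.le e1.le
  have k1 := kap_mono h1 e1.le
  have k2 := kap_mono h3 E2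
  have k0 : 0 < kap c.e1 := by
    unfold kap
    nlinarith
  have cx : cc ε ≤ binEntropy c.e2 - kap c.e1 * log 2 := by
    have := h_mono e0.le h3 E2
    have := mul_le_mul_of_nonneg_right k1 l0
    unfold cc
    linarith
  generalize binEntropy c.e2 - kap c.e1 * log 2 = χ at *
  have χ0 := c0.trans cx
  have τm : τ * m = 2 * r := by rw [hτ, div_mul_cancel₀ _ m0.ne']
  have τ0 : 0 < τ := hτ ▸ by positivity
  have τ1 : τ < 1 := hτ ▸ (div_lt_one m0).2 (by linarith)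
  have rr : r ^ 2 ≤ c.r2 ^ 2 := pow_le_pow_left₀ r0.le h7 2
  have ρ0 : 0 ≤ 1 - 2 * ε := by linarith
  have ρ1 : 1 - 2 * ε ≤ 1 := by linarith
  clear hb'
  rw [h_Ph]
  have a1 := hs.2.1 ((1 - 2 * ε) * τ) 1 (by positivity) (by nlinarith) zero_le_one le_rfl
  rw [mul_one, hb.2.2.2.2.1] at a1
  have a2 : ((1 - 2 * ε) * τ) ^ 2 ≤ τ ^ 2 := pow_le_pow_left₀ (by positivity) (by nlinarith) 2
  have a3 := mul_le_mul_of_nonneg_right a2 l0
  have a4 : c.W1 * Bf (kap ε) (cc ε) W ≤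
      W * (kap c.e2 * binEntropy c.W1 + 4 * χ * (c.W1 * (1 - c.W1))) := by
    have b1 := mul_le_mul_of_nonneg_left (h_ratio W10 h4 (by linarith)) (k0.le.trans k1)
    have b2 := mul_le_mul_of_nonneg_right k2
      (mul_nonneg W0.le (binEntropy_nonneg W10.le (by linarith)))
    have b3 : cc ε * (1 - W) ≤ χ * (1 - c.W1) :=
      mul_le_mul cx (by linarith) (by linarith) χ0
    have b4 := mul_le_mul_of_nonneg_left b3 (mul_pos W0 W10).le
    unfold Bf
    linarith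
  have a5 : m * Bf (kap ε) (cc ε) W ≤ W * (log 2 * (m ^ 2 - 4 * r ^ 2)) := by
    refine le_of_mul_le_mul_left ?_ W10
    have b1 := mul_le_mul_of_nonneg_left a4 m0.le
    have b2 := mul_le_mul_of_nonneg_left ha W0.le
    have b3 := mul_le_mul_of_nonneg_left rr (mul_nonneg (mul_pos W0 W10).le l0)
    linarith
  have a6 : τ * Bf (kap ε) (cc ε) W ≤ 2 * W * r * (log 2 - τ ^ 2 * log 2) := by
    refine le_of_mul_le_mul_left ?_ m0
    have b1 := mul_le_mul_of_nonneg_left a5 τ0.le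
    have e : r = τ * m / 2 := by linarith
    have e2 : m * (2 * W * r * (log 2 - τ ^ 2 * log 2)) =
        τ * (W * (log 2 * (m ^ 2 - 4 * r ^ 2))) := by
      rw [e]
      ring
    linarith
  exact a6.trans (mul_le_mul_of_nonneg_left (by linarith) (by positivity))

theorem S4A.alg {k k1 u χ m W W2 r r2 l J τ : ℝ} (k0 : 0 < k1) (hk : k1 ≤ k) (cx : u ≤ χ)
    (χ0 : 0 ≤ χ) (m0 : 0 < m) (W0 : 0 < W) (h5 : W ≤ W2) (W1 : W2 ≤ 1 / 2) (l1 : 0 ≤ l)
    (rr : r ^ 2 ≤ r2 ^ 2) (τ0 : 0 < τ) (τm : τ * m = 2 * r)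
    (hb' : 8 * m * (1 - W2) * χ * W2 ≤ k1 * (4 * (1 - W2) - m * (1 + 2 * l * r2 ^ 2)))
    (j1 : (1 - W) * J ≤ (1 / 2 + l * r ^ 2) * (W * r ^ 2)) :
    τ * (k * J + u * (2 * W * r) ^ 2) ≤ 2 * W * r * (k * (τ ^ 2 / 2)) := by
  have V0 : 0 < 1 - W := by linarith
  have kk := k0.le.trans hk
  have T0 : 0 ≤ 4 * (1 - W2) - m * (1 + 2 * l * r2 ^ 2) := by
    by_contra hh
    have b1 := mul_neg_of_pos_of_neg k0 (not_le.1 hh)
    have b2 : 0 ≤ 8 * m * (1 - W2) * χ * W2 := by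
      have : 0 ≤ 1 - W2 := by linarith
      have : 0 ≤ W2 := by linarith
      positivity
    linarith
  have T1 : 4 * (1 - W2) - m * (1 + 2 * l * r2 ^ 2) ≤ 4 * (1 - W) - m * (1 + 2 * l * r ^ 2) := by
    have := mul_le_mul_of_nonneg_left rr (mul_nonneg m0.le l1)
    linarith
  have T2 := mul_le_mul hk T1 T0 kk
  have T3 : u * (W * (1 - W)) ≤ χ * (W2 * (1 - W2)) :=
    mul_le_mul cx (by nlinarith) (mul_pos W0 V0).le χ0
  have T4 := mul_le_mul_of_nonneg_left T3 m0.le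
  have T5 : 8 * m * (u * (W * (1 - W))) ≤ k * (4 * (1 - W) - m * (1 + 2 * l * r ^ 2)) := by
    linarith only [T2, T4, hb']
  have T6 := mul_le_mul_of_nonneg_left T5 (show 0 ≤ W * r ^ 2 by positivity)
  have T7 := mul_le_mul_of_nonneg_left j1 (mul_nonneg m0.le kk)
  have T8 : m * (k * J + u * (2 * W * r) ^ 2) ≤ 2 * k * (W * r ^ 2) := by
    refine le_of_mul_le_mul_left ?_ V0
    linarith only [T6, T7]
  refine le_of_mul_le_mul_left ?_ m0
  have T9 := mul_le_mul_of_nonneg_left T8 τ0.le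
  have e2 : m * (2 * W * r * (k * (τ ^ 2 / 2))) = τ * (W * r * k * (τ * m)) := by ring
  rw [e2, τm]
  linarith only [T9]

theorem S4A.s4b (hs : SerStmt) (hb : BrStmt) {c : Cell} (hc : c.OK) {m : ℝ} (hl : Leaf4 c m)
    {ε W r : ℝ} (hd : Dom ε W r) (h1 : c.e1 ≤ ε) (h3 : ε ≤ c.e2) (h4 : c.W1 ≤ W) (h5 : W ≤ c.W2)
    (h7 : r ≤ c.r2) {τ : ℝ} (hτ : τ = 2 * r / m) :
    τ * (Bf (kap ε) (cc ε) W - Bb ε W r) ≤
      2 * W * r * (binEntropy ((1 - (1 - 2 * ε) * τ) / 2) - binEntropy ((1 - τ) / 2)) := by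
  obtain ⟨E0, E12, E2, -, W12, W2, R0, R12, R2⟩ := hc
  obtain ⟨W10, hm, ha, hb'⟩ := hl
  have hgap := gap hb hd
  have hd' := hd
  obtain ⟨e0, e1, W0, W1, r0, r1, P1⟩ := hd'
  have m0 : 0 < m := by linarith
  have t1 := log_two_gt_d9
  have l0 : 0 ≤ log 2 := by linarith
  have c0 := hb.2.2.2.2.2.1 ε e0.le e1.le
  have k1 := kap_mono h1 e1.le
  have k2 := kap_mono h3 E2
  have k0 : 0 < kap c.e1 := by
    unfold kap
    nlinarith
  have cx : cc ε ≤ binEntropy c.e2 - kap c.e1 * log 2 := by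
    have := h_mono e0.le h3 E2
    have := mul_le_mul_of_nonneg_right k1 l0
    unfold cc
    linarith
  generalize binEntropy c.e2 - kap c.e1 * log 2 = χ at *
  have χ0 := c0.trans cx
  have τm : τ * m = 2 * r := by rw [hτ, div_mul_cancel₀ _ m0.ne']
  have τ0 : 0 < τ := hτ ▸ by positivity
  have τ1 : τ < 1 := hτ ▸ (div_lt_one m0).2 (by linarith)
  have rr : r ^ 2 ≤ c.r2 ^ 2 := pow_le_pow_left₀ r0.le h7 2
  have ρ0 : 0 ≤ 1 - 2 * ε := by linarith
  have ρ1 : 1 - 2 * ε ≤ 1 := by linarith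
  clear ha
  rw [h_Ph, h_Ph, hgap]
  have a1 := hs.2.1 (1 - 2 * ε) τ ρ0 ρ1 τ0.le τ1.le
  have a2 := hs.1 τ τ0.le τ1.le
  have a3 : 0 ≤ τ ^ 4 := by positivity
  have ek : kap ε = 1 - (1 - 2 * ε) ^ 2 := by
    unfold kap
    ring
  have kk := k0.le.trans k1
  have a4 := mul_le_mul_of_nonneg_left (show τ ^ 2 / 2 ≤ Ph τ by linarith) kk
  have a5 : kap ε * (τ ^ 2 / 2) ≤ log 2 - Ph ((1 - 2 * ε) * τ) - (log 2 - Ph τ) := by
    rw [ek] at a4 ⊢
    linarith
  refine le_trans ?_ (mul_le_mul_of_nonneg_left a5 (by positivity))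
  have j1 := Jle hs hb W0 W1 r0 r1
  exact alg k0 k1 cx χ0 m0 W0 h5 W2 (by linarith) rr τ0 τm hb' j1

theorem s4 (hs : SerStmt) (hb : BrStmt) (h2 : C2Stmt) : S4 := by
  intro c hc m hl ε W r hd h1 h3 h4 h5 _ h7
  have r0 : 0 < r := hd.2.2.2.2.1
  have hm : 2 * c.r2 < m := hl.2.1
  have m0 : 0 < m := by linarith
  exact h2 ε W r (2 * r / m) hd (by positivity) ((div_lt_one m0).2 (by linarith))
    (s4a hs hb hc hl hd h1 h3 h4 h5 h7 rfl) (Or.inl (s4b hs hb hc hl hd h1 h3 h4 h5 h7 rfl))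

end Vale.Agent.P322
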