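import Vale.Agent.P322.CKLeaf

/-! Series facts, chain rule and the reduction to certificates in polar form. -/

namespace Vale.Agent.P322.SerA

open Real Set

theorem ml (x y : ℝ) : x * y * log (x * y) = x * y * log x + x * y * log y := by
  rcases eq_or_ne x 0 with rfl | hx
  · simp
  rcases eq_or_ne y 0 with rfl | hy
  · simp
  rw [log_mul hx hy]
  ring

theorem h_eq (p : ℝ) : binEntropy p = -(p * log p) - (1 - p) * log (1 - p) := by
  simp only [binEntropy, log_inv]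
  ring

theorem Ph_eq (x : ℝ) : Ph x = ((1 + x) * log (1 + x) + (1 - x) * log (1 - x)) / 2 := by
  have h1 := ml (1 / 2) (1 + x)
  have h2 := ml (1 / 2) (1 - x)
  have h3 : log (1 / 2) = -log 2 := by rw [one_div, log_inv]
  have e1 : (1 + x) / 2 = 1 / 2 * (1 + x) := by ring
  have e2 : 1 - 1 / 2 * (1 + x) = 1 / 2 * (1 - x) := by ring
  rw [Ph, h_eq, e1, e2, h1, h2, h3]
  ring

theorem Ph_cont : Continuous Ph := by
  unfold Ph
  exact continuous_const.sub (binEntropy_continuous.comp (by fun_prop))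

noncomputable def co (k : ℕ) : ℝ := 1 / (2 * k + 1) - 1 / (2 * k + 2)

theorem co_nonneg (k : ℕ) : 0 ≤ co k :=
  sub_nonneg.2 (one_div_le_one_div_of_le (by positivity) (by linarith))

theorem hs {x : ℝ} (h0 : 0 ≤ x) (h1 : x < 1) :
    HasSum (fun k : ℕ => co k * x ^ (2 * k + 2)) (Ph x) := by
  have a1 := (hasSum_log_sub_log_of_abs_lt_one (x := x) (by rwa [abs_of_nonneg h0])).mul_left
    (x / 2)
  have a2 := (hasSum_pow_div_log_of_abs_lt_one (x := x ^ 2)
    (by rw [abs_of_nonneg (sq_nonneg x)]; nlinarith)).mul_left (1 / 2)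
  have e : 1 - x ^ 2 = (1 + x) * (1 - x) := by ring
  rw [e, log_mul (by linarith) (by linarith)] at a2
  have e1 : (fun k : ℕ => co k * x ^ (2 * k + 2)) = fun b : ℕ =>
      x / 2 * (2 * (1 / (2 * (b : ℝ) + 1)) * x ^ (2 * b + 1)) -
        1 / 2 * ((x ^ 2) ^ (b + 1) / ((b : ℝ) + 1)) := by
    funext k
    rw [co, ← pow_mul]
    have : 2 * (k + 1) = 2 * k + 2 := by ring
    rw [this]
    field_simp
    ring
  have e2 : Ph x = x / 2 * (log (1 + x) - log (1 - x)) - 1 / 2 * -(log (1 + x) + log (1 - x)) := by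
    rw [Ph_eq]
    ring
  rw [e1, e2]
  exact a1.sub a2

theorem ext {f g : ℝ → ℝ} (hf : Continuous f) (hg : Continuous g) {a x : ℝ} (ha : a < 1)
    (h : ∀ y, a ≤ y → y < 1 → f y ≤ g y) (h0 : a ≤ x) (h1 : x ≤ 1) : f x ≤ g x := by
  have : Ico a 1 ⊆ {y | f y ≤ g y} := fun y hy => h y hy.1 hy.2
  have h2 := (isClosed_le hf hg).closure_subset_iff.2 this
  rw [closure_Ico ha.ne] at h2
  exact h2 ⟨h0, h1⟩

theorem hs1 {x : ℝ} (h0 : 0 ≤ x) (h1 : x < 1) :
    HasSum (fun k : ℕ => co (k + 1) * x ^ (2 * (k + 1) + 2)) (Ph x - x ^ 2 / 2) := by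
  have := (hasSum_nat_add_iff' 1).2 (hs h0 h1)
  have e : Ph x - x ^ 2 / 2 = Ph x - ∑ i ∈ Finset.range 1, co i * x ^ (2 * i + 2) := by
    simp [co]
    ring
  rw [e]
  exact this

theorem hs2 {x : ℝ} (h0 : 0 ≤ x) (h1 : x < 1) :
    HasSum (fun k : ℕ => co (k + 2) * x ^ (2 * (k + 2) + 2)) (Ph x - x ^ 2 / 2 - x ^ 4 / 12) := by
  have := (hasSum_nat_add_iff' 2).2 (hs h0 h1)
  have e : Ph x - x ^ 2 / 2 - x ^ 4 / 12 =
      Ph x - ∑ i ∈ Finset.range 2, co i * x ^ (2 * i + 2) := by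
    simp [co, Finset.sum_range_succ]
    ring
  rw [e]
  exact this

theorem s1 (x : ℝ) (h0 : 0 ≤ x) (h1 : x ≤ 1) : x ^ 2 / 2 + x ^ 4 / 12 ≤ Ph x := by
  refine ext (f := fun x => x ^ 2 / 2 + x ^ 4 / 12) (by fun_prop) Ph_cont one_pos ?_ h0 h1
  intro y y0 y1
  have := (hs2 y0 y1).nonneg fun k => mul_nonneg (co_nonneg _) (by positivity)
  linarith

theorem s2 (s x : ℝ) (s0 : 0 ≤ s) (s1 : s ≤ 1) (h0 : 0 ≤ x) (h1 : x ≤ 1) :
    Ph (s * x) ≤ s ^ 2 * Ph x := by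
  refine ext (f := fun x => Ph (s * x)) (g := fun x => s ^ 2 * Ph x)
    (Ph_cont.comp (by fun_prop)) (continuous_const.mul Ph_cont) one_pos ?_ h0 h1
  intro y y0 y1
  refine hasSum_le (fun k => ?_)
    (hs (mul_nonneg s0 y0) (mul_lt_one_of_nonneg_of_lt_one_right s1 y0 y1))
    ((hs y0 y1).mul_left (s ^ 2))
  have : s ^ (2 * k + 2) ≤ s ^ 2 := pow_le_pow_of_le_one s0 s1 (by omega)
  have h2 := mul_le_mul_of_nonneg_right this
    (mul_nonneg (co_nonneg k) (pow_nonneg y0 (2 * k + 2)))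
  rw [mul_pow]
  linarith

theorem s3 (s x : ℝ) (s0 : 0 ≤ s) (s1 : s ≤ 1) (h0 : 0 ≤ x) (h1 : x ≤ 1) :
    Ph (s * x) - (s * x) ^ 2 / 2 ≤ s ^ 4 * (Ph x - x ^ 2 / 2) := by
  refine ext (f := fun x => Ph (s * x) - (s * x) ^ 2 / 2) (g := fun x => s ^ 4 * (Ph x - x ^ 2 / 2))
    ((Ph_cont.comp (by fun_prop)).sub (by fun_prop))
    (continuous_const.mul (Ph_cont.sub (by fun_prop))) one_pos ?_ h0 h1
  intro y y0 y1
  refine hasSum_le (fun k => ?_)
    (hs1 (mul_nonneg s0 y0) (mul_lt_one_of_nonneg_of_lt_one_right s1 y0 y1))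
    ((hs1 y0 y1).mul_left (s ^ 4))
  have : s ^ (2 * (k + 1) + 2) ≤ s ^ 4 := pow_le_pow_of_le_one s0 s1 (by omega)
  have h2 := mul_le_mul_of_nonneg_right this
    (mul_nonneg (co_nonneg (k + 1)) (pow_nonneg y0 (2 * (k + 1) + 2)))
  rw [mul_pow]
  linarith

theorem s4 (u x y : ℝ) (hu : u ≤ 1 / 12) (h0 : 0 ≤ x) (hxy : x ≤ y) (h1 : y ≤ 1) :
    psi u x ≤ psi u y := by
  rcases hxy.eq_or_lt with rfl | hlt
  · exact le_rfl
  have key : Ph x - x ^ 2 / 2 - x ^ 4 / 12 ≤ Ph y - y ^ 2 / 2 - y ^ 4 / 12 := by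
    refine ext (f := fun _ => Ph x - x ^ 2 / 2 - x ^ 4 / 12)
      (g := fun y => Ph y - y ^ 2 / 2 - y ^ 4 / 12) continuous_const
      ((Ph_cont.sub (by fun_prop)).sub (by fun_prop)) (hlt.trans_le h1) ?_ hxy h1
    intro z z0 z1
    exact hasSum_le (fun k => mul_le_mul_of_nonneg_left (pow_le_pow_left₀ h0 z0 _) (co_nonneg _))
      (hs2 h0 (z0.trans_lt z1)) (hs2 (h0.trans z0) z1)
  have := mul_le_mul_of_nonneg_left (pow_le_pow_left₀ h0 hxy 4) (sub_nonneg.2 hu)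
  unfold psi
  linarith

theorem b4 (ε : ℝ) : Ph (1 - 2 * ε) = log 2 - binEntropy ε := by
  have : (1 + (1 - 2 * ε)) / 2 = 1 - ε := by ring
  rw [Ph, this, binEntropy_one_sub]

theorem b5 : Ph 1 = log 2 := by simp [Ph]

theorem cc_eq (ε : ℝ) : cc ε = (1 - 2 * ε) ^ 2 * log 2 - Ph (1 - 2 * ε) := by
  rw [b4, cc, kap]
  ring

theorem cc_nonneg (ε : ℝ) (h0 : 0 ≤ ε) (h1 : ε ≤ 1 / 2) : 0 ≤ cc ε := by
  have := s2 (1 - 2 * ε) 1 (by linarith) (by linarith) zero_le_one le_rfl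
  rw [mul_one, b5] at this
  rw [cc_eq]
  linarith

theorem gib {a b : ℝ} (ha : 0 ≤ a) (hb : 0 < b) : a * log b - a * log a ≤ b - a := by
  rcases ha.eq_or_lt with rfl | ha
  · simpa using hb.le
  have := mul_le_mul_of_nonneg_left (log_le_sub_one_of_pos (div_pos hb ha)) ha.le
  rw [log_div hb.ne' ha.ne', mul_sub, mul_sub, mul_div_cancel₀ _ ha.ne'] at this
  linarith

end Vale.Agent.P322.SerA

namespace Vale.Agent.P322

open Real SerA

theorem ser : SerStmt := ⟨SerA.s1, SerA.s2, SerA.s3, SerA.s4⟩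

theorem br : BrStmt := by
  refine ⟨?_, ?_, ?_, b4, b5, cc_nonneg, ?_, ?_⟩
  · intro W s W0 W1 s0 s1
    have hW : 1 - W ≠ 0 := by linarith
    obtain ⟨R, hR⟩ : ∃ R, R = W * s / (1 - W) := ⟨_, rfl⟩
    have e1 : 1 - W * (1 + s) = (1 - W) * (1 - R) := by
      rw [hR]
      field_simp
      ring
    have e2 : 1 - W * (1 - s) = (1 - W) * (1 + R) := by
      rw [hR]
      field_simp
      ring
    rw [← hR, Hb, h_eq, h_eq, h_eq, e1, e2, ml, ml, ml, ml, Ph_eq, Ph_eq]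
    ring
  · intro ε W r
    unfold Fe Hb
    congr 3 <;> ring
  · intro ε W r
    unfold Bb Bf Hb
    ring
  · intro p P p0 p1 P0 P1
    have h1 := gib p0 P0
    have h2 := gib (sub_nonneg.2 p1) (sub_pos.2 P1)
    rw [h_eq, Xe]
    linarith
  · intro ε e1 e2 ul uh h0 h1 h2 h3 h4
    have r0 : 0 < 1 - 2 * ε := by linarith
    rw [← b4, ← b4, ← b4]
    constructor
    · rintro ⟨-, rfl | ⟨h5, h6⟩⟩
      · have := SerA.s1 (1 - 2 * ε) r0.le (by linarith)
        have h7 : 0 ≤ (1 - 2 * ε) ^ 4 := by positivity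
        linarith
      · obtain ⟨s, hs⟩ : ∃ s, s = (1 - 2 * e2) / (1 - 2 * ε) := ⟨_, rfl⟩
        have s0 : 0 < s := hs ▸ div_pos (by linarith) r0
        have e : 1 - 2 * e2 = s * (1 - 2 * ε) := by
          rw [hs]
          field_simp
        have := SerA.s2 s (1 - 2 * ε) s0.le (hs ▸ (div_le_one r0).2 (by linarith)) r0.le
          (by linarith)
        rw [e] at h6
        refine le_of_mul_le_mul_left ?_ (pow_pos s0 2)
        rw [mul_pow] at h6
        linarith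
    · intro h6
      have r1 : 0 < 1 - 2 * e1 := by linarith
      obtain ⟨s, hs⟩ : ∃ s, s = (1 - 2 * ε) / (1 - 2 * e1) := ⟨_, rfl⟩
      have s0 : 0 < s := hs ▸ div_pos r0 r1
      have e : 1 - 2 * ε = s * (1 - 2 * e1) := by
        rw [hs]
        field_simp
      have := SerA.s2 s (1 - 2 * e1) s0.le (hs ▸ (div_le_one r1).2 (by linarith)) r1.le
        (by linarith)
      have h7 := mul_le_mul_of_nonneg_left h6 (sq_nonneg s)
      rw [e, mul_pow]
      linarith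

theorem good : GoodStmt := by
  intro ε e0 e1 h
  refine ⟨kap ε, ?_, ?_, cc_nonneg ε e0.le e1.le, ?_, ?_⟩
  · unfold kap
    nlinarith
  · unfold kap
    nlinarith [sq_nonneg (1 - 2 * ε)]
  · have h1 := SerA.s1 (1 - 2 * ε) (by linarith) (by linarith)
    have h2 : 0 ≤ (1 - 2 * ε) ^ 4 := by positivity
    have h3 := mul_le_mul_of_nonneg_left (log_two_lt_d9.le.trans (by norm_num : _ ≤ (1 : ℝ)))
      (sq_nonneg (1 - 2 * ε))
    have h4 := cc_eq ε
    have h5 : 1 - kap ε = (1 - 2 * ε) ^ 2 := by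
      unfold kap
      ring
    unfold cc at h4
    linarith
  · intro P Q Q0 QP PQ P1
    have S0 : 0 < P + Q := by linarith
    have e1' : (P + Q) / 2 * (1 + (P - Q) / (P + Q)) = P := by
      field_simp
      ring
    have e2' : (P + Q) / 2 * (1 - (P - Q) / (P + Q)) = Q := by
      field_simp
      ring
    have := h ((P + Q) / 2) ((P - Q) / (P + Q)) ⟨e0, e1, by linarith, by linarith,
      div_pos (by linarith) S0, (div_le_one S0).2 (by linarith), by rwa [e1']⟩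
    unfold CA at this
    rwa [e1', e2'] at this

end Vale.Agent.P322
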