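import Vale.Agent.P322.C12
import Vale.Agent.P322.Ser

/-! The leaf with vertex checks. -/

namespace Vale.Agent.P322.S5A

open Real C12A

theorem conc {x y t : ℝ} (x0 : 0 ≤ x) (x1 : x ≤ 1) (y0 : 0 ≤ y) (y1 : y ≤ 1) (t0 : 0 ≤ t)
    (t1 : t ≤ 1) : (1 - t) * binEntropy x + t * binEntropy y ≤ binEntropy ((1 - t) * x + t * y) :=
  strictConcave_binEntropy.concaveOn.2 ⟨x0, x1⟩ ⟨y0, y1⟩ (sub_nonneg.2 t1) t0 (by ring)

theorem mix {a b x : ℝ} (h1 : a ≤ x) (h2 : x ≤ b) :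
    ∃ t, 0 ≤ t ∧ t ≤ 1 ∧ x = (1 - t) * a + t * b := by
  rcases (h1.trans h2).eq_or_lt with h | h
  · exact ⟨0, le_rfl, zero_le_one, by linarith⟩
  · have : 0 < b - a := by linarith
    exact ⟨(x - a) / (b - a), div_nonneg (by linarith) this.le, (div_le_one this).2 (by linarith),
      by field_simp; ring⟩

noncomputable def pf (a b : ℝ) : ℝ := a * log a - a * log b

theorem tang {a b l : ℝ} (a0 : 0 ≤ a) (b0 : 0 ≤ b) (h : a ≤ 2 * b) (l0 : 0 < l) :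
    a * log l + a - l * b ≤ pf a b := by
  unfold pf
  rcases b0.eq_or_lt with rfl | hb
  · have : a = 0 := by linarith
    simp [this]
  have := SerA.gib a0 (mul_pos l0 hb)
  rw [log_mul l0.ne' hb.ne'] at this
  linarith

theorem pconv {a1 b1 a2 b2 s : ℝ} (a10 : 0 ≤ a1) (h1 : a1 ≤ 2 * b1) (a20 : 0 ≤ a2)
    (h2 : a2 ≤ 2 * b2) (s0 : 0 ≤ s) (s1 : s ≤ 1) :
    pf ((1 - s) * a1 + s * a2) ((1 - s) * b1 + s * b2) ≤ (1 - s) * pf a1 b1 + s * pf a2 b2 := by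
  have s1' := sub_nonneg.2 s1
  have n1 := mul_nonneg s1' a10
  have n2 := mul_nonneg s0 a20
  rcases (add_nonneg n1 n2).eq_or_lt with h | h
  · have z1 : (1 - s) * a1 = 0 := by linarith
    have z2 : s * a2 = 0 := by linarith
    rw [← h]
    unfold pf
    have : (1 - s) * (a1 * log a1 - a1 * log b1) + s * (a2 * log a2 - a2 * log b2) =
      (1 - s) * a1 * (log a1 - log b1) + s * a2 * (log a2 - log b2) := by ring
    rw [this, z1, z2]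
    simp
  have m1 := mul_le_mul_of_nonneg_left h1 s1'
  have m2 := mul_le_mul_of_nonneg_left h2 s0
  have hb : 0 < (1 - s) * b1 + s * b2 := by linarith
  have l0 := div_pos h hb
  have t1 := mul_le_mul_of_nonneg_left (tang a10 (by linarith) h1 l0) s1'
  have t2 := mul_le_mul_of_nonneg_left (tang a20 (by linarith) h2 l0) s0
  have e := div_mul_cancel₀ ((1 - s) * a1 + s * a2) hb.ne'
  have e2 := log_div h.ne' hb.ne'
  generalize ((1 - s) * a1 + s * a2) / ((1 - s) * b1 + s * b2) = l at t1 t2 e e2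
  have e3 : pf ((1 - s) * a1 + s * a2) ((1 - s) * b1 + s * b2) =
      ((1 - s) * a1 + s * a2) * log l := by
    rw [e2, pf]
    ring
  rw [e3]
  linarith

noncomputable def JJ (P Q : ℝ) : ℝ :=
  binEntropy ((P + Q) / 2) - (binEntropy P + binEntropy Q) / 2

theorem JJ_eq (P Q : ℝ) : JJ P Q = (pf P ((P + Q) / 2) + pf Q ((P + Q) / 2) +
    pf (1 - P) (1 - (P + Q) / 2) + pf (1 - Q) (1 - (P + Q) / 2)) / 2 := by
  simp only [JJ, SerA.h_eq, pf]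
  ring

theorem Jconv {P1 Q1 P2 Q2 s : ℝ} (a0 : 0 ≤ P1) (a1 : P1 ≤ 1) (b0 : 0 ≤ Q1) (b1 : Q1 ≤ 1)
    (c0 : 0 ≤ P2) (c1 : P2 ≤ 1) (d0 : 0 ≤ Q2) (d1 : Q2 ≤ 1) (s0 : 0 ≤ s) (s1 : s ≤ 1) :
    JJ ((1 - s) * P1 + s * P2) ((1 - s) * Q1 + s * Q2) ≤ (1 - s) * JJ P1 Q1 + s * JJ P2 Q2 := by
  have h1 := pconv (b1 := (P1 + Q1) / 2) (b2 := (P2 + Q2) / 2) a0 (by linarith) c0 (by linarith)
    s0 s1
  have h2 := pconv (b1 := (P1 + Q1) / 2) (b2 := (P2 + Q2) / 2) b0 (by linarith) d0 (by linarith)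
    s0 s1
  have h3 := pconv (b1 := 1 - (P1 + Q1) / 2) (b2 := 1 - (P2 + Q2) / 2) (sub_nonneg.2 a1)
    (by linarith) (sub_nonneg.2 c1) (by linarith) s0 s1
  have h4 := pconv (b1 := 1 - (P1 + Q1) / 2) (b2 := 1 - (P2 + Q2) / 2) (sub_nonneg.2 b1)
    (by linarith) (sub_nonneg.2 d1) (by linarith) s0 s1
  have e1 : (1 - s) * ((P1 + Q1) / 2) + s * ((P2 + Q2) / 2) =
      ((1 - s) * P1 + s * P2 + ((1 - s) * Q1 + s * Q2)) / 2 := by ring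
  have e2 : (1 - s) * (1 - (P1 + Q1) / 2) + s * (1 - (P2 + Q2) / 2) =
      1 - ((1 - s) * P1 + s * P2 + ((1 - s) * Q1 + s * Q2)) / 2 := by ring
  have e3 : ∀ x y : ℝ, (1 - s) * (1 - x) + s * (1 - y) = 1 - ((1 - s) * x + s * y) :=
    fun x y => by ring
  rw [e1] at h1 h2
  rw [e2, e3] at h3 h4
  rw [JJ_eq, JJ_eq, JJ_eq]
  linarith

noncomputable def GG (k u θ e A B V P Q : ℝ) : ℝ :=
  2 * ell e (1 - θ) A B P Q -
    2 * θ * (k * Xe ((P + Q) / 2) V + 4 * u * ((P + Q) / 2 - 2 * ((P + Q) / 2) * V + V ^ 2)) -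
    2 * (1 - θ) * (k * JJ P Q + u * (P - Q) ^ 2)

theorem Gconc {k u θ e A B V P1 Q1 P2 Q2 s : ℝ} (k0 : 0 ≤ k) (u0 : 0 ≤ u) (θ1 : θ ≤ 1)
    (a0 : 0 ≤ P1) (a1 : P1 ≤ 1) (b0 : 0 ≤ Q1) (b1 : Q1 ≤ 1)
    (c0 : 0 ≤ P2) (c1 : P2 ≤ 1) (d0 : 0 ≤ Q2) (d1 : Q2 ≤ 1) (s0 : 0 ≤ s) (s1 : s ≤ 1)
    (g1 : 0 ≤ GG k u θ e A B V P1 Q1) (g2 : 0 ≤ GG k u θ e A B V P2 Q2) :
    0 ≤ GG k u θ e A B V ((1 - s) * P1 + s * P2) ((1 - s) * Q1 + s * Q2) := by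
  have θ1' := sub_nonneg.2 θ1
  have h1 := mul_le_mul_of_nonneg_left (Jconv a0 a1 b0 b1 c0 c1 d0 d1 s0 s1) (mul_nonneg θ1' k0)
  have h2 := mul_nonneg (mul_nonneg θ1' u0)
    (mul_nonneg (mul_nonneg s0 (sub_nonneg.2 s1)) (sq_nonneg ((P1 - Q1) - (P2 - Q2))))
  have h3 := mul_nonneg (sub_nonneg.2 s1) g1
  have h4 := mul_nonneg s0 g2
  have e : GG k u θ e A B V ((1 - s) * P1 + s * P2) ((1 - s) * Q1 + s * Q2) =
      (1 - s) * GG k u θ e A B V P1 Q1 + s * GG k u θ e A B V P2 Q2 +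
        2 * ((1 - θ) * k * ((1 - s) * JJ P1 Q1 + s * JJ P2 Q2) -
          (1 - θ) * k * JJ ((1 - s) * P1 + s * P2) ((1 - s) * Q1 + s * Q2)) +
        2 * ((1 - θ) * u * (s * (1 - s) * ((P1 - Q1) - (P2 - Q2)) ^ 2)) := by
    unfold GG ell Xe
    ring
  rw [e]
  linarith

theorem EV_eq (c : Cell) (θ e A B W r : ℝ) (h : W = c.W1 ∨ W = c.W2) :
    EV c θ e A B W r = GG (kap e + (c.e2 - c.e1) ^ 2) (Xe e ((c.e1 + c.e2) / 2) - kap e * log 2)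
      θ e A B ((c.W1 + c.W2) / 2) (W * (1 + r)) (W * (1 - r)) := by
  have e1 : (W * (1 + r) + W * (1 - r)) / 2 = W := by ring
  have e2 : W - 2 * W * ((c.W1 + c.W2) / 2) + ((c.W1 + c.W2) / 2) ^ 2 =
      W * (1 - W) + ((c.W2 - c.W1) / 2) ^ 2 := by
    rcases h with h | h <;> rw [h] <;> ring
  unfold EV GG JJ Hb ell
  rw [e1, e2]
  ring

theorem box {W r : ℝ} (W0 : 0 ≤ W) (W1 : W ≤ 1 / 2) (r0 : 0 ≤ r) (r1 : r ≤ 1) :
    0 ≤ W * (1 + r) ∧ W * (1 + r) ≤ 1 ∧ 0 ≤ W * (1 - r) ∧ W * (1 - r) ≤ 1 :=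
  ⟨by positivity, by nlinarith, mul_nonneg W0 (by linarith), by nlinarith⟩

theorem cellG {c : Cell} (hc : c.OK) {θ e A B W r : ℝ} (θ1 : θ ≤ 1) (hv : VEnd c θ e A B)
    (k0 : 0 ≤ kap e + (c.e2 - c.e1) ^ 2) (u0 : 0 ≤ Xe e ((c.e1 + c.e2) / 2) - kap e * log 2)
    (h1 : c.W1 ≤ W) (h2 : W ≤ c.W2) (h3 : c.r1 ≤ r) (h4 : r ≤ c.r2) :
    0 ≤ GG (kap e + (c.e2 - c.e1) ^ 2) (Xe e ((c.e1 + c.e2) / 2) - kap e * log 2)
      θ e A B ((c.W1 + c.W2) / 2) (W * (1 + r)) (W * (1 - r)) := by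
  obtain ⟨-, -, -, W0, W12, W2, r0, r12, r2⟩ := hc
  obtain ⟨-, -, -, -, v1, v2, v3, v4⟩ := hv
  rw [EV_eq _ _ _ _ _ _ _ (Or.inl rfl)] at v1 v2
  rw [EV_eq _ _ _ _ _ _ _ (Or.inr rfl)] at v3 v4
  obtain ⟨s, s0, s1, hs⟩ := mix h1 h2
  obtain ⟨t, t0, t1, ht⟩ := mix h3 h4
  have step : ∀ ρ, 0 ≤ ρ → ρ ≤ 1 →
      0 ≤ GG (kap e + (c.e2 - c.e1) ^ 2) (Xe e ((c.e1 + c.e2) / 2) - kap e * log 2)
        θ e A B ((c.W1 + c.W2) / 2) (c.W1 * (1 + ρ)) (c.W1 * (1 - ρ)) →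
      0 ≤ GG (kap e + (c.e2 - c.e1) ^ 2) (Xe e ((c.e1 + c.e2) / 2) - kap e * log 2)
        θ e A B ((c.W1 + c.W2) / 2) (c.W2 * (1 + ρ)) (c.W2 * (1 - ρ)) →
      0 ≤ GG (kap e + (c.e2 - c.e1) ^ 2) (Xe e ((c.e1 + c.e2) / 2) - kap e * log 2)
        θ e A B ((c.W1 + c.W2) / 2) (W * (1 + ρ)) (W * (1 - ρ)) := by
    intro ρ ρ0 ρ1 g1 g2
    obtain ⟨a0, a1, b0, b1⟩ := box W0 (W12.trans W2) ρ0 ρ1
    obtain ⟨c0, c1, d0, d1⟩ := box (W0.trans W12) W2 ρ0 ρ1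
    have := Gconc k0 u0 θ1 a0 a1 b0 b1 c0 c1 d0 d1 s0 s1 g1 g2
    have e1 : (1 - s) * (c.W1 * (1 + ρ)) + s * (c.W2 * (1 + ρ)) = W * (1 + ρ) := by rw [hs]; ring
    have e2 : (1 - s) * (c.W1 * (1 - ρ)) + s * (c.W2 * (1 - ρ)) = W * (1 - ρ) := by rw [hs]; ring
    rwa [e1, e2] at this
  obtain ⟨a0, a1, b0, b1⟩ := box (W0.trans h1) (h2.trans W2) r0 (r12.trans r2)
  obtain ⟨c0, c1, d0, d1⟩ := box (W0.trans h1) (h2.trans W2) (r0.trans r12) r2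
  have := Gconc k0 u0 θ1 a0 a1 b0 b1 c0 c1 d0 d1 t0 t1 (step _ r0 (r12.trans r2) v1 v3)
    (step _ (r0.trans r12) r2 v2 v4)
  have e1 : (1 - t) * (W * (1 + c.r1)) + t * (W * (1 + c.r2)) = W * (1 + r) := by rw [ht]; ring
  have e2 : (1 - t) * (W * (1 - c.r1)) + t * (W * (1 - c.r2)) = W * (1 - r) := by rw [ht]; ring
  rwa [e1, e2] at this

theorem Fe_conc {e1 e2 t p q : ℝ} (a0 : 0 ≤ e1) (a1 : e1 ≤ 1) (b0 : 0 ≤ e2) (b1 : e2 ≤ 1)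
    (t0 : 0 ≤ t) (t1 : t ≤ 1) (q0 : 0 ≤ q) (qp : q ≤ p) (p1 : p ≤ 1) :
    (1 - t) * Fe e1 p q + t * Fe e2 p q ≤ Fe ((1 - t) * e1 + t * e2) p q := by
  have k : ∀ e : ℝ, 0 ≤ e → e ≤ 1 → 0 ≤ (1 - e) * p + e * q ∧ (1 - e) * p + e * q ≤ 1 ∧
      0 ≤ e * p + (1 - e) * q ∧ e * p + (1 - e) * q ≤ 1 := fun e x y =>
    ⟨by nlinarith, by nlinarith, by nlinarith, by nlinarith⟩
  obtain ⟨c1, c2, c3, c4⟩ := k e1 a0 a1
  obtain ⟨d1, d2, d3, d4⟩ := k e2 b0 b1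
  have h1 := conc c1 c2 d1 d2 t0 t1
  have h2 := conc c3 c4 d3 d4 t0 t1
  have x1 : (1 - t) * ((1 - e1) * p + e1 * q) + t * ((1 - e2) * p + e2 * q) =
      (1 - ((1 - t) * e1 + t * e2)) * p + ((1 - t) * e1 + t * e2) * q := by ring
  have x2 : (1 - t) * (e1 * p + (1 - e1) * q) + t * (e2 * p + (1 - e2) * q) =
      ((1 - t) * e1 + t * e2) * p + (1 - ((1 - t) * e1 + t * e2)) * q := by ring
  rw [x1] at h1
  rw [x2] at h2
  unfold Fe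
  linarith

theorem fin {θ k u K U h X w a J d : ℝ} (θ0 : 0 ≤ θ) (θ1 : θ ≤ 1) (k0 : 0 ≤ k) (u0 : 0 ≤ u)
    (hk : k ≤ K) (hu : u ≤ U) (h0 : 0 ≤ h) (hX : h ≤ X) (w0 : 0 ≤ w) (wa : w ≤ a) (J0 : 0 ≤ J)
    (d0 : 0 ≤ d) : θ * (k * h + 4 * u * w) + (1 - θ) * (k * J + u * d) ≤
      θ * (K * X + 4 * U * a) + (1 - θ) * (K * J + U * d) := by
  have K0 := k0.trans hk
  have U0 := u0.trans hu
  have := sub_nonneg.2 θ1
  gcongr

end Vale.Agent.P322.S5A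

namespace Vale.Agent.P322

open Real C12A S5A

theorem s5 (hb : BrStmt) : S5 := by
  rintro c hc θ A1 B1 A2 B2 ⟨W10, θ0, θ1, v1, v2⟩ ε W r ⟨e0, e1, W0, W1, r0, r1, P1⟩ h1 h2 h3 h4
    h5 h6
  obtain ⟨-, -, hBb, -, -, hcc, hX, -⟩ := hb
  have hc' := hc
  obtain ⟨E0, E12, E2, -, W12, W2, -⟩ := hc'
  obtain ⟨t, t0, t1, ht⟩ := mix h1 h2
  have kp : ∀ e : ℝ, 0 ≤ e → e ≤ 1 / 2 → 0 ≤ kap e := fun e x y => by
    unfold kap
    nlinarith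
  have k0 : ∀ e : ℝ, 0 ≤ e → e ≤ 1 / 2 → 0 ≤ kap e + (c.e2 - c.e1) ^ 2 := fun e x y =>
    add_nonneg (kp e x y) (sq_nonneg _)
  have u1 : ∀ e : ℝ, 0 ≤ e → e ≤ 1 / 2 → binEntropy e ≤ Xe e ((c.e1 + c.e2) / 2) := fun e x y =>
    hX e _ x (by linarith) (by linarith) (by linarith)
  have u0 : ∀ e : ℝ, 0 ≤ e → e ≤ 1 / 2 → 0 ≤ Xe e ((c.e1 + c.e2) / 2) - kap e * log 2 := by
    intro e x y
    have := hcc e x y
    have := u1 e x y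
    unfold cc at *
    linarith
  have g1 := cellG hc θ1 v1 (k0 _ E0.le (by linarith)) (u0 _ E0.le (by linarith)) h3 h4 h5 h6
  have g2 := cellG hc θ1 v2 (k0 _ (by linarith) E2) (u0 _ (by linarith) E2) h3 h4 h5 h6
  obtain ⟨a1, a2, a3, a4, -⟩ := v1
  obtain ⟨b1, b2, b3, b4, -⟩ := v2
  refine ⟨1 - θ, (1 - t) * ell c.e1 (1 - θ) A1 B1 0 0 + t * ell c.e2 (1 - θ) A2 B2 0 0,
    (1 - t) * (ell c.e1 (1 - θ) A1 B1 1 0 - ell c.e1 (1 - θ) A1 B1 0 0) +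
      t * (ell c.e2 (1 - θ) A2 B2 1 0 - ell c.e2 (1 - θ) A2 B2 0 0),
    (1 - t) * (ell c.e1 (1 - θ) A1 B1 0 1 - ell c.e1 (1 - θ) A1 B1 0 0) +
      t * (ell c.e2 (1 - θ) A2 B2 0 1 - ell c.e2 (1 - θ) A2 B2 0 0),
    sub_nonneg.2 θ1, fun p q q0 qp p1 _ => ?_, ?_⟩
  · have c1 := cert_lin E0 (by linarith) a1.le a2 a3 (by linarith) (by linarith) a4 q0 qp p1
      (fun h => absurd h a1.ne')
    have c2 := cert_lin (by linarith) E2 b1.le b2 b3 (by linarith) (by linarith) b4 q0 qp p1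
      (fun h => absurd h b1.ne')
    have c3 := Fe_conc E0.le (by linarith) (e2 := c.e2) (by linarith) (by linarith) t0 t1 q0 qp p1
    rw [← ht] at c3
    rw [ell_aff] at c1 c2
    have d1 := mul_le_mul_of_nonneg_left c1 (sub_nonneg.2 t1)
    have d2 := mul_le_mul_of_nonneg_left c2 t0
    linarith
  · have ew : (W * (1 + r) + W * (1 - r)) / 2 = W := by ring
    change _ ≤ _ + (1 - θ) * Bb ε W r
    obtain ⟨p0, p1, q0, q1⟩ := box W0.le W1 r0.le r1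
    have J0 : 0 ≤ JJ (W * (1 + r)) (W * (1 - r)) := by
      have := conc (t := 1 / 2) p0 p1 q0 q1 (by norm_num) (by norm_num)
      have e : (1 - 1 / 2) * (W * (1 + r)) + 1 / 2 * (W * (1 - r)) =
        (W * (1 + r) + W * (1 - r)) / 2 := by ring
      rw [e] at this
      unfold JJ
      linarith
    have hk : kap ε ≤ (1 - t) * (kap c.e1 + (c.e2 - c.e1) ^ 2) +
        t * (kap c.e2 + (c.e2 - c.e1) ^ 2) := by
      have := mul_nonneg (sq_nonneg (1 - 2 * t)) (sq_nonneg (c.e2 - c.e1))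
      rw [ht]
      unfold kap
      linarith
    have hu : cc ε ≤ (1 - t) * (Xe c.e1 ((c.e1 + c.e2) / 2) - kap c.e1 * log 2) +
        t * (Xe c.e2 ((c.e1 + c.e2) / 2) - kap c.e2 * log 2) := by
      have m1 := u1 ε e0.le e1.le
      have m2 := mul_nonneg (mul_nonneg (mul_nonneg t0 (sub_nonneg.2 t1))
        (sq_nonneg (c.e2 - c.e1))) (log_nonneg one_le_two)
      have m3 : Xe ε ((c.e1 + c.e2) / 2) = (1 - t) * Xe c.e1 ((c.e1 + c.e2) / 2) +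
          t * Xe c.e2 ((c.e1 + c.e2) / 2) := by
        rw [ht]
        unfold Xe
        ring
      have m4 : kap ε = (1 - t) * kap c.e1 + t * kap c.e2 + 4 * (t * (1 - t) * (c.e2 - c.e1) ^ 2) := by
        rw [ht]
        unfold kap
        ring
      unfold cc
      rw [m4]
      linarith
    have := fin (w := W * (1 - W))
      (a := W - 2 * W * ((c.W1 + c.W2) / 2) + ((c.W1 + c.W2) / 2) ^ 2)
      θ0 θ1 (kp ε e0.le e1.le) (hcc ε e0.le e1.le) hk hu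
      (binEntropy_nonneg W0.le (by linarith))
      (hX W ((c.W1 + c.W2) / 2) W0.le (by linarith) (by linarith) (by linarith))
      (mul_nonneg W0.le (by linarith)) (by nlinarith [sq_nonneg (W - (c.W1 + c.W2) / 2)]) J0
      (sq_nonneg (W * (1 + r) - W * (1 - r)))
    have d1 := mul_nonneg (sub_nonneg.2 t1) g1
    have d2 := mul_nonneg t0 g2
    have eJ : Hb W r = binEntropy W - JJ (W * (1 + r)) (W * (1 - r)) := by
      unfold JJ Hb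
      rw [ew]
      ring
    unfold GG at d1 d2
    rw [ell_aff, ew] at d1 d2
    rw [hBb, eJ, ew, Bf]
    linarith

end Vale.Agent.P322
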