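import Vale.Agent.P322.DatA
import Vale.Agent.P322.DatB
import Vale.Agent.P322.DatC
import Vale.Agent.P322.DatD
import Vale.Agent.P322.DatE
import Vale.Agent.P322.Ind
import Vale.Agent.P322.Ser

/-! Assembly of the certificates. -/

namespace Vale.Agent.P322

open Iv Dat

theorem allDone (H : AllS) :
    DN 4835703278458516698824704 39614081257132168796771975168 0 39614081257132168796771975168
      0 79228162514264337593543950336 :=
  dn_x (qp H) <| dn_x (qo H) <| dn_x (qn H) <| dn_x (qm H) <| dn_x (ql H) <| dn_x (qk H) <|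
    dn_x (qj H) <| dn_x (qi H) <| dn_x (qh H) <| dn_x (qg H) <| dn_x (qf H) <| dn_x (qe H) <|
    dn_x (qd H) <| dn_x (qc H) <| dn_x (qb H) (qa H)

theorem ck_all (H : AllS) (hl : LowStmt) (n : ℕ) (f : (Fin n → ℤˣ) → ℤˣ) (ε : ℝ) (h0 : 0 ≤ ε)
    (h1 : ε ≤ 1 / 2) : mutInf ε f ≤ 1 - h2 ε := by
  rcases h0.eq_or_lt with rfl | h0
  · exact (ends n f).1
  rcases h1.eq_or_lt with rfl | h1
  · exact (ends n f).2
  refine ind ε h0 h1 (good ε h0 h1 fun W r hd => ?_) n f
  rcases le_total ε (1 / 2 ^ 14) with k | k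
  · exact hl ε W r hd k
  have e1 : val 4835703278458516698824704 = 1 / 2 ^ 14 := by unfold val S; norm_num
  have e2 : val 39614081257132168796771975168 = 1 / 2 := by unfold val S; norm_num
  have e3 : val 0 = 0 := by simp [val]
  have e4 : val 79228162514264337593543950336 = 1 := by unfold val S; norm_num
  obtain ⟨a1, a2, a3, a4, a5, a6, a7⟩ := id hd
  exact allDone H ε W r hd (e1.le.trans k) (a2.le.trans e2.ge) (e3.le.trans a3.le)
    (a4.trans e2.ge) (e3.le.trans a5.le) (a6.trans e4.ge)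

end Vale.Agent.P322
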